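import Vale.Agent.P167.H680.T.Row
import Vale.Agent.P167.H825.Q.Rows

/-!
# P167, general `q`, block 2A: the class of `H825/Q/Rows` consists of the walls of rows

`clR_P_iff`: if the normalisation `Zr` is invariant under the reflections and translations of the
rows, the walls of the class `H825.Q.clR θ Zr` are exactly the walls of admissible rows.
-/

namespace Vale.Agent.P167.H680.T

open Finset Filter Topology MeasureTheory
open Vale.Agent.P167.H592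
open Vale.Agent.P167.H825.Q (Row rowP)

/-- The data of a row. -/
noncomputable def toRD (r : Row) (z : ℝ) : RD := ⟨r.o, r.x, r.L, r.c, r.j, r.k0, r.s, r.η, z⟩

/-- The row of the data. -/
noncomputable def RD.row (d : RD) : Row := ⟨d.o, d.q, d.L, d.c, d.j, d.s, d.η, d.k0⟩

theorem row_toRD (r : Row) (z : ℝ) : (toRD r z).row = r := rfl

theorem toRD_row (d : RD) : toRD d.row d.z = d := rfl

variable {θ κ : ℝ} {n : ℕ}

theorem toRD_D (r : Row) (z : ℝ) : (toRD r z).D = r.I := rfl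

theorem ix_cast {r : Row} {z : ℝ} {v : ℤ × ℤ} (h : v ∈ r.I) (k : ℕ) :
    (k : ℤ) ≤ (toRD r z).ix v ↔ k ≤ r.ix v := by
  have h0 := (RD.ix_mem (d := toRD r z) h).1
  unfold RD.ix at h0 ⊢
  unfold Row.ix
  show (k : ℤ) ≤ (if r.o then v.1 - r.x.1 else v.2 - r.x.2) ↔
    k ≤ if r.o then (v.1 - r.x.1).toNat else (v.2 - r.x.2).toNat
  change 0 ≤ (if r.o then v.1 - r.x.1 else v.2 - r.x.2) at h0
  split_ifs at h0 ⊢ <;> omega

/-- The walls agree. -/
theorem wall_toRD (r : Row) (z : ℝ) : (toRD r z).wall θ = r.wall θ z := by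
  unfold RD.wall Row.wall
  rw [toRD_D]
  refine thk_congr (fun v hv => ?_) fun v hv => ?_
  · unfold RD.Φ Row.Φ
    have h := ix_cast (z := z) hv r.k0
    show r.c + (if (r.k0 : ℤ) ≤ (toRD r z).ix v then r.j else 0) = _
    simp only [h]
  · unfold RD.ta Row.τ
    have h := ix_cast (z := z) hv r.k0
    show r.s * (if (r.k0 : ℤ) ≤ (toRD r z).ix v then r.η else 1) = _
    simp only [h]

theorem ok_toRD (r : Row) (z : ℝ) (hκ : 0 ≤ κ * n) : (toRD r z).Ok θ κ n ↔ r.Ok θ κ n := by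
  constructor
  · intro h
    refine ⟨h.len, h.s, ?_⟩
    rcases h.jn with h1 | ⟨h1, h2, h3, h4⟩
    · exact Or.inl h1
    · right
      refine ⟨?_, h1, h2⟩
      rcases h4 with ⟨h5, h6⟩ | ⟨h5, h6⟩
      · exact Or.inl ⟨h6, h5⟩
      · exact Or.inr ⟨h6, h5⟩
  · intro h
    refine ⟨h.s, h.len, ?_⟩
    rcases h.kind with h1 | ⟨h1, h2, h3⟩
    · exact Or.inl h1
    · right
      have h4 : (r.k0 : ℝ) ≤ r.L := by linarith
      refine ⟨h2, h3, by exact_mod_cast h4, ?_⟩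
      rcases h1 with ⟨h5, h6⟩ | ⟨h5, h6⟩
      · exact Or.inl ⟨h6, h5⟩
      · exact Or.inr ⟨h6, h5⟩

/-- Invariance of a normalisation of rows under translations and reflections. -/
structure ZInvR (θ : ℝ) (Zr : ℕ → Row → ℝ) : Prop where
  tr : ∀ {κ : ℝ} {n : ℕ} {d : RD} (v : ℤ × ℤ), d.Ok θ κ n → Zr n (d.tr v).row = Zr n d.row
  rD : ∀ {κ : ℝ} {n : ℕ} {d : RD}, d.Ok θ κ n → Zr n d.rD.row = Zr n d.row
  rX : ∀ {κ : ℝ} {n : ℕ} {d : RD}, d.Ok θ κ n → Zr n d.rX.row = Zr n d.row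

/-- The images of the wall of a row are the walls of rows with the same normalisation. -/
theorem orb_row {Zr : ℕ → Row → ℝ} (hZ : ZInvR θ Zr) {d : RD} (hd : d.Ok θ κ n) {w : WallG}
    (h : Orb (d.wall θ) w) : ∃ d' : RD, d'.Ok θ κ n ∧ w = d'.wall θ ∧ d'.L = d.L ∧ d'.z = d.z ∧
      Zr n d'.row = Zr n d.row := by
  induction h with
  | refl => exact ⟨d, hd, rfl, rfl, rfl, rfl⟩
  | tr v _ ih =>
    obtain ⟨d', h1, rfl, h2, h3, h4⟩ := ih
    exact ⟨d'.tr v, h1.tr v, d'.wtr_wall v, h2, h3, (hZ.tr v h1).trans h4⟩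
  | rD _ ih =>
    obtain ⟨d', h1, rfl, h2, h3, h4⟩ := ih
    exact ⟨d'.rD, h1.rD, d'.wrD_wall, h2, h3, (hZ.rD h1).trans h4⟩
  | rX _ ih =>
    obtain ⟨d', h1, rfl, h2, h3, h4⟩ := ih
    refine ⟨d'.rX, h1.rX, RD.wrX_wall h1, ?_, (RD.rX_z _).trans h3, (hZ.rX h1).trans h4⟩
    rw [← h2]
    unfold RD.rX RD.rev
    split_ifs <;> rfl

/-- **The walls of the class are the walls of admissible rows.** -/
theorem clR_P_iff {Zr : ℕ → Row → ℝ} (hZ : ZInvR θ Zr) (hκ : 0 ≤ κ * n) {w : WallG} :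
    (H825.Q.clR θ Zr).P κ n w ↔ ∃ r : Row, r.Ok θ κ n ∧ w = r.wall θ (Zr n r) := by
  constructor
  · rintro ⟨w₀, ⟨r, hr, rfl⟩, h⟩
    rw [← wall_toRD] at h
    obtain ⟨d', h1, rfl, -, h3, h4⟩ := orb_row hZ ((ok_toRD r _ hκ).2 hr) h
    refine ⟨d'.row, (ok_toRD d'.row d'.z hκ).1 h1, ?_⟩
    rw [← wall_toRD, h4]
    have : toRD d'.row (Zr n (toRD r (Zr n r)).row) = d' := by
      show (⟨d'.o, d'.q, d'.L, d'.c, d'.j, d'.k0, d'.s, d'.η, Zr n r⟩ : RD) = d'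
      rw [show Zr n r = d'.z from h3.symm]
    rw [this]
  · rintro ⟨r, hr, rfl⟩
    exact ⟨_, ⟨r, hr, rfl⟩, Orb.refl⟩

end Vale.Agent.P167.H680.T
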