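import Vale.Agent.P167.H680.T.Osb
import Vale.Agent.P167.H680.Q.Legs
import Vale.Agent.P167.H680.Gam

/-!
# P167, general `q`, block 2A: the six legs and the final statement

`s2a_abs`: abstract form. The walls are an arbitrary finite family of the class with one region
of the pinwheel for every wall; the functional `V` is arbitrary.
-/

namespace Vale.Agent.P167.H680.T

open Finset Filter Topology MeasureTheory
open Vale.Agent.P167.H592
open Vale.Agent.P167.H327 (fl)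
open Vale.Agent.P167.H825 (epos dvg Box dv FlowIn enl domP lapl Lin3 os gX gY gD gA Sys)
open Vale.Agent.P167.H199 (KB bN)
open Vale.Agent.P167.H680.Q (alpq CentreQ insP_congr)

variable {S₀ : Finset (ℤ × ℤ)} {b : Box} {φ₁ φ₂ ψ : ℝ × ℝ → ℝ}

/-! ### groups -/

/-- The insertion of a flow without walls. -/
theorem insW_flow {ι : Type} [Fintype ι] [IsEmpty ι] (w : ι → WallG) {c : Ed → ℝ}
    (hc : (Function.support c).Finite) :
    insW (⟨w, c⟩ : WCG ι) hc = fI c hc := by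
  refine LIns.ext' ?_ fun ω => ?_
  · refine Eq.trans ?_ (fI_S c hc).symm
    show (univ : Finset ι).biUnion _ = ∅
    rw [univ_eq_empty, biUnion_empty]
  · rw [fI_F]
    show H199.phO _ ω = H199.phO _ ω
    congr 1
    funext e b
    rw [flw_ph]
    show ∑ i : ι, _ + c e / 2 = _
    rw [univ_eq_empty, sum_empty, zero_add]

theorem insW_equiv {ι ι' : Type} [Fintype ι] [Fintype ι'] (f : ι ≃ ι') {W : WCG ι} {W' : WCG ι'}
    (hc : Fc W) (hc' : Fc W') (hw : ∀ i, W.w i = W'.w (f i)) (hcc : W.c = W'.c) :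
    insW W hc = insW W' hc' := by
  refine insP_congr ?_ ?_ _ _
  · ext e
    rw [mem_S_iff, mem_S_iff]
    constructor
    · rintro ⟨i, hi⟩
      exact ⟨f i, by rw [← hw]; exact hi⟩
    · rintro ⟨i, hi⟩
      exact ⟨f.symm i, by rw [hw, f.apply_symm_apply]; exact hi⟩
  · funext e b
    show ∑ i, (W.w i).a e b + W.c e / 2 = ∑ i, (W'.w i).a e b + W'.c e / 2
    rw [hcc]
    congr 1
    exact Fintype.sum_equiv f _ _ fun i => by rw [hw]

variable {ι : Type} [Fintype ι]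

/-- The walls in the region `r`. -/
abbrev GQ (reg : ι → Fin 5) (r : Fin 5) : Type := {i : ι // reg i = r}

/-- The union of the groups. -/
theorem sig_groups (reg : ι → Fin 5) (w : ι → WallG) (c : Fin 5 → Ed → ℝ)
    (hc : ∀ r, (Function.support (c r)).Finite)
    (hc' : Fc (⟨w, fun e => ∑ r, c r e⟩ : WCG ι)) :
    insW (⟨w, fun e => ∑ r, c r e⟩ : WCG ι) hc' =
      ∏ r, insW (⟨fun x : GQ reg r => w x.1, c r⟩ : WCG (GQ reg r)) (hc r) := by
  have hc2 : ∀ r, Fc (⟨fun x : GQ reg r => w x.1, c r⟩ : WCG (GQ reg r)) := hc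
  rw [← insW_sig (fun r => (⟨fun x : GQ reg r => w x.1, c r⟩ : WCG (GQ reg r))) hc2]
  exact (insW_equiv (Equiv.sigmaFiberEquiv reg) (sig_fc hc2) hc'
    (fun i => by rcases i with ⟨r, x, hx⟩; rfl) rfl).symm

theorem prod_groups (reg : ι → Fin 5) (f : ι → ℝ) :
    ∏ r, ∏ x : GQ reg r, f x.1 = ∏ i, f i := by
  rw [← Fintype.prod_sigma (α := fun r => GQ reg r) (f := fun x => f x.2.1)]
  exact Fintype.prod_equiv (Equiv.sigmaFiberEquiv reg) _ _ fun x => by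
    rcases x with ⟨r, x, hx⟩
    rfl

/-- A family of walls for the domain `S₀` and the box `b`; `reg i` is the region of the wall `i`. -/
structure Fam (Cl : Cls) (S₀ : Finset (ℤ × ℤ)) (b : Box) (reg : ι → Fin 5) (w : ℕ → ι → WallG) :
    Prop where
  ne : ∀ i, reg i ≠ 4
  geo : ∀ κ₀ : ℝ, 0 < κ₀ → ∃ κ : ℝ, 0 < κ ∧ ∃ R : ℝ, ∀ B : ℝ, ∀ᶠ n : ℕ in atTop,
    (∀ c : Ed → ℝ, FlowIn (enl S₀ n) κ₀ B n c → (⟨w n, c⟩ : WCG ι).Adm κ R B n) ∧
    (∀ i, ∀ e ∈ (w n i).S, Mg b κ n (reg i) (epos e) ∧ (nm (epos e) : ℝ) ≤ R * n) ∧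
    (∀ i, Cl.P κ n (w n i))

omit [Fintype ι] in
theorem Fam.isEmpty {Cl : Cls} {reg : ι → Fin 5} {w : ℕ → ι → WallG} (hF : Fam Cl S₀ b reg w) :
    IsEmpty (GQ reg 4) := ⟨fun x => hF.ne x.1 x.2⟩

/-- The groups. -/
noncomputable def gam (reg : ι → Fin 5) (w : ℕ → ι → WallG) (h : Dat S₀ b φ₁ φ₂ ψ) (σ s : ℝ)
    (he : IsEmpty (GQ reg 4)) : Grp (fun r => GQ reg r) where
  G r n := ⟨fun x => w n x.1, pf b φ₁ φ₂ n r⟩
  hc r n := h.pf_fin n r
  G1 n := ⟨fun x => w n x.1, pf1 b φ₁ φ₂ ψ s n 4⟩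
  hc1 n := h.pf1_fin s n 4
  α := alpq σ (dvg φ₁ φ₂) ψ s
  g r n := if r = 4 then YC (pf b φ₁ φ₂ n 4) (dC ψ s n) (h.pf_fin n 4) (h.dC_fin s n)
    (alpq σ (dvg φ₁ φ₂) ψ s) else
    insW (⟨fun x => w n x.1, pf b φ₁ φ₂ n r⟩ : WCG (GQ reg r)) (h.pf_fin n r)
  hg r hr n := if_neg hr
  hg4 n := by
    have key := lin3_YC (pf b φ₁ φ₂ n 4) (dC ψ s n) (h.pf_fin n 4) (h.dC_fin s n)
      (alpq σ (dvg φ₁ φ₂) ψ s)
    have e1 : insW (⟨fun x => w n x.1, pf1 b φ₁ φ₂ ψ s n 4⟩ : WCG (GQ reg 4)) (h.pf1_fin s n 4) =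
        fI (fun e => pf b φ₁ φ₂ n 4 e + dC ψ s n e) (fs_add (h.pf_fin n 4) (h.dC_fin s n)) := by
      rw [insW_flow]
      congr 1
    rw [if_pos rfl, e1, insW_flow]
    exact key
  hw n := rfl

variable {h : Dat S₀ b φ₁ φ₂ ψ} {σ s : ℝ} {reg : ι → Fin 5} {w : ℕ → ι → WallG}
  {he : IsEmpty (GQ reg 4)}

theorem gam_g4 (n : ℕ) : (gam reg w h σ s he).g 4 n = YC (pf b φ₁ φ₂ n 4) (dC ψ s n)
    (h.pf_fin n 4) (h.dC_fin s n) (alpq σ (dvg φ₁ φ₂) ψ s) := rfl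

theorem gam_g {r : Fin 5} (hr : r ≠ 4) (n : ℕ) : (gam reg w h σ s he).g r n =
    insW (⟨fun x => w n x.1, pf b φ₁ φ₂ n r⟩ : WCG (GQ reg r)) (h.pf_fin n r) := if_neg hr

omit [Fintype ι] in
theorem fc_pf (h : Dat S₀ b φ₁ φ₂ ψ) (w : ι → WallG) (n : ℕ) :
    Fc (⟨w, fun e => ∑ r, pf b φ₁ φ₂ n r e⟩ : WCG ι) := by
  refine (Set.finite_iUnion fun r => h.pf_fin n r).subset fun e he => ?_
  rw [Set.mem_iUnion]
  by_contra hn
  push Not at hn
  apply he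
  show ∑ r, pf b φ₁ φ₂ n r e = 0
  exact sum_eq_zero fun r _ => by
    have := hn r
    simpa [Function.mem_support] using this

omit [Fintype ι] in
theorem fc_pf1 (h : Dat S₀ b φ₁ φ₂ ψ) (s : ℝ) (w : ι → WallG) (n : ℕ) :
    Fc (⟨w, fun e => ∑ r, pf1 b φ₁ φ₂ ψ s n r e⟩ : WCG ι) := by
  refine (Set.finite_iUnion fun r => h.pf1_fin s n r).subset fun e he => ?_
  rw [Set.mem_iUnion]
  by_contra hn
  push Not at hn
  apply he
  show ∑ r, pf1 b φ₁ φ₂ ψ s n r e = 0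
  exact sum_eq_zero fun r _ => by
    have := hn r
    simpa [Function.mem_support] using this

/-- The product of the groups and the centre. -/
theorem om_prod {c : ℝ} {om : Ins → ℂ} (hom : IsOm c om) (n : ℕ) :
    (sysOm om).w (∏ r, (gam reg w h σ s he).g r n) =
      om (insW (⟨w n, fun e => ∑ r, pf1 b φ₁ φ₂ ψ s n r e⟩ : WCG ι) (fc_pf1 h s (w n) n)).1 -
      alpq σ (dvg φ₁ φ₂) ψ s *
        om (insW (⟨w n, fun e => ∑ r, pf b φ₁ φ₂ n r e⟩ : WCG ι) (fc_pf h (w n) n)).1 := by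
  classical
  set Γ := gam reg w h σ s he with hΓ
  set P : LIns := ∏ r ∈ univ.erase (4 : Fin 5), Γ.g r n with hP
  have h4 : (4 : Fin 5) ∈ (univ : Finset (Fin 5)) := mem_univ _
  have e0 : insW (⟨w n, fun e => ∑ r, pf b φ₁ φ₂ n r e⟩ : WCG ι) (fc_pf h (w n) n) =
      P * insW (Γ.G 4 n) (Γ.hc 4 n) := by
    rw [sig_groups reg (w n) (fun r => pf b φ₁ φ₂ n r) (fun r => h.pf_fin n r) (fc_pf h (w n) n),
      ← Finset.prod_erase_mul _ _ h4]
    refine congrArg (· * insW (Γ.G 4 n) (Γ.hc 4 n)) ?_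
    refine Finset.prod_congr rfl fun r hr => ?_
    exact (gam_g (Finset.ne_of_mem_erase hr) n).symm
  have e1 : insW (⟨w n, fun e => ∑ r, pf1 b φ₁ φ₂ ψ s n r e⟩ : WCG ι) (fc_pf1 h s (w n) n) =
      P * insW (Γ.G1 n) (Γ.hc1 n) := by
    rw [sig_groups reg (w n) (fun r => pf1 b φ₁ φ₂ ψ s n r) (fun r => h.pf1_fin s n r)
      (fc_pf1 h s (w n) n), ← Finset.prod_erase_mul _ _ h4]
    refine congrArg (· * insW (Γ.G1 n) (Γ.hc1 n)) ?_
    refine Finset.prod_congr rfl fun r hr => ?_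
    rw [gam_g (Finset.ne_of_mem_erase hr) n]
    refine insW_congr ?_ _ _
    rw [pf1_ne _ _ _ _ _ _ (Finset.ne_of_mem_erase hr)]
  have e2 : (∏ r, Γ.g r n) = P * Γ.g 4 n := (Finset.prod_erase_mul _ _ h4).symm
  show om (∏ r, Γ.g r n).1 = _
  rw [e2, H825.om_lin3 hom (Γ.hg4 n) P, ← e0, ← e1]
  rfl

/-- The normalisation. -/
theorem prod_Z (Cl : Cls) (n : ℕ) :
    ∏ r, (gam reg w h σ s he).Z Cl r n = ∏ i, Cl.Z n (w n i) :=
  prod_groups reg fun i => Cl.Z n (w n i)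

theorem gam_Z4 (Cl : Cls) (n : ℕ) : (gam reg w h σ s he).Z Cl 4 n = 1 := by
  show ∏ x : GQ reg 4, Cl.Z n (w n x.1) = 1
  rw [univ_eq_empty, prod_empty]

/-- **The estimates.** -/
theorem gam_ok {Cl : Cls} (h : Dat S₀ b φ₁ φ₂ ψ) (σ s : ℝ) (hF : Fam Cl S₀ b reg w)
    (hCl : Cl.Ok) : ∃ η : ℝ, 0 < η ∧ ∃ ρ : ℕ, ∃ κ R B : ℝ,
      (gam reg w h σ s hF.isEmpty).Ok Cl (KB b ρ η) (bN η) κ R B ∧
      (∀ᶠ n : ℕ in atTop, |⌊b.xl * n⌋| ≤ ρ * bN η n ∧ |⌊b.xr * n⌋| ≤ ρ * bN η n ∧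
        |⌊b.yb * n⌋| ≤ ρ * bN η n ∧ |⌊b.yt * n⌋| ≤ ρ * bN η n) ∧
      (∀ᶠ n : ℕ in atTop, LI (KB b ρ η 4 n) (YC (pf b φ₁ φ₂ n 4) (dC ψ s n) (h.pf_fin n 4)
        (h.dC_fin s n) (alpq σ (dvg φ₁ φ₂) ψ s)).1) := by
  obtain ⟨κ₀, hκ₀, B, hB, hFl⟩ := h.flowIn s
  obtain ⟨κ₁, hκ₁, R₁, hM⟩ := h.mg s
  obtain ⟨κ₂, hκ₂, R₂, H2⟩ := hF.geo κ₀ hκ₀
  set κ : ℝ := min κ₁ κ₂ with hκ
  have hκ0 : 0 < κ := lt_min hκ₁ hκ₂
  set R : ℝ := max R₁ R₂ with hR
  set η : ℝ := min (κ / 8) 1 with hη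
  have hη0 : 0 < η := lt_min (by positivity) one_pos
  have hη8 : 8 * η ≤ κ := by
    have := min_le_left (κ / 8) 1
    rw [← hη] at this
    linarith
  obtain ⟨ρ₀, hρ₀⟩ := H199.edT_of_mg b R hη0 hη8
  set bb : ℝ := |b.xl| + |b.xr| + |b.yb| + |b.yt| + 1 with hbb
  obtain ⟨ρ₁, hρ₁⟩ := NN_rho hη0 bb
  set ρ : ℕ := max ρ₀ ρ₁ with hρ
  have hn1 : ∀ᶠ n : ℕ in atTop, (∀ r : Fin 5, ∀ e, pf b φ₁ φ₂ n r e ≠ 0 ∨
      pf1 b φ₁ φ₂ ψ s n r e ≠ 0 → e ∈ EdT (KB b ρ η r n)) := by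
    filter_upwards [hM, hρ₀ ρ (le_max_left _ _)] with n hn hn' r e he
    have h3 := hn r e he
    exact hn' r e (mg_mono h3.1 (min_le_left _ _))
      (h3.2.trans (mul_le_mul_of_nonneg_right (le_max_left _ _) (Nat.cast_nonneg _)))
  refine ⟨η, hη0, ρ, min κ (η / 2), R, B, ?_, ?_, ?_⟩
  · have hn2 : ∀ᶠ n : ℕ in atTop, (∀ (r : Fin 5) (c : Ed → ℝ),
        ∀ e ∈ (⟨fun x => w n x.1, c⟩ : WCG (GQ reg r)).S, e ∈ EdT (KB b ρ η r n)) := by
      filter_upwards [H2 B, hρ₀ ρ (le_max_left _ _)] with n hn hn' r c e he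
      obtain ⟨⟨i, hi⟩, hx⟩ := mem_S_iff.1 he
      have h3 := hn.2.1 i e hx
      rw [hi] at h3
      exact hn' r e (mg_mono h3.1 (min_le_right _ _))
        (h3.2.trans (mul_le_mul_of_nonneg_right (le_max_right _ _) (Nat.cast_nonneg _)))
    have hle : ∀ n : ℕ, min κ (η / 2) * n ≤ κ₂ * n := fun n => mul_le_mul_of_nonneg_right
      ((min_le_left _ _).trans (min_le_right _ _)) (Nat.cast_nonneg _)
    have hleR : ∀ n : ℕ, R₂ * n ≤ R * n := fun n =>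
      mul_le_mul_of_nonneg_right (le_max_right _ _) (Nat.cast_nonneg _)
    refine ⟨lt_min hκ0 (by positivity), ?_, ?_, ?_, ?_, ?_, ?_, ?_, ?_⟩
    · filter_upwards [(tendsto_natCast_atTop_atTop (R := ℝ)).eventually_ge_atTop (2 / η),
        eventually_gt_atTop 0] with n hn hn0
      have hn0' : (0 : ℝ) < n := by exact_mod_cast hn0
      have hn1 : (1 : ℝ) ≤ n := by exact_mod_cast hn0
      rw [div_le_iff₀ hη0] at hn
      have f1 := Nat.lt_floor_add_one (η * n)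
      have f2 := Nat.floor_le (show 0 ≤ η * n by positivity)
      constructor
      · have h3 : (⌊η * n⌋₊ : ℝ) ≤ bN η n := by
          unfold bN
          exact_mod_cast le_max_right _ _
        have h4 : min κ (η / 2) * n ≤ η / 2 * n :=
          mul_le_mul_of_nonneg_right (min_le_right _ _) hn0'.le
        linarith
      · unfold bN
        push_cast
        refine max_le hn1 (f2.trans ?_)
        have := min_le_right (κ / 8) 1
        rw [← hη] at this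
        nlinarith
    · filter_upwards [H2 B, hFl] with n hn hn' r
      exact Adm.mono (W := (gam reg w h σ s hF.isEmpty).G r n)
        (Adm.restrict (hn.1 _ (hn' r).1) (f := fun x : GQ reg r => x.1)
          Subtype.val_injective) (hle n) (hleR n) le_rfl
    · filter_upwards [H2 B, hFl] with n hn hn'
      exact Adm.mono (W := (gam reg w h σ s hF.isEmpty).G1 n)
        (Adm.restrict (hn.1 _ (hn' 4).2) (f := fun x : GQ reg 4 => x.1)
          Subtype.val_injective) (hle n) (hleR n) le_rfl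
    · filter_upwards [H2 B] with n hn r i
      exact hCl.mono (hle n) (hn.2.2 i.1)
    · filter_upwards [hn1, hn2] with n a1 a2 r
      exact pts_sub (a2 r _) fun e he => a1 r e (Or.inl he)
    · filter_upwards [hn1, hn2] with n a1 a2
      exact pts_sub (a2 4 _) fun e he => a1 4 e (Or.inr he)
    · filter_upwards [hn1, hn2] with n a1 a2 r
      exact insW_LI _ (a2 r _) fun e he => a1 r e (Or.inl he)
    · filter_upwards [hn1, hn2] with n a1 a2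
      exact insW_LI _ (a2 4 _) fun e he => a1 4 e (Or.inr he)
  · have hbd : ∀ y : ℝ, |y| ≤ bb - 1 → ∀ n : ℕ, (∀ x : ℝ, x ≤ bb * n → x + 2 ≤ ρ₁ * NN η n) →
        1 ≤ n → |⌊y * n⌋| ≤ ρ * bN η n := by
      intro y hy n hn hn1
      have hn1' : (1 : ℝ) ≤ n := by exact_mod_cast hn1
      have h3 := hn (bb * n) le_rfl
      have h4 := Int.floor_le (y * n)
      have h5 := Int.lt_floor_add_one (y * n)
      have h6 : |y * n| ≤ (bb - 1) * n := by
        rw [abs_mul, abs_of_nonneg (show (0 : ℝ) ≤ n by positivity)]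
        exact mul_le_mul_of_nonneg_right hy (by positivity)
      rw [abs_le] at h6
      have h7 : (ρ₁ : ℝ) * NN η n ≤ ρ * bN η n := by
        have : (ρ₁ : ℝ) ≤ ρ := by exact_mod_cast le_max_right ρ₀ ρ₁
        exact mul_le_mul_of_nonneg_right this (Nat.cast_nonneg _)
      have h8 : (|⌊y * n⌋| : ℝ) ≤ ρ * bN η n := by
        rw [abs_le]
        constructor <;> nlinarith [h6.1, h6.2]
      exact_mod_cast h8
    filter_upwards [hρ₁, eventually_ge_atTop 1] with n hn hn1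
    have p1 := abs_nonneg b.xl
    have p2 := abs_nonneg b.xr
    have p3 := abs_nonneg b.yb
    have p4 := abs_nonneg b.yt
    exact ⟨hbd _ (by rw [hbb]; linarith) n hn hn1, hbd _ (by rw [hbb]; linarith) n hn hn1,
      hbd _ (by rw [hbb]; linarith) n hn hn1, hbd _ (by rw [hbb]; linarith) n hn hn1⟩
  · filter_upwards [hn1] with n a1
    refine YC_LI _ _ _ (fun e he => a1 4 e (Or.inl he)) fun e he => ?_
    by_cases h3 : pf b φ₁ φ₂ n 4 e = 0
    · refine a1 4 e (Or.inr ?_)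
      rw [pf1_four]
      show pf b φ₁ φ₂ n 4 e + dC ψ s n e ≠ 0
      rwa [h3, zero_add]
    · exact a1 4 e (Or.inl h3)

/-- **Six legs.** -/
theorem legs {c : ℝ} (hc : 1 ≤ c) {om : Ins → ℂ} (hom : IsOm c om) (hok : (sysOm om).Ok)
    {Cl : Cls} (hCl : Cl.Ok) (hH : HOSQ om Cl) {σ : ℝ} (hY : CentreQ om σ)
    (h : Dat S₀ b φ₁ φ₂ ψ) (s : ℝ) (hF : Fam Cl S₀ b reg w) : Tendsto (fun n : ℕ =>
      (om (insW (⟨w n, fun e => ∑ r, pf1 b φ₁ φ₂ ψ s n r e⟩ : WCG ι) (fc_pf1 h s (w n) n)).1 -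
        alpq σ (dvg φ₁ φ₂) ψ s *
        om (insW (⟨w n, fun e => ∑ r, pf b φ₁ φ₂ n r e⟩ : WCG ι) (fc_pf h (w n) n)).1) /
      ((∏ i, Cl.Z n (w n i) : ℝ) : ℂ)) atTop (𝓝 0) := by
  classical
  have he := hF.isEmpty
  obtain ⟨η, hη, ρ, κ, R, B, hΓ, hbox, hY4⟩ := gam_ok h σ s hF hCl
  have hc0 : (0 : ℝ) ≤ c := zero_le_one.trans hc
  have key := H825.six_legs_ev (S := sysOm om) (N := bN η) (g := (gam reg w h σ s he).g)
    (Z := (gam reg w h σ s he).Z Cl) (ρ := ρ) (xl := fun n => ⌊b.xl * n⌋)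
    (xr := fun n => ⌊b.xr * n⌋) (yb := fun n => ⌊b.yb * n⌋) (yt := fun n => ⌊b.yt * n⌋)
    hok (Eventually.of_forall fun n => one_le_NN η n) hbox
    (Eventually.of_forall fun n => Int.floor_le_floor
      (mul_le_mul_of_nonneg_right h.lr.le (Nat.cast_nonneg _)))
    (Eventually.of_forall fun n => Int.floor_le_floor
      (mul_le_mul_of_nonneg_right h.bt.le (Nat.cast_nonneg _)))
    (by
      filter_upwards [hΓ.li, hY4] with n a1 a2 i
      by_cases hi : i = 4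
      · subst hi
        exact a2
      · show LI _ ((gam reg w h σ s he).g i n).1
        rw [gam_g hi n]
        exact a1 i)
    (by
      filter_upwards [hCl.pos hΓ.κ0, hΓ.cls] with n a1 a2 i
      exact prod_pos fun x _ => a1 _ (a2 i x))
    (hom.refl_X hc0) (hom.refl_Y hc0) (hom.refl_D hc) (hom.refl_A hc)
    (Grp.osb hCl hΓ hH hom (rwX hCl) hok (hom.refl_X hc0) H825.gX_ok H825.thLin_X)
    (Grp.osb hCl hΓ hH hom (rwY hCl) hok (hom.refl_Y hc0) H825.gY_ok H825.thLin_Y)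
    (Grp.osb hCl hΓ hH hom (rwD hCl) hok (hom.refl_D hc) H825.gD_ok H825.thLin_D)
    (Grp.osb hCl hΓ hH hom (rwA hCl) hok (hom.refl_A hc) H825.gA_ok H825.thLin_A)
    (by
      have c := hY S₀ b φ₁ φ₂ ψ h s _ _ (line_tendsto b hη) (by linarith)
      refine c.congr fun n => ?_
      rw [gam_Z4, one_pow, div_one, gam_g4]
      rfl)
  refine key.congr fun n => ?_
  rw [om_prod hom n, prod_Z]

end Vale.Agent.P167.H680.T
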