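import Vale.Agent.P167.H680.T.Red
import Vale.Agent.P167.H825.Q.FinQ2

/-!
# P167, general `q`, block 2A: `HOSp` and `STARTp` in terms of the frozen rows

`wx_red`: the value `WX θ P W` of an admissible configuration of rows is
`∏ 2 (2 cos (θ / 4)) ^ (2 L)` times the expectation of `RT` on the event that the rows are frozen.
`hosp_of : HOSR → HOSp`, `startp_of : STARTR → STARTp`, `s2aQq_R`.
-/

namespace Vale.Agent.P167.H680.T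

open Finset Filter Topology MeasureTheory
open Vale.Agent.P167.H592
open Vale.Agent.P167.H519 (IsLim)
open Vale.Agent.P167.FK (Good)
open Vale.Agent.P167.E6 (IsPolygon Encloses)
open Vale.Agent.P167.H825 (dv epos FlowIn enl Marks pdir)
open Vale.Agent.P167.H825.Q (Row Bc PT frow WX HOSp STARTp S2aQq VT clR)
open Vale.Agent.P167.XDL (bS)
open Vale.Agent.P167.QX (rhoT RT XcQ)
open Vale.Agent.P167.H506.Q (fz)
open Vale.Agent.P167.Enl (tB R0 BGap exists_BGap rows_marks frow_ok frow_S)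
open Vale.Agent.P167.H199 (exists_Gap Gap)

variable {θ β : ℝ} {P : Measure Cfg}

/-- **The value of an admissible configuration of rows.** -/
theorem wx_red (hP : IsLim (2 * Real.cos θ) P) (hgd : ∀ᵐ ω ∂P, Good ω)
    (hθ : 1 ≤ 2 * Real.cos θ) {ι : Type} [Fintype ι] {W : WCG ι} (hc : Fc W) {κ R B : ℝ} {n : ℕ}
    (hW : W.Adm κ R B n) (hn : 1 < κ * n) {r : ι → Row} {z : ι → ℝ}
    (hr : ∀ i, W.w i = (r i).wall θ (z i)) (hL : ∀ i, 1 ≤ (r i).L) (σ : Cfg) :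
    WX θ P W = (∏ i, 2 * (2 * Real.cos (θ / 4)) ^ (2 * (r i).L)) *
      ∫ ω, fz (uI r) σ ω * RT θ (uI r) W.ph ω ∂P := by
  classical
  have := hP.1
  unfold WX
  rw [adm_S hW hn hr]
  have h0 := (fs_ph hc).off
  have h1 := QX.int_thick (D := uI r) (a := W.ph) (E := Set.Finite.toFinset (fs_ph hc)) hP hgd hθ
    (fun e he b => by rw [h0 e he]; rfl) σ (G := fun _ => 1) (fun _ _ _ => rfl)
    (QX.QL.of_loc (B := ∅) (F := fun _ => (1 : ℝ)) fun _ _ _ => rfl) (M := 1)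
    (fun _ _ => by norm_num)
  simp only [one_mul] at h1
  rw [h1, adm_rho hW hn hr hL]
  congr 1
  exact integral_congr_ae (Eventually.of_forall fun ω => by
    show QX.fr (uI r) σ ω * _ = fz (uI r) σ ω * _
    rw [fr_eq_fz])

theorem cos_le (h0 : 0 < θ) (h1 : θ ≤ Real.pi / 3) : 1 ≤ 2 * Real.cos θ := by
  have h := Real.cos_le_cos_of_nonneg_of_le_pi h0.le (by linarith [Real.pi_pos]) h1
  rw [Real.cos_pi_div_three] at h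
  linarith

theorem rho_pos (h0 : 0 < θ) (h1 : θ ≤ Real.pi / 3) (L : ℕ) :
    0 < 2 * (2 * Real.cos (θ / 4)) ^ (2 * L) := by
  have := Real.cos_pos_of_mem_Ioo (x := θ / 4)
    ⟨by linarith [Real.pi_pos], by linarith [Real.pi_pos]⟩
  positivity

/-- **The upper bound `HOSp`** from the bound in terms of the law. -/
theorem hosp_of (h0 : 0 < θ) (h1 : θ ≤ Real.pi / 3) (hP : IsLim (2 * Real.cos θ) P)
    {Zp : ℕ → Row → ℝ} (hZ : ZInvR θ Zp) (hH : HOSR θ P Zp) : HOSp θ P (Zrow θ Zp) := by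
  have := hP.1
  obtain ⟨om, hom⟩ := H199.exists_omQ h0 h1 hP
  have key := hosq_of hom hP (H199.good_aeQ h0.le h1 hP h0) (cos_le h0 h1) hZ hH
  intro κ R B M hκ
  obtain ⟨C, hC, hev⟩ := key κ R B M hκ
  refine ⟨C, hC, ?_⟩
  filter_upwards [hev] with n hn ι _ W hc h1 h2 h3
  have h4 := hn ι W hc h1 h2 h3
  rw [H825.Q.om_insW hom W hc, Complex.norm_real] at h4
  exact h4

/-! ### the frames -/

/-- The rows of the frame. -/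
noncomputable def frows {l : ℕ} (θ β : ℝ) (p : ZMod l → ℤ × ℤ) (Q : Marks) (n d : ℕ) (bc : Bc)
    (x : Fin l × Fin (Q.m + 1)) : Row := frow θ β p Q n d bc x.1 x.2

theorem PT_w {l : ℕ} (p : ZMod l → ℤ × ℤ) (Q : Marks) (n d : ℕ) (bc : Bc) (Zr : ℕ → Row → ℝ)
    (c : Ed → ℝ) (x : Fin l × Fin (Q.m + 1)) : (PT θ β p Q n d bc Zr c).w x =
      (frows θ β p Q n d bc x).wall θ (Zr n (frows θ β p Q n d bc x)) := rfl

theorem PT_ph {l : ℕ} (p : ZMod l → ℤ × ℤ) (Q : Marks) (n d : ℕ) (bc : Bc) (Zr : ℕ → Row → ℝ)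
    (c : Ed → ℝ) : (PT θ β p Q n d bc Zr c).ph = (rowC θ (frows θ β p Q n d bc) c).ph := rfl

/-- The frame without labels. -/
theorem PT_adm {l : ℕ} {p : ZMod l → ℤ × ℤ} {Q : Marks} {n d : ℕ} {bc : Bc} {Zr : ℕ → Row → ℝ}
    {c : Ed → ℝ} {κ R B : ℝ} (h : (rowC θ (frows θ β p Q n d bc) c).Adm κ R B n) :
    (PT θ β p Q n d bc Zr c).Adm κ R B n := ⟨h.box, h.sep, h.csup, h.cle, h.dle⟩

/-- **The geometry of the frames.** -/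
theorem pt_geo {l : ℕ} [NeZero l] {p : ZMod l → ℤ × ℤ} {S₀ : Finset (ℤ × ℤ)} (hp : IsPolygon p)
    (hD : Encloses p S₀) {Q : Marks} (hQ : Q.Ok) {bc : Bc} (hbc : bc.Ok l Q) (hθ : 0 < θ)
    (hθ' : θ ≤ Real.pi / 3) (hβ : β = (θ - Real.pi) / 2 ∨ β = (Real.pi - 3 * θ) / 2) :
    ∃ δ₀ : ℝ, 0 < δ₀ ∧ ∀ δ : ℝ, 0 < δ → δ < δ₀ → ∀ κ₀ : ℝ, 0 < κ₀ → ∃ κ : ℝ, 0 < κ ∧
      ∀ B : ℝ, ∀ᶠ n : ℕ in atTop,
        (∀ x, (frows θ β p Q n ⌊δ * (n : ℝ)⌋₊ bc x).Ok θ δ n) ∧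
        ∀ c : Ed → ℝ, FlowIn (enl S₀ n) κ₀ B n c →
          (rowC θ (frows θ β p Q n ⌊δ * (n : ℝ)⌋₊ bc) c).Adm κ (R0 p S₀ + 3) B n := by
  obtain ⟨g1, hg1, hG⟩ := exists_Gap hQ l
  obtain ⟨g2, hg2, hB⟩ := exists_BGap hbc
  set g : ℝ := min g1 g2 with hgdef
  have hg : Gap Q l g := hG.mono (min_le_left _ _)
  have hbg : BGap l Q g bc := hB.mono (min_le_right _ _)
  have hg0 : 0 < g := lt_min hg1 hg2
  refine ⟨g / 4, by positivity, fun δ hδ hδ' κ₀ hκ₀ => ?_⟩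
  have hδg : 4 * δ ≤ g := by linarith
  set κ : ℝ := min (δ / 2) (κ₀ / 2) with hκ
  have hκ0 : 0 < κ := by positivity
  refine ⟨κ, hκ0, fun B => ?_⟩
  have ev : ∀ {x : ℝ} (y : ℝ), 0 < x → ∀ᶠ n : ℕ in atTop, y ≤ x * n := fun y hx =>
    (tendsto_natCast_atTop_atTop.const_mul_atTop hx).eventually_ge_atTop y
  filter_upwards [ev 16 hδ, ev 6 hκ₀, eventually_gt_atTop 0] with n hn hn2 hn0
  have hn0' : (0 : ℝ) ≤ n := Nat.cast_nonneg n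
  have hR := rows_marks (p := p) hQ hg hδ hδg hn
  have le1 : κ * n ≤ δ / 2 * n := mul_le_mul_of_nonneg_right (min_le_left _ _) hn0'
  have le2 : κ * n ≤ κ₀ / 2 * n := mul_le_mul_of_nonneg_right (min_le_right _ _) hn0'
  have hm : δ * n - 2 ≤ ((⌊δ * n⌋₊ - 1 : ℕ) : ℝ) := by
    have h3 : 1 ≤ ⌊δ * n⌋₊ := Nat.le_floor (by push_cast; linarith)
    rw [Nat.cast_sub h3]
    have := Nat.lt_floor_add_one (δ * n)
    push_cast
    linarith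
  refine ⟨fun x => ?_, fun c hc => ?_⟩
  · exact frow_ok (bc := bc) hp hD hQ hθ (by linarith) hβ hg hbg hδ hδg hn x.1.2 (j := x.2)
      (by omega)
  · exact hR.adm hp hD hκ₀ hn0 (by linarith) (by linarith) (fun x => frow_S _ _ _) hc

/-- **START in terms of the law.** -/
def STARTR (θ β : ℝ) (P : Measure Cfg) (Zp : ℕ → Row → ℝ) : Prop :=
  ∀ (l : ℕ) [NeZero l] (p : ZMod l → ℤ × ℤ) (S₀ : Finset (ℤ × ℤ)), IsPolygon p → Encloses p S₀ →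
  ∀ Q : Marks, Q.Ok → ∀ bc : Bc, bc.Ok l Q → ∀ (κ B : ℝ), 0 < κ → ∀ ε : ℝ, 0 < ε →
  ∃ δ₀ : ℝ, 0 < δ₀ ∧ ∀ δ : ℝ, 0 < δ → δ < δ₀ → ∃ c₀ : ℝ, 0 < c₀ ∧ ∀ᶠ n : ℕ in atTop,
    ∀ σ : Cfg, (∀ x, ∀ v ∈ (frows θ β p Q n ⌊δ * (n : ℝ)⌋₊ bc x).I,
      σ v = (frows θ β p Q n ⌊δ * (n : ℝ)⌋₊ bc x).fr v) →
    c₀ * ∏ x, Zp n (frows θ β p Q n ⌊δ * (n : ℝ)⌋₊ bc x) ≤
      ∫ ω, fz (uI (frows θ β p Q n ⌊δ * (n : ℝ)⌋₊ bc)) σ ω *
        RT θ (uI (frows θ β p Q n ⌊δ * (n : ℝ)⌋₊ bc))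
          (rowC θ (frows θ β p Q n ⌊δ * (n : ℝ)⌋₊ bc) 0).ph ω ∂P ∧
    ∀ c : Ed → ℝ, (Function.support c).Finite → FlowIn (enl S₀ n) κ B n c →
      |∫ ω, fz (uI (frows θ β p Q n ⌊δ * (n : ℝ)⌋₊ bc)) σ ω *
          RT θ (uI (frows θ β p Q n ⌊δ * (n : ℝ)⌋₊ bc))
            (rowC θ (frows θ β p Q n ⌊δ * (n : ℝ)⌋₊ bc) c).ph ω ∂P -
        (∫ ω, fz (uI (frows θ β p Q n ⌊δ * (n : ℝ)⌋₊ bc)) σ ω *
          RT θ (uI (frows θ β p Q n ⌊δ * (n : ℝ)⌋₊ bc))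
            (rowC θ (frows θ β p Q n ⌊δ * (n : ℝ)⌋₊ bc) 0).ph ω ∂P) *
          VT θ β p S₀ n (tB n Q) (bc.ka l n (tB n Q)) (dv c)| ≤
        ε * ∫ ω, fz (uI (frows θ β p Q n ⌊δ * (n : ℝ)⌋₊ bc)) σ ω *
          RT θ (uI (frows θ β p Q n ⌊δ * (n : ℝ)⌋₊ bc))
            (rowC θ (frows θ β p Q n ⌊δ * (n : ℝ)⌋₊ bc) 0).ph ω ∂P

theorem flowIn_zero {D : Finset (ℤ × ℤ)} {κ B : ℝ} {n : ℕ} (hB : 0 ≤ B) : FlowIn D κ B n 0 where
  sup e he := absurd rfl he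
  cle e := by
    show |(0 : ℝ)| ≤ _
    rw [abs_zero]
    positivity
  dle z := by
    have : dv (0 : Ed → ℝ) z = 0 := by unfold dv; simp
    rw [this, abs_zero]
    positivity

/-- **`STARTp`** from START in terms of the law. -/
theorem startp_of (h0 : 0 < θ) (h1 : θ ≤ Real.pi / 3)
    (hβ : β = (θ - Real.pi) / 2 ∨ β = (Real.pi - 3 * θ) / 2) (hP : IsLim (2 * Real.cos θ) P)
    {Zp : ℕ → Row → ℝ} (hS : STARTR θ β P Zp) : STARTp θ β P (Zrow θ Zp) := by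
  have := hP.1
  have hgd := H199.good_aeQ h0.le h1 hP h0
  intro l _ p S₀ hp hD Q hQ bc hbc κ B hκ ε hε
  obtain ⟨δ₁, hδ₁, H1⟩ := hS l p S₀ hp hD Q hQ bc hbc κ B hκ ε hε
  obtain ⟨δ₂, hδ₂, H2⟩ := pt_geo hp hD hQ hbc h0 h1 hβ
  refine ⟨min δ₁ δ₂, lt_min hδ₁ hδ₂, fun δ hδ hδ' => ?_⟩
  obtain ⟨c₀, hc₀, hev⟩ := H1 δ hδ (hδ'.trans_le (min_le_left _ _))
  obtain ⟨κ', hκ', H3⟩ := H2 δ hδ (hδ'.trans_le (min_le_right _ _)) κ hκ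
  refine ⟨c₀, hc₀, ?_⟩
  have ev : ∀ {x : ℝ} (y : ℝ), 0 < x → ∀ᶠ n : ℕ in atTop, y < x * n := fun y hx =>
    (tendsto_natCast_atTop_atTop.const_mul_atTop hx).eventually_gt_atTop y
  filter_upwards [hev, H3 B, H3 |B|, ev 1 hκ', ev 1 hδ] with n hn hg hg' hn1 hn2
  set r := frows θ β p Q n ⌊δ * (n : ℝ)⌋₊ bc with hr
  have hL : ∀ x, 1 ≤ (r x).L := by
    intro x
    have h4 := (hg.1 x).len
    have h5 : (1 : ℝ) < (r x).L := by linarith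
    have h6 : 1 < (r x).L := by exact_mod_cast h5
    omega
  have hA0 := hg'.2 0 (flowIn_zero (abs_nonneg B))
  obtain ⟨σ, hσ⟩ := exists_state (r := r) fun i j hij =>
    (adm_sepd (z := fun _ => 0) hA0 hn1 (fun _ => rfl) hij).dis
  obtain ⟨a1, a2⟩ := hn σ hσ
  set ρ : ℝ := ∏ x, 2 * (2 * Real.cos (θ / 4)) ^ (2 * (r x).L) with hρ
  have hρ0 : 0 < ρ := prod_pos fun x _ => rho_pos h0 h1 _
  have hw : ∀ (c : Ed → ℝ), Fc (PT θ β p Q n ⌊δ * (n : ℝ)⌋₊ bc (Zrow θ Zp) c) →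
      ∀ B', (rowC θ r c).Adm κ' (R0 p S₀ + 3) B' n →
      WX θ P (PT θ β p Q n ⌊δ * (n : ℝ)⌋₊ bc (Zrow θ Zp) c) =
        ρ * ∫ ω, fz (uI r) σ ω * RT θ (uI r) (rowC θ r c).ph ω ∂P := by
    intro c hc B' hA
    exact wx_red hP hgd (cos_le h0 h1) hc (PT_adm hA) hn1 (fun x => PT_w p Q n _ bc _ c x) hL σ
  have e0 := hw 0 (fc_zero _) _ hA0
  constructor
  · rw [e0]
    have e1 : ∏ x : Fin l × Fin (Q.m + 1),
        Zrow θ Zp n (frow θ β p Q n ⌊δ * (n : ℝ)⌋₊ bc x.1 x.2) = ρ * ∏ x, Zp n (r x) := by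
      rw [hρ, ← prod_mul_distrib]
      rfl
    rw [e1]
    calc c₀ * (ρ * ∏ x, Zp n (r x)) = ρ * (c₀ * ∏ x, Zp n (r x)) := by ring
      _ ≤ _ := mul_le_mul_of_nonneg_left a1 hρ0.le
  · intro c hc hfl
    have e1 := hw c hc B (hg.2 c hfl)
    rw [e0, e1, mul_assoc, ← mul_sub, abs_mul, abs_of_pos hρ0, mul_left_comm ε]
    exact mul_le_mul_of_nonneg_left (a2 c hc hfl) hρ0.le

/-- **The output of block 2A** from the two statements in terms of the law. -/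
theorem s2aQq_R (h0 : 0 < θ) (h1 : θ ≤ Real.pi / 3)
    (hβ : β = (θ - Real.pi) / 2 ∨ β = (Real.pi - 3 * θ) / 2) (hP : IsLim (2 * Real.cos θ) P)
    {Zp : ℕ → Row → ℝ} (hZ : ZInvR θ Zp)
    (hpos : ∀ {κ : ℝ}, 0 < κ → ∀ᶠ n : ℕ in atTop, ∀ r : Row, r.Ok θ κ n → 0 < Zp n r)
    (hH : HOSR θ P Zp) (hS : STARTR θ β P Zp) : S2aQq θ β := by
  refine H825.Q.s2aQq_fin h0 h1 hβ hP (Zr := Zrow θ Zp) ?_ (hosp_of h0 h1 hP hZ hH)
    (startp_of h0 h1 hβ hP hS)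
  intro κ hκ
  filter_upwards [hpos hκ] with n hn r hr
  exact mul_pos (rho_pos h0 h1 _) (hn r hr)

end Vale.Agent.P167.H680.T
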