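import Vale.Agent.P167.H680.T.Pos
import Vale.Agent.P167.H680.T.RedP
import Vale.Agent.P167.H945.Q.HosR

/-!
# P167, general `q`: the output of block 2A from the four remaining inputs

`L1` (law-free majorant), `P1a`, `P1b` (comparison of radii and moments near the special points) of
`H945/Q/HDefs.lean` and `STARTR` of `H680/T/RedP.lean`.
-/

namespace Vale.Agent.P167.H680.T

open MeasureTheory
open Vale.Agent.P167.H519 (IsLim)
open Vale.Agent.P167.H825.Q (S2aQq)
open Vale.Agent.P167.H945.Q (Zp L1 P1a P1b hosr)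

/-- **The output of block 2A.** -/
theorem s2aQq_L {θ β : ℝ} (h0 : 0 < θ) (h1 : θ ≤ Real.pi / 3)
    (hβ : β = (θ - Real.pi) / 2 ∨ β = (Real.pi - 3 * θ) / 2) {P : Measure Cfg}
    (hP : IsLim (2 * Real.cos θ) P) (hL : L1 θ) (ha : P1a θ) (hb : P1b θ)
    (hS : STARTR θ β P (Zp θ P)) : S2aQq θ β := by
  have := hP.1
  exact s2aQq_R h0 h1 hβ hP (zInvR_Zp (by linarith [cos_le h0 h1]) hP) (fun hκ => Zp_pos h0 h1 hP hκ)
    (hosr h0 h1 (K8.k_rsw θ h0.le h1) hP (H199.good_aeQ h0.le h1 hP h0) hL ha hb) hS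

end Vale.Agent.P167.H680.T
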