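import Vale.Agent.P167.H680.T.ZInv
import Vale.Agent.P167.H945.Q.TLoc
import Vale.Agent.P167.H199.QOmQ
import Vale.Agent.P167.H562.GLm

/-!
# P167, general `q`, block 2A: the normalisations of the rows are positive

`no_cross`: if all outer squares of the box of the junction have a suitable colour, no strand crosses
the junction on a given face. `Zp_pos`: `0 < Zp θ P n r` for all admissible rows.
-/

namespace Vale.Agent.P167.H680.T

open Finset Filter Topology MeasureTheory
open Vale.Agent.P167.FK (Good Bq)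
open Vale.Agent.P167.FKA (Loc)
open Vale.Agent.P167.XDL (bS mem_bS)
open Vale.Agent.P167.H519 (IsLim)
open Vale.Agent.P167.H199 (strand ret Returns ret_min ret_le mem_strand)
open Vale.Agent.P167.H825.Q (Row)
open Vale.Agent.P167.H945.Q (lrs SP natw relw face faces tipR tipL tj jn Plain rad TT Zp)

/-! ### two steps outside of a row -/

/-- The square outside of the face `b` at the index `k`. -/
def osz (r : Row) (b : Bool) (k : ℤ) : ℤ × ℤ :=
  if r.o then (r.x.1 + k, if b then r.x.2 + 1 else r.x.2 - 1)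
  else (if b then r.x.1 + 1 else r.x.1 - 1, r.x.2 + k)

/-- The medial edge of the face `b` at the index `k`. -/
def fcz (r : Row) (b : Bool) (k : ℤ) : Ed :=
  if r.o then Sum.inr (r.x.1 + k, if b then r.x.2 else r.x.2 - 1)
  else Sum.inl (if b then r.x.1 else r.x.1 - 1, r.x.2 + k)

theorem fcz_eq (r : Row) (b : Bool) (k : ℕ) : face r b k = fcz r b k := face_eq r b k

/-- The edge at the index `k` is directed to the outside. -/
def Out (r : Row) (k : ℤ) : Prop :=
  if r.o then ¬ Even (r.x.1 + k + r.x.2) else Even (r.x.1 + k + r.x.2)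

/-- The direction of the short strands. -/
def Dr (r : Row) (b c : Bool) : ℤ := if ((b == c) == r.o) = true then 1 else -1

theorem hd_out {r : Row} {b : Bool} {k : ℤ} (h : Out r k) : hdv (fcz r b k) = osz r b k := by
  unfold Out at h
  unfold fcz osz
  cases ho : r.o
  · rw [ho] at h
    simp only [Bool.false_eq_true, if_false] at h ⊢
    cases b
    · have h1 : ¬ Even (r.x.1 - 1 + (r.x.2 + k)) := by
        rw [Int.even_iff] at h ⊢
        omega
      simp [hdv, h1]
    · have h1 : Even (r.x.1 + (r.x.2 + k)) := by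
        rw [Int.even_iff] at h ⊢
        omega
      simp [hdv, h1]
  · rw [ho] at h
    simp only [if_true] at h ⊢
    cases b
    · have h1 : Even (r.x.1 + k + (r.x.2 - 1)) := by
        rw [Int.even_iff] at h ⊢
        omega
      simp [hdv, h1]
    · simp [hdv, h]

theorem sq_eq (r : Row) (k : ℕ) :
    r.sq k = if r.o then (r.x.1 + (k : ℤ), r.x.2) else (r.x.1, r.x.2 + (k : ℤ)) := rfl

theorem hd_in {r : Row} {b : Bool} {k : ℕ} (h : ¬ Out r k) : hdv (fcz r b k) = r.sq k := by
  unfold Out at h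
  unfold fcz
  rw [sq_eq]
  cases ho : r.o
  · rw [ho] at h
    simp only [Bool.false_eq_true, if_false] at h ⊢
    cases b
    · have h1 : Even (r.x.1 - 1 + (r.x.2 + k)) := by
        rw [Int.even_iff] at h ⊢
        omega
      simp [hdv, h1]
    · have h1 : ¬ Even (r.x.1 + (r.x.2 + k)) := by
        rw [Int.even_iff] at h ⊢
        omega
      simp [hdv, h1]
  · rw [ho] at h
    simp only [if_true, not_not] at h ⊢
    cases b
    · have h1 : ¬ Even (r.x.1 + k + (r.x.2 - 1)) := by
        rw [Int.even_iff] at h ⊢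
        omega
      simp [hdv, h1]
    · simp [hdv, h]

/-- **Two steps.** -/
theorem two_steps {r : Row} {b c : Bool} {k : ℤ} {ω : Cfg} (h : Out r k)
    (h1 : ω (osz r b k) = c) : hdv (nx ω (fcz r b k)) = osz r b (k + Dr r b c) ∧
    (ω (osz r b (k + Dr r b c)) = c → nx ω (nx ω (fcz r b k)) = fcz r b (k + Dr r b c)) := by
  unfold Out at h
  unfold osz at h1
  unfold fcz osz Dr
  cases ho : r.o
  · rw [ho] at h h1
    simp only [Bool.false_eq_true, if_false] at h h1 ⊢
    cases b
    · have e1 : ¬ Even (r.x.1 - 1 + (r.x.2 + k)) := by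
        rw [Int.even_iff] at h ⊢
        omega
      have e2 : ¬ Even (r.x.1 - 1 + (r.x.2 + k)) := e1
      have e3 : Even (r.x.1 - 1 + (r.x.2 + k - 1)) := by
        rw [Int.even_iff] at h ⊢
        omega
      simp only [Bool.false_eq_true, if_false] at h1
      cases c
      · have h2 : ω (r.x.1 - 1, r.x.2 + k) = false := h1
        have e4 : nx ω (Sum.inl (r.x.1 - 1, r.x.2 + k)) = Sum.inr (r.x.1 - 1, r.x.2 + k - 1) := by
          simp [nx, e1, h2]
        simp only [Bool.false_eq_true, if_false]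
        rw [e4]
        constructor
        · simp only [hdv, if_pos e3]
          simp
          ring
        · intro h3
          simp at h3
          have h4 : ω (r.x.1 - 1, r.x.2 + k - 1) = false := by
            rw [← h3]
            congr 2
            ring
          simp [nx, e3, h4]
          ring
      · have h2 : ω (r.x.1 - 1, r.x.2 + k) = true := h1
        have e4 : nx ω (Sum.inl (r.x.1 - 1, r.x.2 + k)) = Sum.inr (r.x.1 - 1, r.x.2 + k) := by
          simp [nx, e1, h2]
        simp only [Bool.false_eq_true, if_false]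
        rw [e4]
        constructor
        · simp only [hdv, if_neg e1]
          simp
          ring
        · intro h3
          simp at h3
          have h4 : ω (r.x.1 - 1, r.x.2 + k + 1) = true := by
            rw [← h3]
            congr 2
            ring
          simp [nx, e1, h4]
          ring
    · have e1 : Even (r.x.1 + (r.x.2 + k)) := by
        rw [Int.even_iff] at h ⊢
        omega
      have e3 : Even (r.x.1 + 1 + (r.x.2 + k - 1)) := by
        rw [Int.even_iff] at h ⊢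
        omega
      have e5 : ¬ Even (r.x.1 + 1 + (r.x.2 + k)) := by
        rw [Int.even_iff] at h ⊢
        omega
      simp only [if_true] at h1
      cases c
      · have h2 : ω (r.x.1 + 1, r.x.2 + k) = false := h1
        have e4 : nx ω (Sum.inl (r.x.1, r.x.2 + k)) = Sum.inr (r.x.1 + 1, r.x.2 + k) := by
          simp [nx, e1, h2]
        simp only [if_true]
        rw [e4]
        constructor
        · simp only [hdv, if_neg e5]
          simp
          ring
        · intro h3
          simp at h3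
          have h4 : ω (r.x.1 + 1, r.x.2 + k + 1) = false := by
            rw [← h3]
            congr 2
            ring
          simp [nx, e5, h4]
          ring
      · have h2 : ω (r.x.1 + 1, r.x.2 + k) = true := h1
        have e4 : nx ω (Sum.inl (r.x.1, r.x.2 + k)) = Sum.inr (r.x.1 + 1, r.x.2 + k - 1) := by
          simp [nx, e1, h2]
        simp only [if_true]
        rw [e4]
        constructor
        · simp only [hdv, if_pos e3]
          simp
          ring
        · intro h3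
          simp at h3
          have h4 : ω (r.x.1 + 1, r.x.2 + k - 1) = true := by
            rw [← h3]
            congr 2
            ring
          simp only [nx]
          rw [if_pos e3, if_pos h4]
          simp
          ring
  · rw [ho] at h h1
    simp only [if_true] at h h1 ⊢
    cases b
    · have e1 : Even (r.x.1 + k + (r.x.2 - 1)) := by
        rw [Int.even_iff] at h ⊢
        omega
      have e3 : ¬ Even (r.x.1 + k - 1 + (r.x.2 - 1)) := by
        rw [Int.even_iff] at h ⊢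
        omega
      simp only [Bool.false_eq_true, if_false] at h1
      cases c
      · have h2 : ω (r.x.1 + k, r.x.2 - 1) = false := h1
        have e4 : nx ω (Sum.inr (r.x.1 + k, r.x.2 - 1)) = Sum.inl (r.x.1 + k, r.x.2 - 1) := by
          simp [nx, e1, h2]
        simp only [Bool.false_eq_true, if_false]
        rw [e4]
        constructor
        · simp only [hdv, if_pos e1]
          simp
          ring
        · intro h3
          simp at h3
          have h4 : ω (r.x.1 + k + 1, r.x.2 - 1) = false := by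
            rw [← h3]
            congr 2
            ring
          simp [nx, e1, h4]
          ring
      · have h2 : ω (r.x.1 + k, r.x.2 - 1) = true := h1
        have e4 : nx ω (Sum.inr (r.x.1 + k, r.x.2 - 1)) = Sum.inl (r.x.1 + k - 1, r.x.2 - 1) := by
          simp [nx, e1, h2]
        simp only [Bool.false_eq_true, if_false]
        rw [e4]
        constructor
        · simp only [hdv, if_neg e3]
          simp
          ring
        · intro h3
          simp at h3
          have h4 : ω (r.x.1 + k - 1, r.x.2 - 1) = true := by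
            rw [← h3]
            congr 2
            ring
          simp [nx, e3, h4]
          ring
    · have e1 : ¬ Even (r.x.1 + k + r.x.2) := h
      have e3 : Even (r.x.1 + k + (r.x.2 + 1)) := by
        rw [Int.even_iff] at h ⊢
        omega
      have e5 : ¬ Even (r.x.1 + k - 1 + (r.x.2 + 1)) := by
        rw [Int.even_iff] at h ⊢
        omega
      simp only [if_true] at h1
      cases c
      · have h2 : ω (r.x.1 + k, r.x.2 + 1) = false := h1
        have e4 : nx ω (Sum.inr (r.x.1 + k, r.x.2)) = Sum.inl (r.x.1 + k - 1, r.x.2 + 1) := by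
          simp [nx, e1, h2]
        simp only [if_true]
        rw [e4]
        constructor
        · simp only [hdv, if_neg e5]
          simp
          ring
        · intro h3
          simp at h3
          have h4 : ω (r.x.1 + k - 1, r.x.2 + 1) = false := by
            rw [← h3]
            congr 2
            ring
          simp only [nx]
          rw [if_neg e5, if_neg (by simp [h4])]
          simp
          ring
      · have h2 : ω (r.x.1 + k, r.x.2 + 1) = true := h1
        have e4 : nx ω (Sum.inr (r.x.1 + k, r.x.2)) = Sum.inl (r.x.1 + k, r.x.2 + 1) := by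
          simp [nx, e1, h2]
        simp only [if_true]
        rw [e4]
        constructor
        · simp only [hdv, if_pos e3]
          simp
          ring
        · intro h3
          simp at h3
          have h4 : ω (r.x.1 + k + 1, r.x.2 + 1) = true := by
            rw [← h3]
            congr 2
            ring
          simp [nx, e3, h4]
          ring

/-! ### no strand crosses the junction -/

theorem osz_notMem (r : Row) (b : Bool) (k : ℤ) : osz r b k ∉ r.I := by
  rw [mem_I]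
  unfold osz
  cases ho : r.o
  · cases b
    · simp only [Bool.false_eq_true, if_false]
      rintro ⟨h, -⟩
      omega
    · simp only [Bool.false_eq_true, if_false, if_true]
      rintro ⟨h, -⟩
      omega
  · cases b
    · simp only [Bool.false_eq_true, if_false, if_true]
      rintro ⟨h, -⟩
      omega
    · simp only [if_true]
      rintro ⟨h, -⟩
      omega

/-- The colour of the outer squares near the junction. -/
noncomputable def cj (r : Row) (b : Bool) : Bool := by
  classical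
  exact if Out r (r.k0 - 1) then !(b == r.o) else (b == r.o)

theorem Dr_out {r : Row} (b : Bool) (h : Out r (r.k0 - 1)) : Dr r b (cj r b) = -1 := by
  unfold cj Dr
  rw [if_pos h]
  cases r.o <;> cases b <;> rfl

theorem Dr_in {r : Row} (b : Bool) (h : ¬ Out r (r.k0 - 1)) : Dr r b (cj r b) = 1 := by
  unfold cj Dr
  rw [if_neg h]
  cases r.o <;> cases b <;> rfl

theorem Dr_cases (r : Row) (b c : Bool) : Dr r b c = 1 ∨ Dr r b c = -1 := by
  unfold Dr
  split_ifs
  · exact Or.inl rfl
  · exact Or.inr rfl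

theorem out_succ {r : Row} {k : ℤ} (h : Out r k) (h' : Out r (k - 1)) : False := by
  unfold Out at h h'
  cases ho : r.o
  · rw [ho] at h h'
    simp only [Bool.false_eq_true, if_false] at h h'
    rw [Int.even_iff] at h h'
    omega
  · rw [ho] at h h'
    simp only [if_true] at h h'
    rw [Int.even_iff] at h h'
    omega

theorem osz_bx {θ : ℝ} {r : Row} {b b' : Bool} {k R : ℤ} (h : osz r b k ∈ (jn θ r b').bx R) :
    r.k0 - R ≤ k ∧ k < r.k0 + R := by
  rw [mem_bx] at h
  have hc : (jn θ r b').c = r.sq r.k0 := rfl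
  have he : (jn θ r b').e = if r.o then ((0, 1) : ℕ × ℕ) else (1, 0) := rfl
  rw [hc, he, sq_eq] at h
  unfold osz at h
  cases ho : r.o
  · rw [ho] at h
    simp only [Bool.false_eq_true, if_false] at h
    omega
  · rw [ho] at h
    simp only [if_true] at h
    omega

/-- The strands near the junction are short. -/
theorem short {θ : ℝ} {r : Row} {b : Bool} {R : ℤ} (hR1 : R ≤ r.k0) (hR2 : R ≤ r.L - r.k0)
    {ω : Cfg} (hc : ∀ v ∈ (jn θ r b).bx R, v ∉ r.I → ω v = cj r b) {A A' : Finset Ed} {k : ℕ}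
    (hk : k < r.L) (he : face r b k ∈ lrs r.I A A' ((jn θ r b).bx R) ω) :
    Out r k ∧ ∃ k' < r.L, (k' : ℤ) = k + Dr r b (cj r b) ∧ face r b k' ∈ A' := by
  rw [mem_lrs] at he
  obtain ⟨-, -, h3, h4, h5, h6⟩ := he
  have hout : Out r k := by
    by_contra hn
    apply h3
    rw [fcz_eq, hd_in hn]
    exact sq_mem.2 hk
  refine ⟨hout, ?_⟩
  have hsp := h4.spec
  have m0 : face r b k ∈ strand (nx ω) (bS r.I) (face r b k) :=
    mem_strand.2 ⟨0, by omega, rfl⟩
  have b0 := h6 _ m0
  rw [fcz_eq, hd_out hout] at b0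
  have c0 := hc _ b0 (osz_notMem r b k)
  obtain ⟨t1, t2⟩ := two_steps hout c0
  rw [← fcz_eq] at t1 t2
  have n1 : nx ω (face r b k) ∉ bS r.I := by
    rw [mem_bS, t1, tlv_nx, fcz_eq, hd_out hout]
    intro h
    rcases h with h | h
    · exact osz_notMem _ _ _ h.1
    · exact osz_notMem _ _ _ h.2
  have hret2 : 2 ≤ ret (nx ω) (bS r.I) (face r b k) := by
    by_contra hlt
    have h1 : ret (nx ω) (bS r.I) (face r b k) = 1 := by omega
    rw [h1] at hsp
    exact n1 hsp.2
  have m1 : nx ω (face r b k) ∈ strand (nx ω) (bS r.I) (face r b k) :=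
    mem_strand.2 ⟨1, by omega, rfl⟩
  have b1 := h6 _ m1
  rw [t1] at b1
  have t3 := t2 (hc _ b1 (osz_notMem r b _))
  have hb := osz_bx b1
  obtain ⟨k', hk'⟩ : ∃ k' : ℕ, (k' : ℤ) = k + Dr r b (cj r b) :=
    ⟨(k + Dr r b (cj r b)).toNat, by omega⟩
  have hk'L : k' < r.L := by omega
  refine ⟨k', hk'L, hk', ?_⟩
  rw [← hk', ← fcz_eq] at t3
  have n2 : (nx ω)^[2] (face r b k) ∈ bS r.I := by
    show nx ω (nx ω (face r b k)) ∈ bS r.I
    rw [t3]
    exact H945.Q.face_mem hk'L
  have hret : ret (nx ω) (bS r.I) (face r b k) = 2 := le_antisymm (ret_le (by norm_num) n2) hret2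
  rw [hret] at h5
  have h7 : nx ω (nx ω (face r b k)) ∈ A' := h5
  rwa [t3] at h7

theorem face_inj {r : Row} {b : Bool} {k k' : ℕ} (h : face r b k = face r b k') : k = k' := by
  rw [face_eq, face_eq] at h
  cases ho : r.o
  · rw [ho] at h
    simp only [Bool.false_eq_true, if_false, Sum.inl.injEq, Prod.mk.injEq] at h
    omega
  · rw [ho] at h
    simp only [if_true, Sum.inr.injEq, Prod.mk.injEq] at h
    omega

theorem mem_faces {r : Row} {b : Bool} {k lo hi : ℕ} :
    face r b k ∈ faces r b lo hi ↔ lo ≤ k ∧ k < hi := by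
  unfold faces
  rw [mem_image]
  constructor
  · rintro ⟨j, hj, h⟩
    rw [mem_Ico] at hj
    rw [← face_inj h]
    exact hj
  · intro h
    exact ⟨k, mem_Ico.2 h, rfl⟩

theorem no_cross {θ : ℝ} {r : Row} {b : Bool} {R : ℤ} (hR1 : R ≤ r.k0) (hR2 : R ≤ r.L - r.k0)
    (hk0 : r.k0 ≤ r.L) {ω : Cfg} (hc : ∀ v ∈ (jn θ r b).bx R, v ∉ r.I → ω v = cj r b) :
    lrs r.I (faces r b 0 r.k0) (faces r b r.k0 r.L) ((jn θ r b).bx R) ω = ∅ ∧
      lrs r.I (faces r b r.k0 r.L) (faces r b 0 r.k0) ((jn θ r b).bx R) ω = ∅ := by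
  constructor
  · rw [eq_empty_iff_forall_notMem]
    intro e he
    have h1 := (mem_lrs.1 he).1
    obtain ⟨k, hk, rfl⟩ : ∃ k, (0 ≤ k ∧ k < r.k0) ∧ face r b k = e := by
      unfold faces at h1
      obtain ⟨k, hk, h⟩ := mem_image.1 h1
      exact ⟨k, mem_Ico.1 hk, h⟩
    obtain ⟨h2, k', h3, h4, h5⟩ := short hR1 hR2 hc (by omega) he
    rw [mem_faces] at h5
    have h6 : Dr r b (cj r b) = 1 := by
      rcases Dr_cases r b (cj r b) with h | h
      · exact h
      · omega
    have h7 : (k : ℤ) = r.k0 - 1 := by omega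
    rw [h7] at h2
    rw [Dr_out b h2] at h6
    norm_num at h6
  · rw [eq_empty_iff_forall_notMem]
    intro e he
    have h1 := (mem_lrs.1 he).1
    obtain ⟨k, hk, rfl⟩ : ∃ k, (r.k0 ≤ k ∧ k < r.L) ∧ face r b k = e := by
      unfold faces at h1
      obtain ⟨k, hk, h⟩ := mem_image.1 h1
      exact ⟨k, mem_Ico.1 hk, h⟩
    obtain ⟨h2, k', h3, h4, h5⟩ := short hR1 hR2 hc (by omega) he
    rw [mem_faces] at h5
    have h6 : Dr r b (cj r b) = -1 := by
      rcases Dr_cases r b (cj r b) with h | h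
      · omega
      · exact h
    have h7 : (k : ℤ) = r.k0 := by omega
    rw [h7] at h2
    have h8 : ¬ Out r (r.k0 - 1) := fun h => out_succ h2 h
    rw [Dr_in b h8] at h6
    norm_num at h6

/-! ### positive weights -/

section weights

variable {θ : ℝ}

theorem relw_pos (h0 : 0 < θ) (h1 : θ ≤ Real.pi / 3) {t d τ τ' x : ℝ}
    (hx : x ∈ Set.Ioo (-(Real.pi / 2)) (Real.pi / 2))
    (h : θ / 4 * t + d + (τ + τ') * ((3 * θ - Real.pi) / 4) = x ∨
      θ / 4 * t + d + (τ + τ') * ((3 * θ - Real.pi) / 4) = -x) : 0 < relw θ t d τ τ' := by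
  unfold relw
  refine div_pos (abs_pos.2 ?_) (H945.Q.natw_pos h0 h1 _ _ _)
  have hc := Real.cos_pos_of_mem_Ioo hx
  rcases h with h | h
  · rw [h]
    exact hc.ne'
  · rw [h, Real.cos_neg]
    exact hc.ne'

theorem tip_pos (h0 : 0 < θ) (h1 : θ ≤ Real.pi / 3) {τ : ℝ} (hτ : τ = 1 ∨ τ = -1) :
    0 < relw θ 4 0 τ τ ∧ 0 < relw θ (-4) 0 τ τ := by
  have hp := Real.pi_pos
  have a1 : 5 * θ / 2 - Real.pi / 2 ∈ Set.Ioo (-(Real.pi / 2)) (Real.pi / 2) :=
    ⟨by linarith, by linarith⟩
  have a2 : θ / 2 - Real.pi / 2 ∈ Set.Ioo (-(Real.pi / 2)) (Real.pi / 2) :=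
    ⟨by linarith, by linarith⟩
  rcases hτ with rfl | rfl
  · exact ⟨relw_pos h0 h1 a1 (Or.inl (by ring)), relw_pos h0 h1 a2 (Or.inl (by ring))⟩
  · exact ⟨relw_pos h0 h1 a2 (Or.inr (by ring)), relw_pos h0 h1 a1 (Or.inr (by ring))⟩

/-- One of the faces of the junction has positive weights. -/
theorem jn_pos (h0 : 0 < θ) (h1 : θ ≤ Real.pi / 3) {r : Row} (hs : r.s = 1 ∨ r.s = -1)
    (hk : ((|r.j| = (Real.pi - θ) / 2 ∨ |r.j| = (Real.pi - 3 * θ) / 2) ∧ r.η = -1) ∨
      (|r.j| = θ ∧ r.η = 1)) : ∃ b, 0 < (jn θ r b).w ∧ 0 < (jn θ r b).w' := by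
  have hp := Real.pi_pos
  obtain ⟨σ, hσ, hj⟩ : ∃ σ : ℝ, (σ = 1 ∨ σ = -1) ∧ r.j = σ * |r.j| := by
    rcases le_total 0 r.j with h | h
    · exact ⟨1, Or.inl rfl, by rw [abs_of_nonneg h, one_mul]⟩
    · exact ⟨-1, Or.inr rfl, by rw [abs_of_nonpos h]; ring⟩
  obtain ⟨b, hb⟩ : ∃ b, tj r b = 2 * σ := by
    unfold tj
    rcases hσ with rfl | rfl
    · refine ⟨!r.o, ?_⟩
      cases r.o <;> simp
    · refine ⟨r.o, ?_⟩
      simp
  refine ⟨b, ?_⟩
  show 0 < relw θ (tj r b) (-r.j) r.s (r.s * r.η) ∧ 0 < relw θ (-tj r b) r.j r.s (r.s * r.η)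
  rw [hb]
  generalize |r.j| = J at hk hj
  generalize r.j = j at hj ⊢
  generalize r.s = s at hs ⊢
  generalize r.η = η at hk ⊢
  subst hj
  have b1 : Real.pi / 2 - θ ∈ Set.Ioo (-(Real.pi / 2)) (Real.pi / 2) :=
    ⟨by linarith, by linarith⟩
  have b2 : Real.pi / 2 - 2 * θ ∈ Set.Ioo (-(Real.pi / 2)) (Real.pi / 2) :=
    ⟨by linarith, by linarith⟩
  rcases hk with ⟨hJ | hJ, rfl⟩ | ⟨hJ, rfl⟩ <;> rw [hJ] <;> rcases hσ with rfl | rfl <;>
    rcases hs with rfl | rfl
  all_goals first
    | (refine ⟨relw_pos h0 h1 b1 (Or.inl ?_), relw_pos h0 h1 b1 (Or.inr ?_)⟩ <;> ring1)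
    | (refine ⟨relw_pos h0 h1 b1 (Or.inr ?_), relw_pos h0 h1 b1 (Or.inl ?_)⟩ <;> ring1)
    | (refine ⟨relw_pos h0 h1 b1 (Or.inr ?_), relw_pos h0 h1 b1 (Or.inr ?_)⟩ <;> ring1)
    | (refine ⟨relw_pos h0 h1 b1 (Or.inl ?_), relw_pos h0 h1 b1 (Or.inl ?_)⟩ <;> ring1)
    | (refine ⟨relw_pos h0 h1 b2 (Or.inl ?_), relw_pos h0 h1 b2 (Or.inr ?_)⟩ <;> ring1)
    | (refine ⟨relw_pos h0 h1 b2 (Or.inr ?_), relw_pos h0 h1 b2 (Or.inl ?_)⟩ <;> ring1)
    | (refine ⟨relw_pos h0 h1 b2 (Or.inr ?_), relw_pos h0 h1 b2 (Or.inr ?_)⟩ <;> ring1)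
    | (refine ⟨relw_pos h0 h1 b2 (Or.inl ?_), relw_pos h0 h1 b2 (Or.inl ?_)⟩ <;> ring1)
    | (refine ⟨relw_pos h0 h1 b1 (Or.inl ?_), relw_pos h0 h1 b2 (Or.inr ?_)⟩ <;> ring1)
    | (refine ⟨relw_pos h0 h1 b1 (Or.inr ?_), relw_pos h0 h1 b2 (Or.inl ?_)⟩ <;> ring1)
    | (refine ⟨relw_pos h0 h1 b1 (Or.inr ?_), relw_pos h0 h1 b2 (Or.inr ?_)⟩ <;> ring1)
    | (refine ⟨relw_pos h0 h1 b1 (Or.inl ?_), relw_pos h0 h1 b2 (Or.inl ?_)⟩ <;> ring1)
    | (refine ⟨relw_pos h0 h1 b2 (Or.inl ?_), relw_pos h0 h1 b1 (Or.inr ?_)⟩ <;> ring1)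
    | (refine ⟨relw_pos h0 h1 b2 (Or.inr ?_), relw_pos h0 h1 b1 (Or.inl ?_)⟩ <;> ring1)
    | (refine ⟨relw_pos h0 h1 b2 (Or.inr ?_), relw_pos h0 h1 b1 (Or.inr ?_)⟩ <;> ring1)
    | (refine ⟨relw_pos h0 h1 b2 (Or.inl ?_), relw_pos h0 h1 b1 (Or.inl ?_)⟩ <;> ring1)

end weights

/-! ### positivity -/

section pos

variable {θ : ℝ}

theorem T_pos {p : SP} (h : 0 < p.w) (h' : 0 < p.w') (I : Finset (ℤ × ℤ)) (R : ℤ) (ω : Cfg) :
    0 < p.T I R ω := mul_pos (pow_pos h _) (pow_pos h' _)

/-- A state of the squares near the junction for which the product is positive. -/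
theorem exists_pos_state (h0 : 0 < θ) (h1 : θ ≤ Real.pi / 3) {κ : ℝ} {n : ℕ} {r : Row}
    (hr : r.Ok θ κ n) (hκ : 0 ≤ κ * n) {R : ℤ} (hR : ¬ Plain r → R ≤ r.k0 ∧ R ≤ r.L - r.k0) :
    ∃ (J : Finset (ℤ × ℤ)) (c : Bool), ∀ ω : Cfg, (∀ v ∈ J, v ∉ r.I → ω v = c) →
      0 < TT θ r.I r R ω := by
  classical
  have hη : r.η = 1 ∨ r.η = -1 := by
    rcases hr.kind with h | ⟨⟨-, h⟩ | ⟨-, h⟩, -⟩
    · exact Or.inl h.2
    · exact Or.inr h
    · exact Or.inl h
  have htip : ∀ k, 0 < relw θ 4 0 (r.τ (r.sq k)) (r.τ (r.sq k)) ∧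
      0 < relw θ (-4) 0 (r.τ (r.sq k)) (r.τ (r.sq k)) := fun k =>
    tip_pos h0 h1 (τ_cases hr.s hη k)
  by_cases hp : Plain r
  · refine ⟨∅, true, fun ω _ => ?_⟩
    unfold TT
    rw [if_pos hp, mul_one]
    exact mul_pos (T_pos (htip 0).1 (htip 0).2 _ _ _) (T_pos (htip _).1 (htip _).2 _ _ _)
  · have hk : ((|r.j| = (Real.pi - θ) / 2 ∨ |r.j| = (Real.pi - 3 * θ) / 2) ∧ r.η = -1) ∨
        (|r.j| = θ ∧ r.η = 1) := (hr.kind.resolve_left hp).1
    have hkL : r.k0 ≤ r.L := by
      have h2 := (hr.kind.resolve_left hp).2.2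
      have h3 : (r.k0 : ℝ) ≤ r.L := by linarith
      exact_mod_cast h3
    obtain ⟨R1, R2⟩ := hR hp
    obtain ⟨b, hb, hb'⟩ := jn_pos h0 h1 hr.s hk
    refine ⟨(jn θ r (!b)).bx R, cj r (!b), fun ω hω => ?_⟩
    have e1 := T_pos hb hb' r.I R ω
    have e2 : 0 < (jn θ r (!b)).T r.I R ω := by
      obtain ⟨a1, a2⟩ := no_cross R1 R2 hkL hω
      have a3 : (jn θ r (!b)).T r.I R ω = (jn θ r (!b)).w ^ (lrs r.I (faces r (!b) 0 r.k0)
          (faces r (!b) r.k0 r.L) ((jn θ r (!b)).bx R) ω).card * (jn θ r (!b)).w' ^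
          (lrs r.I (faces r (!b) r.k0 r.L) (faces r (!b) 0 r.k0)
            ((jn θ r (!b)).bx R) ω).card := rfl
      rw [a3, a1, a2]
      simp
    have e3 : 0 < (jn θ r true).T r.I R ω * (jn θ r false).T r.I R ω := by
      cases b
      · exact mul_pos e2 e1
      · exact mul_pos e1 e2
    unfold TT
    rw [if_neg hp]
    exact mul_pos (mul_pos (T_pos (htip 0).1 (htip 0).2 _ _ _)
      (T_pos (htip _).1 (htip _).2 _ _ _)) e3

/-- The product depends on finitely many squares. -/
theorem TT_loc (I : Finset (ℤ × ℤ)) (r : Row) (R : ℤ) :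
    ∃ K : Finset (ℤ × ℤ), Loc K (TT θ I r R) := by
  classical
  refine ⟨(tipL θ r).bx R ∪ (tipR θ r).bx R ∪ ((jn θ r true).bx R ∪ (jn θ r false).bx R),
    fun ω ω' h => ?_⟩
  have a1 := (tipL θ r).T_loc' I R ω ω' fun v hv => h v (by simp [hv])
  have a2 := (tipR θ r).T_loc' I R ω ω' fun v hv => h v (by simp [hv])
  have a3 := (jn θ r true).T_loc' I R ω ω' fun v hv => h v (by simp [hv])
  have a4 := (jn θ r false).T_loc' I R ω ω' fun v hv => h v (by simp [hv])
  unfold TT
  rw [a1, a2, a3, a4]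

theorem rad_le {r : Row} (hp : ¬ Plain r) : rad r ≤ r.k0 ∧ rad r ≤ r.L - r.k0 ∨ r.L < r.k0 := by
  classical
  unfold rad
  rw [if_neg hp]
  omega

/-- **The normalisation is positive.** -/
theorem Zp_pos' (h0 : 0 < θ) (h1 : θ ≤ Real.pi / 3) {P : Measure Cfg}
    (hP : IsLim (2 * Real.cos θ) P) {κ : ℝ} {n : ℕ} {r : Row} (hr : r.Ok θ κ n) (hκ : 0 ≤ κ * n)
    (m : ℕ) : 0 < Zp θ P m r := by
  classical
  have := hP.1
  have hg := H199.good_aeQ h0.le h1 hP h0
  have hQ : 1 ≤ 2 * Real.cos θ := by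
    have h := Real.cos_le_cos_of_nonneg_of_le_pi h0.le (by linarith [Real.pi_pos]) h1
    rw [Real.cos_pi_div_three] at h
    linarith
  have hs : 0 < Real.sin θ := Real.sin_pos_of_pos_of_lt_pi h0 (by linarith [Real.pi_pos])
  have hR : ¬ Plain r → rad r ≤ r.k0 ∧ rad r ≤ r.L - r.k0 := by
    intro hp
    rcases rad_le hp with h | h
    · exact h
    · exfalso
      have h2 := (hr.kind.resolve_left hp).2.2
      have h3 : (r.L : ℝ) < r.k0 := by exact_mod_cast h
      linarith
  obtain ⟨J, c, hJ⟩ := exists_pos_state h0 h1 hr hκ hR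
  obtain ⟨K, hK⟩ := TT_loc (θ := θ) r.I r (rad r)
  set σ : Cfg := fun v => if v ∈ r.I then r.fr v else c with hσ
  set M := r.I ∪ J ∪ K with hM
  have hσ0 : 0 < TT θ r.I r (rad r) σ := hJ σ fun v _ hv => by
    rw [hσ]
    exact if_neg hv
  have hσI : ∀ v ∈ r.I, σ v = r.fr v := fun v hv => by
    rw [hσ]
    exact if_pos hv
  unfold Zp
  refine mul_pos (pow_pos (by linarith) _) ?_
  have hle : ∀ ω, TT θ r.I r (rad r) σ * H506.Q.fz M σ ω ≤
      H506.Q.fz r.I r.fr ω * TT θ r.I r (rad r) ω := by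
    intro ω
    by_cases h : ∀ v ∈ M, ω v = σ v
    · rw [H506.Q.fz_one h, mul_one, H506.Q.fz_one, one_mul]
      · exact le_of_eq (hK σ ω fun v hv => (h v (by rw [hM]; simp [hv])).symm)
      · intro v hv
        rw [h v (by rw [hM]; simp [hv]), hσI v hv]
    · rw [H506.Q.fz_zero h, mul_zero]
      exact mul_nonneg (H506.Q.fz_nonneg _ _ _) (H945.Q.TT_nonneg h0 h1 _ _ _ _)
  have hint : Integrable (fun ω => H506.Q.fz r.I r.fr ω * TT θ r.I r (rad r) ω) P := by
    refine H562.GL.loc_integrable (B := r.I ∪ K) ?_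
    intro ω ω' h
    show H506.Q.fz r.I r.fr ω * TT θ r.I r (rad r) ω = H506.Q.fz r.I r.fr ω' * TT θ r.I r (rad r) ω'
    rw [H506.Q.fz_loc r.I r.fr ω ω' fun v hv => h v (mem_union_left _ hv),
      hK ω ω' fun v hv => h v (mem_union_right _ hv)]
  have hint' : Integrable (fun ω => TT θ r.I r (rad r) σ * H506.Q.fz M σ ω) P :=
    (H562.GL.loc_integrable (H506.Q.fz_loc M σ)).const_mul _
  have h2 := integral_mono hint' hint hle
  rw [integral_const_mul] at h2
  exact lt_of_lt_of_le (mul_pos hσ0 (pF_pos hQ hP hg M σ)) h2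

theorem Zp_pos (h0 : 0 < θ) (h1 : θ ≤ Real.pi / 3) {P : Measure Cfg}
    (hP : IsLim (2 * Real.cos θ) P) {κ : ℝ} (hκ : 0 < κ) :
    ∀ᶠ n : ℕ in atTop, ∀ r : Row, r.Ok θ κ n → 0 < Zp θ P n r :=
  Eventually.of_forall fun n _ hr => Zp_pos' h0 h1 hP hr (by positivity) n

end pos

end Vale.Agent.P167.H680.T
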