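import Vale.Agent.P167.H680.T.RowQ
import Vale.Agent.P167.H506.Q.EF
import Vale.Agent.P167.H562.Q.MQ2

/-!
# P167, general `q`, block 2A: the probability that a row is frozen

`pF P I f`: probability that the squares of `I` have the states `f`. Invariance under translations
(colours exchanged at odd ones) and the reflections; for rows, invariance under the exchange of the
colours. `pFr_inv`: the probability `pF P r.I r.fr` is an invariant normalisation of the rows.
-/

namespace Vale.Agent.P167.H680.T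

open Finset Filter Topology MeasureTheory
open Vale.Agent.P167.FK (Ex eta0 Good du syms Bq f_sym f_good)
open Vale.Agent.P167.FKA (Loc)
open Vale.Agent.P167.H519 (IsLim)
open Vale.Agent.P167.H506.Q (fz fz_loc fz_one fz_zero fz_nonneg fz_pos)
open Vale.Agent.P167.H562.QM (lim_map loc_comp lim_du lim_tr)
open Vale.Agent.P167.H825.Q (Row)

/-- The probability that the squares of `I` have the states `f`. -/
noncomputable def pF (P : Measure Cfg) (I : Finset (ℤ × ℤ)) (f : ℤ × ℤ → Bool) : ℝ :=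
  ∫ ω, fz I f ω ∂P

theorem fz_iff {I J : Finset (ℤ × ℤ)} {f g ω ω' : Cfg}
    (h : (∀ v ∈ I, ω v = f v) ↔ ∀ v ∈ J, ω' v = g v) : fz I f ω = fz J g ω' := by
  by_cases h1 : ∀ v ∈ I, ω v = f v
  · rw [fz_one h1, fz_one (h.1 h1)]
  · rw [fz_zero h1, fz_zero fun h2 => h1 (h.2 h2)]

theorem pF_congr {P : Measure Cfg} {I : Finset (ℤ × ℤ)} {f g : Cfg} (h : ∀ v ∈ I, f v = g v) :
    pF P I f = pF P I g := by
  unfold pF
  congr 1
  funext ω
  exact fz_iff ⟨fun h1 v hv => (h1 v hv).trans (h v hv),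
    fun h1 v hv => (h1 v hv).trans (h v hv).symm⟩

variable {Q : ℝ} {P : Measure Cfg}

/-! ### translations -/

/-- Exchange of the colours at odd translations. -/
def xp (v : ℤ × ℤ) (b : Bool) : Bool := if Even (v.1 + v.2) then b else !b

theorem xp_add (u v : ℤ × ℤ) (b : Bool) : xp (u + v) b = xp u (xp v b) := by
  have h : (u + v).1 + (u + v).2 = (u.1 + u.2) + (v.1 + v.2) := by
    show u.1 + v.1 + (u.2 + v.2) = _
    ring
  unfold xp
  rw [h]
  by_cases h1 : Even (u.1 + u.2)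
  · by_cases h2 : Even (v.1 + v.2)
    · rw [if_pos (Int.even_add.2 (iff_of_true h1 h2)), if_pos h1, if_pos h2]
    · rw [if_neg fun h => h2 ((Int.even_add.1 h).1 h1), if_pos h1, if_neg h2]
  · by_cases h2 : Even (v.1 + v.2)
    · rw [if_neg fun h => h1 ((Int.even_add.1 h).2 h2), if_neg h1, if_pos h2]
    · rw [if_pos (Int.even_add.2 (iff_of_false h1 h2)), if_neg h1, if_neg h2, Bool.not_not]

theorem xp_neg (v : ℤ × ℤ) (b : Bool) : xp (-v) b = xp v b := by
  have h : (-v).1 + (-v).2 = -(v.1 + v.2) := by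
    show -v.1 + -v.2 = _
    ring
  unfold xp
  rw [h]
  simp only [even_neg]

theorem xp_xp (v : ℤ × ℤ) (b : Bool) : xp v (xp v b) = b := by
  unfold xp
  split_ifs
  · rfl
  · exact Bool.not_not b

/-- Invariance under the translation `v`. -/
def TI (P : Measure Cfg) (v : ℤ × ℤ) : Prop := ∀ (I : Finset (ℤ × ℤ)) (f : Cfg),
  pF P (I.image (· + v)) (fun u => xp v (f (u - v))) = pF P I f

theorem TI.add {u v : ℤ × ℤ} (hu : TI P u) (hv : TI P v) : TI P (u + v) := by
  intro I f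
  have h1 := hu (I.image (· + v)) (fun w => xp v (f (w - v)))
  rw [hv I f, image_image] at h1
  rw [← h1]
  have h2 : (fun w => w + u) ∘ (fun w => w + v) = fun w : ℤ × ℤ => w + (u + v) := by
    funext w
    show w + v + u = w + (u + v)
    rw [add_assoc, add_comm v u]
  rw [h2]
  refine pF_congr fun w _ => ?_
  show xp (u + v) (f (w - (u + v))) = xp u (xp v (f (w - u - v)))
  rw [xp_add, sub_sub]

theorem TI.neg {v : ℤ × ℤ} (hv : TI P v) : TI P (-v) := by
  intro I f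
  have h1 := hv (I.image (· + -v)) (fun w => xp (-v) (f (w - -v)))
  rw [← h1, image_image]
  have h2 : (fun w => w + v) ∘ (fun w => w + -v) = fun w : ℤ × ℤ => w := by
    funext w
    show w + -v + v = w
    rw [neg_add_cancel_right]
  rw [h2, image_id']
  refine pF_congr fun w _ => ?_
  show xp v (xp (-v) (f (w - v - -v))) = f w
  rw [xp_neg, xp_xp, sub_neg_eq_add, sub_add_cancel]

theorem TI_zero : TI P 0 := by
  intro I f
  have h2 : (fun w : ℤ × ℤ => w + 0) = fun w => w := by funext w; rw [add_zero]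
  rw [h2, image_id']
  refine pF_congr fun w _ => ?_
  show xp 0 (f (w - 0)) = f w
  rw [sub_zero]
  unfold xp
  rw [if_pos (by simp)]

theorem TI_one (hQ : 0 < Q) (hP : IsLim Q P) : TI P (1, 0) := by
  intro I f
  have h1 := lim_du hQ hP (fz_loc (I.image (· + (1, 0))) (fun u => xp (1, 0) (f (u - (1, 0)))))
  unfold pF
  rw [← h1]
  congr 1
  funext ω
  refine fz_iff ?_
  have hx : ∀ b, xp (1, 0) b = !b := fun b => if_neg (by decide)
  constructor
  · intro h v hv
    have h2 := h (v + (1, 0)) (mem_image_of_mem _ hv)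
    rw [hx, add_sub_cancel_right] at h2
    have h3 : du ω (v + (1, 0)) = !(ω v) := by
      show (!(ω (v.1 + 1 - 1, v.2 + 0))) = !(ω v)
      rw [add_sub_cancel_right, add_zero]
    rw [h3] at h2
    exact Bool.not_inj h2
  · intro h w hw
    obtain ⟨v, hv, rfl⟩ := mem_image.1 hw
    rw [hx, add_sub_cancel_right]
    have h3 : du ω (v + (1, 0)) = !(ω v) := by
      show (!(ω (v.1 + 1 - 1, v.2 + 0))) = !(ω v)
      rw [add_sub_cancel_right, add_zero]
    rw [h3, h v hv]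

theorem TI_diag (hQ : 0 < Q) (hP : IsLim Q P) : TI P (1, 1) := by
  intro I f
  have h1 := lim_tr hQ hP (fz_loc I f)
  unfold pF
  rw [← h1]
  congr 1
  funext ω
  refine fz_iff ?_
  have hx : ∀ b, xp (1, 1) b = b := fun b => if_pos (by decide)
  constructor
  · intro h v hv
    have h2 := h (v + (1, 1)) (mem_image_of_mem _ hv)
    rw [hx, add_sub_cancel_right] at h2
    exact h2
  · intro h w hw
    obtain ⟨v, hv, rfl⟩ := mem_image.1 hw
    rw [hx, add_sub_cancel_right]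
    exact h v hv

theorem TI_nsmul {v : ℤ × ℤ} (hv : TI P v) (n : ℕ) : TI P (n • v) := by
  induction n with
  | zero => rw [zero_smul]; exact TI_zero
  | succ n ih => rw [succ_nsmul]; exact ih.add hv

theorem TI_zsmul {v : ℤ × ℤ} (hv : TI P v) (n : ℤ) : TI P (n • v) := by
  rcases Int.eq_nat_or_neg n with ⟨m, rfl | rfl⟩
  · rw [natCast_zsmul]
    exact TI_nsmul hv m
  · rw [neg_smul, natCast_zsmul]
    exact (TI_nsmul hv m).neg

/-- **Invariance under all translations.** -/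
theorem TI_all (hQ : 0 < Q) (hP : IsLim Q P) (v : ℤ × ℤ) : TI P v := by
  have h2 : TI P (v.2 • ((1, 1) : ℤ × ℤ)) := TI_zsmul (TI_diag hQ hP) _
  have h1 : TI P ((v.1 - v.2) • ((1, 0) : ℤ × ℤ)) := TI_zsmul (TI_one hQ hP) _
  have h3 := h1.add h2
  have e : (v.1 - v.2) • ((1, 0) : ℤ × ℤ) + v.2 • ((1, 1) : ℤ × ℤ) = v := by
    apply Prod.ext
    · show (v.1 - v.2) * 1 + v.2 * 1 = v.1
      ring
    · show (v.1 - v.2) * 0 + v.2 * 1 = v.2
      ring
  rwa [e] at h3

/-! ### reflections -/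

/-- Invariance under a symmetry. -/
theorem pF_sym (hQ : 0 < Q) (hP : IsLim Q P) {σ : ℤ × ℤ → ℤ × ℤ} (hσ : σ ∈ syms)
    (hinv : ∀ v, σ (σ v) = v) (hB : ∀ R : ℤ, ∀ v ∈ Bq 0 R, σ v ∈ Bq 0 (R + 1))
    (I : Finset (ℤ × ℤ)) (f : Cfg) : pF P (I.image σ) (fun u => f (σ u)) = pF P I f := by
  have hs := f_sym _ hσ
  have h1 := lim_map hP (T := fun ω v => ω (σ v)) (fun R => by
    refine ⟨Bq 0 (R + 1), (Bq 0 (R + 1)).image σ, eta0 ∘ σ, eta0, H519.Bq_mono (by omega), ?_,
      hs.1 _ f_good.2.1, f_good.2.1, fun F => hs.2 Q _ eta0 F hQ f_good.2.1⟩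
    intro v hv
    exact mem_image.2 ⟨σ v, hB R v hv, hinv v⟩) (fz_loc I f)
    (loc_comp (fz_loc I f) σ (fun b => b))
  unfold pF
  rw [← h1]
  congr 1
  funext ω
  refine fz_iff ?_
  constructor
  · intro h v hv
    have h2 := h (σ v) (mem_image_of_mem _ hv)
    rw [hinv] at h2
    exact h2
  · intro h w hw
    obtain ⟨v, hv, rfl⟩ := mem_image.1 hw
    rw [hinv]
    exact h v hv

theorem mem_Bq0 {R : ℤ} {v : ℤ × ℤ} :
    v ∈ Bq 0 R ↔ (-R ≤ v.1 ∧ v.1 < R) ∧ -R ≤ v.2 ∧ v.2 < R := by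
  simp only [Bq, Finset.mem_product, Finset.mem_Ico, Prod.fst_zero, Prod.snd_zero, zero_sub,
    zero_add]

theorem pF_rd (hQ : 0 < Q) (hP : IsLim Q P) (I : Finset (ℤ × ℤ)) (f : Cfg) :
    pF P (I.image rd) (fun u => f (rd u)) = pF P I f := by
  refine pF_sym hQ hP (σ := rd) (by
    have : rd = fun v : ℤ × ℤ => (v.2, v.1) := rfl
    rw [this]
    simp [syms]) rd_rd ?_ I f
  intro R v hv
  rw [mem_Bq0] at hv ⊢
  show (-(R + 1) ≤ v.2 ∧ v.2 < R + 1) ∧ -(R + 1) ≤ v.1 ∧ v.1 < R + 1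
  omega

/-- Reflection in a column of sites. -/
def r1 (v : ℤ × ℤ) : ℤ × ℤ := (-1 - v.1, v.2)

/-- Reflection in a row of sites. -/
def r2 (v : ℤ × ℤ) : ℤ × ℤ := (v.1, -1 - v.2)

theorem pF_r1 (hQ : 0 < Q) (hP : IsLim Q P) (I : Finset (ℤ × ℤ)) (f : Cfg) :
    pF P (I.image r1) (fun u => f (r1 u)) = pF P I f := by
  refine pF_sym hQ hP (σ := r1) (by
    have : r1 = fun v : ℤ × ℤ => (-1 - v.1, v.2) := rfl
    rw [this]
    simp [syms]) (fun v => ?_) ?_ I f
  · apply Prod.ext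
    · show -1 - (-1 - v.1) = v.1
      ring
    · rfl
  · intro R v hv
    rw [mem_Bq0] at hv ⊢
    show (-(R + 1) ≤ -1 - v.1 ∧ -1 - v.1 < R + 1) ∧ -(R + 1) ≤ v.2 ∧ v.2 < R + 1
    omega

theorem pF_r2 (hQ : 0 < Q) (hP : IsLim Q P) (I : Finset (ℤ × ℤ)) (f : Cfg) :
    pF P (I.image r2) (fun u => f (r2 u)) = pF P I f := by
  refine pF_sym hQ hP (σ := r2) (by
    have : r2 = fun v : ℤ × ℤ => (v.1, -1 - v.2) := rfl
    rw [this]
    simp [syms]) (fun v => ?_) ?_ I f
  · apply Prod.ext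
    · rfl
    · show -1 - (-1 - v.2) = v.2
      ring
  · intro R v hv
    rw [mem_Bq0] at hv ⊢
    show (-(R + 1) ≤ v.1 ∧ v.1 < R + 1) ∧ -(R + 1) ≤ -1 - v.2 ∧ -1 - v.2 < R + 1
    omega

theorem pF_rx (hQ : 0 < Q) (hP : IsLim Q P) (I : Finset (ℤ × ℤ)) (f : Cfg) :
    pF P (I.image rx) (fun u => f (rx u)) = pF P I f := by
  have h1 := TI_all hQ hP (2, 0) (I.image r1) (fun u => f (r1 u))
  rw [pF_r1 hQ hP, image_image] at h1
  rw [← h1]
  have h2 : (fun w => w + ((2, 0) : ℤ × ℤ)) ∘ r1 = rx := by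
    funext w
    apply Prod.ext
    · show -1 - w.1 + 2 = 1 - w.1
      ring
    · show w.2 + 0 = w.2
      ring
  rw [h2]
  refine pF_congr fun w _ => ?_
  have hx : ∀ b, xp (2, 0) b = b := fun b => if_pos (by decide)
  rw [hx]
  congr 1
  apply Prod.ext
  · show 1 - w.1 = -1 - (w.1 - 2)
    ring
  · show w.2 = w.2 - 0
    ring

/-! ### rows -/

/-- The state of a frozen square: open where the colour is `-1`. -/
noncomputable def RD.fr (d : RD) (v : ℤ × ℤ) : Bool := decide (d.ta v = -1)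

theorem RD.fr_row (d : RD) {v : ℤ × ℤ} (h : v ∈ d.D) : d.row.fr v = d.fr v := by
  unfold Row.fr RD.fr Row.τ RD.ta
  have h1 := ix_cast (r := d.row) (z := d.z) h d.k0
  have h2 : (toRD d.row d.z).ix v = d.ix v := rfl
  rw [h2] at h1
  show decide (d.s * (if d.k0 ≤ d.row.ix v then d.η else 1) = -1) =
    decide (d.s * (if (d.k0 : ℤ) ≤ d.ix v then d.η else 1) = -1)
  simp only [h1]

/-- The states depend only on the index: they are invariant under the reflection which fixes the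
squares of the row. -/
theorem pF_not (hQ : 0 < Q) (hP : IsLim Q P) (d : RD) :
    pF P d.D (fun v => !(d.fr v)) = pF P d.D d.fr := by
  cases ho : d.o
  · -- vertical row
    have h1 := pF_r1 hQ hP d.D d.fr
    rw [← h1]
    have h2 := TI_all hQ hP (2 * d.q.1 + 1, 0) (d.D.image r1) (fun u => d.fr (r1 u))
    rw [← h2, image_image]
    have h3 : d.D.image ((fun w => w + ((2 * d.q.1 + 1, 0) : ℤ × ℤ)) ∘ r1) = d.D := by
      have h4 : ∀ v ∈ d.D, ((fun w => w + ((2 * d.q.1 + 1, 0) : ℤ × ℤ)) ∘ r1) v = v := by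
        intro v hv
        rw [RD.mem_D, ho] at hv
        have h5 : v.1 = d.q.1 := hv.1
        apply Prod.ext
        · show -1 - v.1 + (2 * d.q.1 + 1) = v.1
          omega
        · show v.2 + 0 = v.2
          omega
      rw [image_congr (g := id) fun v hv => h4 v hv, image_id]
    rw [h3]
    refine pF_congr fun v hv => ?_
    have hx : ∀ b, xp (2 * d.q.1 + 1, 0) b = !b := fun b => if_neg (by
      show ¬ Even (2 * d.q.1 + 1 + 0)
      rw [add_zero, Int.not_even_iff_odd]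
      exact ⟨d.q.1, rfl⟩)
    rw [hx]
    have h6 : d.fr (r1 (v - (2 * d.q.1 + 1, 0))) = d.fr v := by
      unfold RD.fr RD.ta RD.ix
      rw [ho]
      have : (r1 (v - (2 * d.q.1 + 1, 0))).2 = v.2 := by
        show v.2 - 0 = v.2
        ring
      simp only [this, Bool.false_eq_true, if_false]
    rw [h6]
  · -- horizontal row
    have h1 := pF_r2 hQ hP d.D d.fr
    rw [← h1]
    have h2 := TI_all hQ hP (0, 2 * d.q.2 + 1) (d.D.image r2) (fun u => d.fr (r2 u))
    rw [← h2, image_image]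
    have h3 : d.D.image ((fun w => w + ((0, 2 * d.q.2 + 1) : ℤ × ℤ)) ∘ r2) = d.D := by
      have h4 : ∀ v ∈ d.D, ((fun w => w + ((0, 2 * d.q.2 + 1) : ℤ × ℤ)) ∘ r2) v = v := by
        intro v hv
        rw [RD.mem_D, ho] at hv
        have h5 : v.2 = d.q.2 := hv.1
        apply Prod.ext
        · show v.1 + 0 = v.1
          omega
        · show -1 - v.2 + (2 * d.q.2 + 1) = v.2
          omega
      rw [image_congr (g := id) fun v hv => h4 v hv, image_id]
    rw [h3]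
    refine pF_congr fun v hv => ?_
    have hx : ∀ b, xp (0, 2 * d.q.2 + 1) b = !b := fun b => if_neg (by
      show ¬ Even (0 + (2 * d.q.2 + 1))
      rw [zero_add, Int.not_even_iff_odd]
      exact ⟨d.q.2, rfl⟩)
    rw [hx]
    have h6 : d.fr (r2 (v - (0, 2 * d.q.2 + 1))) = d.fr v := by
      unfold RD.fr RD.ta RD.ix
      rw [ho]
      have : (r2 (v - (0, 2 * d.q.2 + 1))).1 = v.1 := by
        show v.1 - 0 = v.1
        ring
      simp only [this, if_true]
    rw [h6]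

variable {θ κ : ℝ} {n : ℕ}

theorem RD.ta_cases {d : RD} (h : d.Ok θ κ n) (v : ℤ × ℤ) : d.ta v = 1 ∨ d.ta v = -1 := by
  unfold RD.ta
  rcases h.s with h1 | h1 <;> rcases RD.eta h with h2 | h2 <;> rw [h1, h2] <;> split_ifs <;>
    norm_num

theorem dec_neg {t : ℝ} (h : t = 1 ∨ t = -1) : decide (-t = -1) = !decide (t = -1) := by
  rcases h with h | h <;> rw [h] <;> norm_num

theorem pF_tr (hQ : 0 < Q) (hP : IsLim Q P) {d : RD} (h : d.Ok θ κ n) (v : ℤ × ℤ) :
    pF P (d.tr v).D (d.tr v).fr = pF P d.D d.fr := by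
  rw [← TI_all hQ hP v d.D d.fr, RD.tr_D]
  refine pF_congr fun u _ => ?_
  have h1 : (d.tr v).ta u = par v * d.ta (u - v) := by
    unfold RD.ta
    rw [RD.tr_ix]
    exact mul_assoc _ _ _
  unfold RD.fr
  rw [h1]
  unfold xp par
  split_ifs with hv
  · rw [one_mul]
  · rw [neg_one_mul]
    exact dec_neg (RD.ta_cases h _)

theorem pF_rD (hQ : 0 < Q) (hP : IsLim Q P) {d : RD} (h : d.Ok θ κ n) :
    pF P d.rD.D d.rD.fr = pF P d.D d.fr := by
  rw [← pF_not hQ hP d, ← pF_rd hQ hP d.D, RD.rD_D]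
  refine pF_congr fun u _ => ?_
  have h1 : d.rD.ta u = - d.ta (rd u) := by
    unfold RD.ta
    rw [RD.rD_ix]
    exact neg_mul _ _
  unfold RD.fr
  rw [h1]
  exact dec_neg (RD.ta_cases h _)

theorem RD.rX_ta {d : RD} (h : d.Ok θ κ n) {u : ℤ × ℤ} (hu : u ∈ d.D.image rx) :
    d.rX.ta u = - d.ta (rx u) := by
  have hη := RD.eta h
  have hη2 : d.η * d.η = 1 := by rcases hη with h | h <;> rw [h] <;> norm_num
  cases ho : d.o
  · have hX : d.rX = { d with q := (1 - d.q.1, d.q.2), s := -d.s } := by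
      unfold RD.rX
      rw [if_neg (by simp [ho])]
    rw [hX]
    unfold RD.ta RD.ix
    simp only [ho, Bool.false_eq_true, if_false]
    show -d.s * (if (d.k0 : ℤ) ≤ u.2 - d.q.2 then d.η else 1) =
      -(d.s * if (d.k0 : ℤ) ≤ u.2 - d.q.2 then d.η else 1)
    ring
  · have hX : d.rX = ⟨true, (2 - d.q.1 - d.L, d.q.2), d.L, d.c + d.j, -d.j, d.L - d.k0,
        -(d.s * d.η), d.η, d.z⟩ := by
      unfold RD.rX RD.rev
      rw [if_pos ho, ho]
    rw [hX]
    rw [mem_image_inv rx_rx, RD.mem_D, if_pos ho] at hu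
    have h1 : d.q.1 ≤ 1 - u.1 := hu.2.1
    have h2 : 1 - u.1 < d.q.1 + d.L := hu.2.2
    unfold RD.ta RD.ix
    simp only [ho, if_true]
    show -(d.s * d.η) * (if ((d.L - d.k0 : ℕ) : ℤ) ≤ u.1 - (2 - d.q.1 - d.L) then d.η else 1) =
      -(d.s * if (d.k0 : ℤ) ≤ 1 - u.1 - d.q.1 then d.η else 1)
    rcases h.cs with h3 | h3
    · rw [h3.2]
      split_ifs <;> ring
    · have h4 : ((d.L - d.k0 : ℕ) : ℤ) ≤ u.1 - (2 - d.q.1 - d.L) ↔
          ¬ (d.k0 : ℤ) ≤ 1 - u.1 - d.q.1 := by omega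
      by_cases h5 : (d.k0 : ℤ) ≤ 1 - u.1 - d.q.1
      · rw [if_pos h5, if_neg fun h6 => h4.1 h6 h5]
        ring
      · rw [if_neg h5, if_pos (h4.2 h5)]
        linear_combination -d.s * hη2

theorem pF_rX (hQ : 0 < Q) (hP : IsLim Q P) {d : RD} (h : d.Ok θ κ n) :
    pF P d.rX.D d.rX.fr = pF P d.D d.fr := by
  rw [← pF_not hQ hP d, ← pF_rx hQ hP d.D, RD.rX_D]
  refine pF_congr fun u hu => ?_
  unfold RD.fr
  rw [RD.rX_ta h hu]
  exact dec_neg (RD.ta_cases h _)

theorem pF_row (d : RD) : pF P d.row.I d.row.fr = pF P d.D d.fr :=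
  pF_congr fun _ hv => d.fr_row hv

/-- **The probability that the row is frozen is an invariant normalisation.** -/
theorem pFr_inv (hQ : 0 < Q) (hP : IsLim Q P) : ZInvR θ (fun _ r => pF P r.I r.fr) where
  tr v h := by rw [pF_row, pF_row, pF_tr hQ hP h]
  rD h := by rw [pF_row, pF_row, pF_rD hQ hP h]
  rX h := by rw [pF_row, pF_row, pF_rX hQ hP h]

theorem pF_pos (hQ : 1 ≤ Q) (hP : IsLim Q P) (hg : ∀ᵐ ω ∂P, Good ω) (I : Finset (ℤ × ℤ))
    (f : Cfg) : 0 < pF P I f := fz_pos hQ hP hg I f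

/-- Products of invariant normalisations. -/
theorem ZInvR.mul {Zr Zr' : ℕ → Row → ℝ} (h : ZInvR θ Zr) (h' : ZInvR θ Zr') :
    ZInvR θ (fun n r => Zr n r * Zr' n r) where
  tr v hd := by rw [h.tr v hd, h'.tr v hd]
  rD hd := by rw [h.rD hd, h'.rD hd]
  rX hd := by rw [h.rX hd, h'.rX hd]

/-- Functions of the length and of the kind. -/
theorem ZInvR.kind (g : ℕ → ℕ → ℝ → ℝ → ℝ) : ZInvR θ (fun n r => g n r.L |r.j| r.η) where
  tr v hd := rfl
  rD hd := rfl
  rX {κ n d} hd := by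
    show g n d.rX.L |d.rX.j| d.rX.η = g n d.L |d.j| d.η
    unfold RD.rX RD.rev
    split_ifs
    · show g n d.L |-d.j| d.η = _
      rw [abs_neg]
    · rfl

end Vale.Agent.P167.H680.T
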