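import Vale.Agent.P167.H680.T.Mul
import Vale.Agent.P167.H680.T.FrP
import Vale.Agent.P167.H680.T.Os
import Vale.Agent.P167.H592.QK1

/-!
# P167, general `q`, block 2A: the values of the configurations of rows

`red`: the functional of the insertion of an admissible configuration of rows is
`∏ 2 (2 cos (θ / 4)) ^ (2 L)` times the expectation of `RT` (outer product of the union of the rows)
on the event that the rows are frozen.
`hosq_of`: the upper bound for the law implies `HOSQ` for the class of `H825/Q/Rows`.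
-/

namespace Vale.Agent.P167.H680.T

open Finset Filter Topology MeasureTheory
open Vale.Agent.P167.H592
open Vale.Agent.P167.A (plane)
open Vale.Agent.P167.H519 (IsLim)
open Vale.Agent.P167.H825 (dv epos)
open Vale.Agent.P167.H199 (Fs phO phO_eq nm_neg)
open Vale.Agent.P167.XDL (bS mem_bS)
open Vale.Agent.P167.QX (rhoT RT XcQ)
open Vale.Agent.P167.H825.Q (Row)
open Vale.Agent.P167.H506.Q (fz)
open Vale.Agent.P167.FK (Good)

/-! ### geometry -/

/-- The transversal edge of a square. -/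
def et (r : Row) (v : ℤ × ℤ) : Ed := if r.o then Sum.inr v else Sum.inl v

theorem et_sq (r : Row) (v : ℤ × ℤ) : sq (et r v) false = v := by
  unfold et
  cases r.o <;> rfl

theorem et_pos (r : Row) (v : ℤ × ℤ) : epos (et r v) = v := by
  unfold et
  cases r.o <;> rfl

theorem et_ax (r : Row) (v : ℤ × ℤ) : ax r.o (et r v) = false := by
  unfold et
  cases r.o <;> rfl

theorem et_mem {r : Row} {v : ℤ × ℤ} (hv : v ∈ r.I) : et r v ∈ bS r.I := by
  rw [mem_bS_sq]
  have h1 : sq (et r v) false ∈ r.I := by rw [et_sq]; exact hv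
  have h2 : sq (et r v) true ∉ r.I := fun h => trans_mem (et_ax r v) h h1
  tauto

/-- An edge and its two squares. -/
theorem nm_sq (e : Ed) (b : Bool) : nm (epos e - sq e b) ≤ 1 := by
  rcases e with v | v <;> cases b
  · show nm (v - v) ≤ 1
    rw [sub_self]
    simp [nm]
  · show nm (v - (v.1 + 1, v.2)) ≤ 1
    have : v - (v.1 + 1, v.2) = (-1, 0) := by ext <;> simp
    rw [this]
    simp [nm]
  · show nm (v - v) ≤ 1
    rw [sub_self]
    simp [nm]
  · show nm (v - (v.1, v.2 + 1)) ≤ 1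
    have : v - (v.1, v.2 + 1) = (0, -1) := by ext <;> simp
    rw [this]
    simp [nm]

theorem nm_ht (e : Ed) : nm (hdv e - tlv e) ≤ 1 := by
  rcases e with v | v
  · show nm ((if Even (v.1 + v.2) then (v.1 + 1, v.2) else v) -
      (if Even (v.1 + v.2) then v else (v.1 + 1, v.2))) ≤ 1
    split_ifs
    · have : ((v.1 + 1, v.2) : ℤ × ℤ) - v = (1, 0) := by ext <;> simp
      rw [this]
      simp [nm]
    · have : v - ((v.1 + 1, v.2) : ℤ × ℤ) = (-1, 0) := by ext <;> simp
      rw [this]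
      simp [nm]
  · show nm ((if Even (v.1 + v.2) then v else (v.1, v.2 + 1)) -
      (if Even (v.1 + v.2) then (v.1, v.2 + 1) else v)) ≤ 1
    split_ifs
    · have : v - ((v.1, v.2 + 1) : ℤ × ℤ) = (0, -1) := by ext <;> simp
      rw [this]
      simp [nm]
    · have : ((v.1, v.2 + 1) : ℤ × ℤ) - v = (0, 1) := by ext <;> simp
      rw [this]
      simp [nm]

section

variable {ι : Type} [Fintype ι] {W : WCG ι} {κ R B θ : ℝ} {n : ℕ} {r : ι → Row} {z : ι → ℝ}

omit [Fintype ι] in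
/-- The rows of an admissible configuration are separate. -/
theorem adm_sepd (hW : W.Adm κ R B n) (hn : 1 < κ * n)
    (hr : ∀ i, W.w i = (r i).wall θ (z i)) {i j : ι} (hij : i ≠ j) : Sepd (r i).I (r j).I := by
  have hS : ∀ k, (W.w k).S = bS (r k).I := fun k => by rw [hr k]; rfl
  have key : ∀ u ∈ (r i).I, ∀ v ∈ (r j).I, κ * n ≤ (nm (u - v) : ℝ) := by
    intro u hu v hv
    have h1 := hW.sep i j hij (et (r i) u) (by rw [hS]; exact et_mem hu) (et (r j) v)
      (by rw [hS]; exact et_mem hv)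
    rwa [et_pos, et_pos] at h1
  refine ⟨?_, fun e h1 h2 => ?_, fun e h1 h2 => ?_⟩
  · rw [Finset.disjoint_left]
    intro v hv hv'
    have h1 := key v hv v hv'
    rw [sub_self] at h1
    have : nm (0 : ℤ × ℤ) = 0 := by simp [nm]
    rw [this] at h1
    norm_num at h1
    linarith
  · have h3 := key _ h1 _ h2
    have h4 : (nm (hdv e - tlv e) : ℝ) ≤ 1 := by exact_mod_cast nm_ht e
    linarith
  · have h3 := key _ h1 _ h2
    have h4 : (nm (tlv e - hdv e) : ℝ) ≤ 1 := by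
      rw [← nm_neg, neg_sub]
      exact_mod_cast nm_ht e
    linarith

/-- All rows. -/
def uI (r : ι → Row) : Finset (ℤ × ℤ) := univ.biUnion fun i => (r i).I

theorem mem_uI {v : ℤ × ℤ} : v ∈ uI r ↔ ∃ i, v ∈ (r i).I := by simp [uI]

theorem adm_S (hW : W.Adm κ R B n) (hn : 1 < κ * n)
    (hr : ∀ i, W.w i = (r i).wall θ (z i)) : W.S = bS (uI r) := by
  classical
  have h : bS (uI r) = univ.biUnion fun i => bS (r i).I :=
    bS_biUnion univ fun i _ j _ hij => adm_sepd hW hn hr hij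
  rw [h]
  unfold WCG.S
  exact biUnion_congr rfl fun i _ => by rw [hr i]; rfl

/-- The phases of an admissible configuration vanish inside the rows. -/
theorem adm_in0 (hW : W.Adm κ R B n) (hn : 1 < κ * n)
    (hr : ∀ i, W.w i = (r i).wall θ (z i)) : In0 (uI r) W.ph := by
  have hS : ∀ k, (W.w k).S = bS (r k).I := fun k => by rw [hr k]; rfl
  intro e b hb
  obtain ⟨i, hi⟩ := mem_uI.1 hb
  have hd : (nm (epos e - sq e b) : ℝ) ≤ 1 := by exact_mod_cast nm_sq e b
  have hc : W.c e = 0 := by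
    by_contra hne
    have h1 := (hW.csup e hne).2 i (et (r i) (sq e b)) (by rw [hS]; exact et_mem hi)
    rw [et_pos] at h1
    linarith
  show ∑ k, (W.w k).a e b + W.c e / 2 = 0
  rw [hc, zero_div, add_zero]
  refine sum_eq_zero fun k _ => ?_
  by_cases hk : k = i
  · subst hk
    rw [hr k]
    exact thk_in0 e b hi
  · by_cases he : e ∈ (W.w k).S
    · have h1 := hW.sep k i hk e he (et (r i) (sq e b)) (by rw [hS]; exact et_mem hi)
      rw [et_pos] at h1
      linarith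
    · rw [(W.w k).off e he]
      rfl

/-- The inner sum of an admissible configuration. -/
theorem adm_rho (hW : W.Adm κ R B n) (hn : 1 < κ * n)
    (hr : ∀ i, W.w i = (r i).wall θ (z i)) (hL : ∀ i, 1 ≤ (r i).L) :
    rhoT θ (uI r) W.ph = ∏ i, 2 * (2 * Real.cos (θ / 4)) ^ (2 * (r i).L) := by
  classical
  unfold uI
  rw [rhoT_biUnion univ fun i _ j _ hij => adm_sepd hW hn hr hij]
  refine prod_congr rfl fun i _ => rhoT_row (fun e b he => ?_) (hL i)
  exact adm_in0 hW hn hr e b (mem_uI.2 ⟨i, he⟩)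

end

/-- The two notations for the frozen rows. -/
theorem fr_eq_fz (D : Finset (ℤ × ℤ)) (σ ω : Cfg) : QX.fr D σ ω = fz D σ ω := by
  classical
  unfold QX.fr fz
  by_cases h : ∀ v ∈ D, ω v = σ v
  · rw [if_pos h, Set.indicator_of_mem (s := {ω : Cfg | ∀ v ∈ D, ω v = σ v}) h]
    rfl
  · rw [if_neg h, Set.indicator_of_notMem (s := {ω : Cfg | ∀ v ∈ D, ω v = σ v}) h]

variable {θ : ℝ} {P : Measure Cfg} {om : Ins → ℂ}

/-- The functional of a configuration is an expectation. -/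
theorem om_insW (h : OmQ θ P om) {ι : Type} [Fintype ι] (W : WCG ι) (hc : Fc W) :
    om (insW W hc).1 = ((∫ ω, XcQ θ W.S W.ph ω ∂P : ℝ) : ℂ) := by
  classical
  have h0 := (fs_ph hc).off
  have h1 : ∀ e ∉ W.S ∪ Set.Finite.toFinset (fs_ph hc), W.ph e = 0 := fun e he =>
    h0 e fun hh => he (mem_union_right _ hh)
  have h2 : (insW W hc).1 = ⟨W.S, H199.phF (W.S ∪ Set.Finite.toFinset (fs_ph hc)) W.ph⟩ := by
    have h3 := phO_eq h1
    show (⟨W.S, fun ω => phO W.ph ω⟩ : Ins) = _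
    rw [h3]
  rw [h2]
  exact h.ph W.S _ W.ph subset_union_left fun e he b => by rw [h1 e he]; rfl

/-- **The value of the insertion of an admissible configuration of rows.** -/
theorem red (h : OmQ θ P om) (hP : IsLim (2 * Real.cos θ) P) (hgd : ∀ᵐ ω ∂P, Good ω)
    (hθ : 1 ≤ 2 * Real.cos θ) {ι : Type} [Fintype ι] {W : WCG ι} (hc : Fc W) {κ R B : ℝ} {n : ℕ}
    (hW : W.Adm κ R B n) (hn : 1 < κ * n) {r : ι → Row} {z : ι → ℝ}
    (hr : ∀ i, W.w i = (r i).wall θ (z i)) (hL : ∀ i, 1 ≤ (r i).L) (σ : Cfg) :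
    om (insW W hc).1 = (((∏ i, 2 * (2 * Real.cos (θ / 4)) ^ (2 * (r i).L)) *
      ∫ ω, fz (uI r) σ ω * RT θ (uI r) W.ph ω ∂P : ℝ) : ℂ) := by
  classical
  have := hP.1
  rw [om_insW h W hc, adm_S hW hn hr]
  congr 1
  have h0 := (fs_ph hc).off
  have h1 := QX.int_thick (D := uI r) (a := W.ph) (E := Set.Finite.toFinset (fs_ph hc)) hP hgd hθ
    (fun e he b => by rw [h0 e he]; rfl) σ (G := fun _ => 1) (fun _ _ _ => rfl)
    (QX.QL.of_loc (B := ∅) (F := fun _ => (1 : ℝ)) fun _ _ _ => rfl) (M := 1) (fun _ _ => by norm_num)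
  simp only [one_mul] at h1
  rw [h1, adm_rho hW hn hr hL]
  congr 1
  exact integral_congr_ae (Eventually.of_forall fun ω => by
    show QX.fr (uI r) σ ω * _ = fz (uI r) σ ω * _
    rw [fr_eq_fz])

/-! ### the upper bound -/

/-- The configuration of the walls of the rows with the flow `c`. -/
noncomputable def rowC (θ : ℝ) {ι : Type} (r : ι → Row) (c : Ed → ℝ) : WCG ι :=
  ⟨fun i => (r i).wall θ 0, c⟩

/-- **The upper bound in terms of the law**, with the normalisations `Zp`. -/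
def HOSR (θ : ℝ) (P : Measure Cfg) (Zp : ℕ → Row → ℝ) : Prop :=
  ∀ (κ R B : ℝ) (M : ℕ), 0 < κ → ∃ C : ℝ, 0 < C ∧ ∀ᶠ n : ℕ in atTop,
    ∀ (ι : Type) [Fintype ι] (r : ι → Row) (c : Ed → ℝ), (Function.support c).Finite →
      Fintype.card ι ≤ M → (rowC θ r c).Adm κ R B n → (∀ i, (r i).Ok θ κ n) →
        ∀ σ : Cfg, (∀ i, ∀ v ∈ (r i).I, σ v = (r i).fr v) →
          |∫ ω, fz (uI r) σ ω * RT θ (uI r) (rowC θ r c).ph ω ∂P| ≤ C * ∏ i, Zp n (r i)

/-- The normalisation of the insertion of a row. -/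
noncomputable def Zrow (θ : ℝ) (Zp : ℕ → Row → ℝ) (n : ℕ) (r : Row) : ℝ :=
  2 * (2 * Real.cos (θ / 4)) ^ (2 * r.L) * Zp n r

theorem zInvR_len {θ : ℝ} (f : ℕ → ℝ) : ZInvR θ (fun _ r => f r.L) where
  tr _ _ := rfl
  rD _ := rfl
  rX {κ n d} _ := by
    show f d.rX.L = f d.L
    unfold RD.rX RD.rev
    split_ifs <;> rfl

theorem zrow_inv {Zp : ℕ → Row → ℝ} (hZ : ZInvR θ Zp) : ZInvR θ (Zrow θ Zp) :=
  (zInvR_len (θ := θ) fun L => 2 * (2 * Real.cos (θ / 4)) ^ (2 * L)).mul hZ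

/-- Frozen state of separate rows. -/
theorem exists_state {ι : Type} [Fintype ι] {r : ι → Row}
    (h : ∀ i j, i ≠ j → Disjoint (r i).I (r j).I) :
    ∃ σ : Cfg, ∀ i, ∀ v ∈ (r i).I, σ v = (r i).fr v := by
  classical
  refine ⟨fun v => if hv : ∃ i, v ∈ (r i).I then (r hv.choose).fr v else false, fun i v hv => ?_⟩
  have hex : ∃ i, v ∈ (r i).I := ⟨i, hv⟩
  have : hex.choose = i := by
    by_contra hne
    exact Finset.disjoint_left.1 (h _ _ hne) hex.choose_spec hv
  beta_reduce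
  rw [dif_pos hex, this]

/-- **The upper bound for the functional.** -/
theorem hosq_of (h : OmQ θ P om) (hP : IsLim (2 * Real.cos θ) P) (hgd : ∀ᵐ ω ∂P, Good ω)
    (hθ : 1 ≤ 2 * Real.cos θ) {Zp : ℕ → Row → ℝ} (hZ : ZInvR θ Zp) (hH : HOSR θ P Zp) :
    HOSQ om (H825.Q.clR θ (Zrow θ Zp)) := by
  intro κ R B M hκ
  obtain ⟨C, hC, h1⟩ := hH κ R B M hκ
  refine ⟨C, hC, ?_⟩
  have hlim : Tendsto (fun n : ℕ => κ * (n : ℝ)) atTop atTop :=
    tendsto_natCast_atTop_atTop.const_mul_atTop hκ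
  filter_upwards [h1, hlim.eventually_gt_atTop 1] with n h2 hn
  intro ι _ W hc hM hW hIn
  have hκn : 0 ≤ κ * n := by linarith
  have h3 : ∀ i, ∃ r : Row, r.Ok θ κ n ∧ W.w i = r.wall θ (Zrow θ Zp n r) := fun i =>
    (clR_P_iff (zrow_inv hZ) hκn).1 (hIn i)
  choose r hr hw using h3
  have hL : ∀ i, 1 ≤ (r i).L := by
    intro i
    have h4 := (hr i).len
    have h5 : (1 : ℝ) < (r i).L := by linarith
    have h6 : 1 < (r i).L := by exact_mod_cast h5
    omega
  obtain ⟨σ, hσ⟩ := exists_state (r := r) fun i j hij => (adm_sepd hW hn hw hij).dis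
  have hS : ∀ i, (W.w i).S = ((rowC θ r W.c).w i).S := fun i => by rw [hw i]; rfl
  have hA : (rowC θ r W.c).Adm κ R B n :=
    { box := fun i e he => hW.box i e (by rw [hS i]; exact he)
      sep := fun i i' hi e he e' he' => hW.sep i i' hi e (by rw [hS i]; exact he) e'
        (by rw [hS i']; exact he')
      csup := fun e he => ⟨(hW.csup e he).1, fun i e' he' => (hW.csup e he).2 i e'
        (by rw [hS i]; exact he')⟩
      cle := hW.cle
      dle := hW.dle }
  have hph : W.ph = (rowC θ r W.c).ph := by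
    funext e b
    show ∑ i, (W.w i).a e b + W.c e / 2 = ∑ i, ((rowC θ r W.c).w i).a e b + W.c e / 2
    congr 1
    refine sum_congr rfl fun i _ => ?_
    rw [hw i]
    rfl
  have h5 := h2 ι r W.c hc hM hA hr σ hσ
  rw [red h hP hgd hθ hc hW hn hw hL σ, Complex.norm_real, Real.norm_eq_abs, abs_mul, hph]
  have hpos : 0 ≤ ∏ i, 2 * (2 * Real.cos (θ / 4)) ^ (2 * (r i).L) :=
    prod_nonneg fun i _ => by
      rw [pow_mul]
      positivity
  rw [abs_of_nonneg hpos]
  have h6 : W.Z (H825.Q.clR θ (Zrow θ Zp)) n =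
      (∏ i, 2 * (2 * Real.cos (θ / 4)) ^ (2 * (r i).L)) * ∏ i, Zp n (r i) := by
    unfold WCG.Z
    rw [← prod_mul_distrib]
    refine prod_congr rfl fun i _ => ?_
    show (W.w i).z = _
    rw [hw i]
    rfl
  rw [h6]
  calc (∏ i, 2 * (2 * Real.cos (θ / 4)) ^ (2 * (r i).L)) *
        |∫ ω, fz (uI r) σ ω * RT θ (uI r) (rowC θ r W.c).ph ω ∂P|
        ≤ (∏ i, 2 * (2 * Real.cos (θ / 4)) ^ (2 * (r i).L)) * (C * ∏ i, Zp n (r i)) := by
          gcongr
    _ = _ := by ring

end Vale.Agent.P167.H680.T
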