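import Vale.Agent.P167.H680.T.Mp
import Vale.Agent.P167.H945.Q.TDefs

/-!
# P167, general `q`, block 2A: outer strands under the symmetries which reverse the interfaces

`lrs_rev`: the number of the outer strands from `φ A` to `φ A'` is the number of the outer strands
from `A'` to `A`.
-/

namespace Vale.Agent.P167.H680.T

open Finset
open Vale.Agent.P167.FK (SyR)
open Vale.Agent.P167.XDL (bS mem_bS)
open Vale.Agent.P167.H199 (strand ret Returns ret_min ret_le mem_strand)
open Vale.Agent.P167.H945.Q (lrs)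

variable {φ : Ed ≃ Ed} {σ : (ℤ × ℤ) ≃ (ℤ × ℤ)} {ω ω' : Cfg} {I B : Finset (ℤ × ℤ)}
  {A A' : Finset Ed}

theorem mem_img {α : Type*} [DecidableEq α] (f : α ≃ α) (s : Finset α) (x : α) :
    f x ∈ s.image f ↔ x ∈ s := by
  rw [mem_image]
  constructor
  · rintro ⟨y, hy, h⟩
    rwa [← f.injective h]
  · intro h
    exact ⟨x, h, rfl⟩

theorem bS_rev (h : SyR φ σ ω ω') (e : Ed) : φ e ∈ bS (I.image σ) ↔ e ∈ bS I := by
  rw [mem_bS, mem_bS, h.h, h.t, mem_img, mem_img]
  tauto

theorem mem_lrs {e : Ed} : e ∈ lrs I A A' B ω ↔ e ∈ A ∧ e ∈ bS I ∧ hdv e ∉ I ∧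
    Returns (nx ω) (bS I) e ∧ (nx ω)^[ret (nx ω) (bS I) e] e ∈ A' ∧
      ∀ x ∈ strand (nx ω) (bS I) e, hdv x ∈ B := by
  classical
  unfold lrs
  rw [mem_filter]

/-- The outer strand stays outside. -/
theorem out_iter {e : Ed} (he : hdv e ∉ I) {k : ℕ}
    (hk : ∀ j, 1 ≤ j → j ≤ k → (nx ω)^[j] e ∉ bS I) : hdv ((nx ω)^[k] e) ∉ I := by
  induction k with
  | zero => exact he
  | succ k ih =>
    have h1 := ih fun j j1 j2 => hk j j1 (by omega)
    have h2 := hk (k + 1) (by omega) le_rfl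
    intro h3
    apply h2
    rw [mem_bS]
    left
    refine ⟨h3, ?_⟩
    rw [Function.iterate_succ_apply', tlv_nx]
    exact h1

/-- The reversed iterates. -/
theorem rev_iter (h : SyR φ σ ω ω') (e : Ed) {n j : ℕ} (hj : j ≤ n) :
    (nx ω')^[j] (φ ((nx ω)^[n] e)) = φ ((nx ω)^[n - j] e) := by
  induction j with
  | zero => rfl
  | succ j ih =>
    rw [Function.iterate_succ_apply', ih (by omega)]
    have h1 : n - j = (n - (j + 1)) + 1 := by omega
    rw [h1, Function.iterate_succ_apply', h.n]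

/-- The end of a strand determines its beginning. -/
theorem end_inj {e d : Ed} {n m : ℕ} (hn : 1 ≤ n) (he : e ∈ bS I)
    (hm : ∀ j, 1 ≤ j → j < m → (nx ω)^[j] d ∉ bS I) (hnm : n ≤ m)
    (h : (nx ω)^[n] e = (nx ω)^[m] d) : e = d ∧ n = m := by
  obtain ⟨k, rfl⟩ : ∃ k, m = n + k := ⟨m - n, by omega⟩
  rw [Function.iterate_add_apply] at h
  have h1 : e = (nx ω)^[k] d := (Function.Injective.iterate (s_nx ω).1 n) h
  rcases Nat.eq_zero_or_pos k with rfl | hk
  · exact ⟨h1, rfl⟩
  · exact absurd (h1 ▸ he) (hm k hk (by omega))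

theorem lrs_rev_le (h : SyR φ σ ω ω') : (lrs I A' A B ω).card ≤
    (lrs (I.image σ) (A.image φ) (A'.image φ) (B.image σ) ω').card := by
  refine card_le_card_of_injOn (fun e => φ ((nx ω)^[ret (nx ω) (bS I) e] e)) ?_ ?_
  · intro e he
    rw [mem_coe, mem_lrs] at he
    obtain ⟨h1, h2, h3, h4, h5, h6⟩ := he
    rw [mem_coe, mem_lrs]
    set n := ret (nx ω) (bS I) e with hn
    have hn1 := h4.spec
    rw [← hn] at hn1
    have hout : ∀ k, k < n → hdv ((nx ω)^[k] e) ∉ I := fun k hk =>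
      out_iter h3 fun j j1 j2 => ret_min j1 (by omega)
    have htl : tlv ((nx ω)^[n] e) ∉ I := by
      obtain ⟨m, hm⟩ : ∃ m, n = m + 1 := ⟨n - 1, by omega⟩
      rw [hm, Function.iterate_succ_apply', tlv_nx]
      exact hout m (by omega)
    have hit : ∀ j, j ≤ n → (nx ω')^[j] (φ ((nx ω)^[n] e)) = φ ((nx ω)^[n - j] e) := fun j hj =>
      rev_iter h e hj
    have hend : (nx ω')^[n] (φ ((nx ω)^[n] e)) = φ e := by
      rw [hit n le_rfl, Nat.sub_self]
      rfl
    have hmin : ∀ j, 1 ≤ j → j < n → (nx ω')^[j] (φ ((nx ω)^[n] e)) ∉ bS (I.image σ) := by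
      intro j j1 j2
      rw [hit j j2.le, bS_rev h]
      exact ret_min (by omega) (by omega)
    have hR : Returns (nx ω') (bS (I.image σ)) (φ ((nx ω)^[n] e)) :=
      ⟨n, hn1.1, by rw [hend, bS_rev h]; exact h2⟩
    have hret : ret (nx ω') (bS (I.image σ)) (φ ((nx ω)^[n] e)) = n := by
      refine le_antisymm (ret_le hn1.1 (by rw [hend, bS_rev h]; exact h2)) ?_
      by_contra hlt
      push Not at hlt
      exact hmin _ hR.spec.1 hlt hR.spec.2
    refine ⟨mem_image_of_mem _ h5, (bS_rev h _).2 hn1.2, ?_, hR, ?_, ?_⟩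
    · rw [h.h, mem_img]
      exact htl
    · rw [hret, hend]
      exact mem_image_of_mem _ h1
    · intro x hx
      obtain ⟨j, hj, rfl⟩ := mem_strand.1 hx
      rw [hret] at hj
      rw [hit j hj.le, h.h, mem_img]
      have e1 : n - j = (n - j - 1) + 1 := by omega
      rw [e1, Function.iterate_succ_apply', tlv_nx]
      exact h6 _ (mem_strand.2 ⟨n - j - 1, by omega, rfl⟩)
  · intro e he d hd hh
    rw [mem_coe, mem_lrs] at he hd
    have h1 := φ.injective hh
    rcases le_total (ret (nx ω) (bS I) e) (ret (nx ω) (bS I) d) with hle | hle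
    · exact (end_inj he.2.2.2.1.spec.1 he.2.1 (fun j j1 j2 => ret_min j1 j2) hle h1).1
    · exact (end_inj hd.2.2.2.1.spec.1 hd.2.1 (fun j j1 j2 => ret_min j1 j2) hle h1.symm).1.symm

theorem img_symm {α : Type*} [DecidableEq α] (f : α ≃ α) (s : Finset α) :
    (s.image f).image f.symm = s := by
  rw [image_image, Equiv.symm_comp_self, image_id]

/-- **Strands are reversed.** -/
theorem lrs_rev (h : SyR φ σ ω ω') :
    (lrs (I.image σ) (A.image φ) (A'.image φ) (B.image σ) ω').card = (lrs I A' A B ω).card := by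
  refine le_antisymm ?_ (lrs_rev_le h)
  have h1 := lrs_rev_le (I := I.image σ) (A := A'.image φ) (A' := A.image φ) (B := B.image σ)
    h.symm
  rwa [img_symm, img_symm, img_symm, img_symm] at h1

end Vale.Agent.P167.H680.T
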