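import Vale.Agent.P167.H680.T.FrP
import Vale.Agent.P167.H135.Tra
import Vale.Agent.P167.FK.Sym

/-!
# P167, general `q`, block 2A: symmetries of the infinite-volume measure which exchange the colours

`PI P σ b`: the probabilities of the states of finitely many squares are invariant under the map `σ`
of the squares (colours exchanged if `b`). `PI.mp`: the measure is invariant. `Flp P φ σ`: the map
`σ` with exchange of the colours preserves `P` and reverses the direction of the interfaces, which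
are mapped by `φ`: odd translations, rotations by 90 and 180 degrees around suitable points.
-/

namespace Vale.Agent.P167.H680.T

open Finset Filter Topology MeasureTheory
open Vale.Agent.P167.FK (Ex eta0 Good du syms Bq f_sym f_good SyP SyR shV shE trV trE syP_tr syR_du
  rxV rxE syR_rx ryV ryE syR_ry swV swE syR_sw)

open Vale.Agent.P167.FKA (Loc)
open Vale.Agent.P167.H519 (IsLim)
open Vale.Agent.P167.H506.Q (fz fz_loc fz_one fz_zero)
open Vale.Agent.P167.H135 (fx rl meas_rl)
open Vale.Agent.P167.H825.Q (Row)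

/-! ### invariance -/

/-- Invariance of the probabilities of cylinders under the map `σ`, colours exchanged if `b`. -/
def PI (P : Measure Cfg) (σ : (ℤ × ℤ) ≃ (ℤ × ℤ)) (b : Bool) : Prop :=
  ∀ (I : Finset (ℤ × ℤ)) (f : Cfg), pF P (I.image σ) (fun u => fx b (f (σ.symm u))) = pF P I f

variable {P : Measure Cfg} {σ τ : (ℤ × ℤ) ≃ (ℤ × ℤ)} {b c : Bool}

theorem fx_fx (b x : Bool) : fx b (fx b x) = x := by cases b <;> cases x <;> rfl

theorem fx_xor (b c x : Bool) : fx (xor b c) x = fx c (fx b x) := by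
  cases b <;> cases c <;> cases x <;> rfl

theorem PI.comp (h : PI P σ b) (h' : PI P τ c) : PI P (σ.trans τ) (xor b c) := by
  intro I f
  have h1 := h' (I.image σ) (fun u => fx b (f (σ.symm u)))
  rw [h I f, image_image] at h1
  rw [← h1]
  refine pF_congr fun u _ => ?_
  show fx (xor b c) (f (σ.symm (τ.symm u))) = fx c (fx b (f (σ.symm (τ.symm u))))
  exact fx_xor _ _ _

/-- Cylinders. -/
def cyl (I : Finset (ℤ × ℤ)) (f : Cfg) : Set Cfg := {ω | ∀ v ∈ I, ω v = f v}

theorem meas_cyl (I : Finset (ℤ × ℤ)) (f : Cfg) : MeasurableSet (cyl I f) := by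
  have : cyl I f = ⋂ v ∈ I, {ω : Cfg | ω v = f v} := by
    ext ω
    simp [cyl]
  rw [this]
  exact Finset.measurableSet_biInter _ fun v _ =>
    measurableSet_eq_fun (measurable_pi_apply v) measurable_const

theorem pF_real (P : Measure Cfg) (I : Finset (ℤ × ℤ)) (f : Cfg) : pF P I f = P.real (cyl I f) := by
  unfold pF
  have h : (fun ω => fz I f ω) = (cyl I f).indicator 1 := by
    funext ω
    rfl
  rw [h, integral_indicator_one (meas_cyl I f)]

theorem pi_cyl : IsPiSystem {s | ∃ I f, s = cyl I f} := by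
  classical
  rintro _ ⟨I, f, rfl⟩ _ ⟨J, g, rfl⟩ ⟨ω₀, h1, h2⟩
  refine ⟨I ∪ J, ω₀, ?_⟩
  ext ω
  simp only [cyl, Set.mem_inter_iff, Set.mem_ofPred_eq, mem_union] at h1 h2 ⊢
  constructor
  · rintro ⟨a, b⟩ v (hv | hv)
    · rw [a v hv, h1 v hv]
    · rw [b v hv, h2 v hv]
  · intro a
    exact ⟨fun v hv => by rw [a v (Or.inl hv), h1 v hv], fun v hv => by rw [a v (Or.inr hv), h2 v hv]⟩

theorem gen_cyl : (inferInstance : MeasurableSpace Cfg) =
    MeasurableSpace.generateFrom {s | ∃ I f, s = cyl I f} := by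
  refine le_antisymm ?_ ?_
  · refine iSup_le fun v => ?_
    rintro _ ⟨S, -, rfl⟩
    have hS : (fun ω : Cfg => ω v) ⁻¹' S = ⋃ b : Bool, ⋃ _ : b ∈ S, cyl {v} (fun _ => b) := by
      ext ω
      simp [cyl]
    have : (fun b : ℤ × ℤ → Bool => b v) ⁻¹' S = (fun ω : Cfg => ω v) ⁻¹' S := rfl
    rw [this, hS]
    refine @MeasurableSet.iUnion _ _ (MeasurableSpace.generateFrom _) _ _ fun b =>
      @MeasurableSet.iUnion _ _ (MeasurableSpace.generateFrom _) _ _ fun _ =>
        MeasurableSpace.measurableSet_generateFrom ⟨_, _, rfl⟩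
  · refine MeasurableSpace.generateFrom_le ?_
    rintro _ ⟨I, f, rfl⟩
    exact meas_cyl I f

/-- **The measure is invariant.** -/
theorem PI.mp [IsProbabilityMeasure P] (h : PI P σ b) : MeasurePreserving (rl σ.symm b) P P := by
  refine ⟨meas_rl _ _, ?_⟩
  have hm := meas_rl σ.symm b
  have : IsProbabilityMeasure (P.map (rl σ.symm b)) := Measure.isProbabilityMeasure_map hm.aemeasurable
  refine MeasureTheory.ext_of_generate_finite _ gen_cyl pi_cyl ?_ (by simp)
  rintro _ ⟨I, f, rfl⟩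
  rw [Measure.map_apply hm (meas_cyl I f)]
  have e1 : (rl σ.symm b) ⁻¹' (cyl I f) = cyl (I.image σ.symm) (fun u => fx b (f (σ u))) := by
    ext ω
    simp only [cyl, Set.mem_preimage, Set.mem_ofPred_eq, mem_image, forall_exists_index, and_imp,
      forall_apply_eq_imp_iff₂, Equiv.apply_symm_apply, rl]
    refine forall₂_congr fun v _ => ?_
    constructor
    · intro hh
      rw [← hh, fx_fx]
    · intro hh
      rw [hh, fx_fx]
  rw [e1]
  have h1 := h (I.image σ.symm) (fun u => fx b (f (σ u)))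
  rw [image_image, pF_real, pF_real] at h1
  have e2 : cyl (I.image (σ ∘ σ.symm)) (fun u => fx b (fx b (f (σ (σ.symm u))))) = cyl I f := by
    rw [Equiv.self_comp_symm, image_id]
    ext ω
    simp only [cyl, Set.mem_ofPred_eq, Equiv.apply_symm_apply, fx_fx]
  rw [e2] at h1
  have h2 := (measureReal_eq_measureReal_iff (μ := P) (ν := P)
    (h₁ := measure_ne_top _ _) (h₂ := measure_ne_top _ _)).1 h1
  exact h2.symm

/-! ### symmetries of the interfaces -/

variable {φ ψ : Ed ≃ Ed} {ω ω' ω'' : Cfg}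

theorem SyP.t (h : SyP φ σ ω ω') (e : Ed) : tlv (φ e) = σ (tlv e) := by
  have h1 := h.n (pv ω e)
  rw [nx_pv] at h1
  rw [← h1, tlv_nx, h.h]
  conv_rhs => rw [← nx_pv ω e, tlv_nx]

theorem SyR.comp_R (h : SyR φ σ ω ω') (h' : SyR ψ τ ω' ω'') :
    SyP (φ.trans ψ) (σ.trans τ) ω ω'' where
  n e := by
    show nx ω'' (ψ (φ e)) = ψ (φ (nx ω e))
    rw [← h.n e, h'.n]
  h e := by
    show hdv (ψ (φ e)) = τ (σ (hdv e))
    rw [h'.h, h.t]

theorem SyP.comp_R (h : SyP φ σ ω ω') (h' : SyR ψ τ ω' ω'') :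
    SyR (φ.trans ψ) (σ.trans τ) ω ω'' where
  n e := by
    show nx ω'' (ψ (φ (nx ω e))) = ψ (φ e)
    rw [← h.n e, h'.n]
  h e := by
    show hdv (ψ (φ e)) = τ (σ (tlv e))
    rw [h'.h, SyP.t h]
  t e := by
    show tlv (ψ (φ e)) = τ (σ (hdv e))
    rw [h'.t, h.h]

theorem SyP.comp_P (h : SyP φ σ ω ω') (h' : SyP ψ τ ω' ω'') :
    SyP (φ.trans ψ) (σ.trans τ) ω ω'' where
  n e := by
    show nx ω'' (ψ (φ e)) = ψ (φ (nx ω e))
    rw [h'.n, h.n]
  h e := by
    show hdv (ψ (φ e)) = τ (σ (hdv e))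
    rw [h'.h, h.h]

/-- A symmetry of `P`; `b`: the colours are exchanged, `r`: the interfaces are reversed. -/
structure Sym (P : Measure Cfg) (φ : Ed ≃ Ed) (σ : (ℤ × ℤ) ≃ (ℤ × ℤ)) (b r : Bool) : Prop where
  inv : PI P σ b
  sy : ∀ ω, if r then SyR φ σ ω (rl σ.symm b ω) else SyP φ σ ω (rl σ.symm b ω)

theorem rl_comp (σ τ : (ℤ × ℤ) ≃ (ℤ × ℤ)) (b c : Bool) (ω : Cfg) :
    rl (σ.trans τ).symm (xor b c) ω = rl τ.symm c (rl σ.symm b ω) := by
  funext v
  exact fx_xor _ _ _

theorem Sym.comp {r s : Bool} (h : Sym P φ σ b r) (h' : Sym P ψ τ c s) :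
    Sym P (φ.trans ψ) (σ.trans τ) (xor b c) (xor r s) := by
  refine ⟨h.inv.comp h'.inv, fun ω => ?_⟩
  rw [rl_comp]
  have h1 := h.sy ω
  have h2 := h'.sy (rl σ.symm b ω)
  cases r <;> cases s
  · simp only [Bool.false_eq_true, if_false] at h1 h2
    simp only [Bool.bne_false, Bool.false_eq_true, if_false]
    exact SyP.comp_P h1 h2
  · simp only [Bool.false_eq_true, if_false, if_true] at h1 h2
    simp only [Bool.false_bne, if_true]
    exact SyP.comp_R h1 h2
  · simp only [Bool.false_eq_true, if_false, if_true] at h1 h2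
    simp only [Bool.bne_false, if_true]
    refine ⟨fun e => ?_, fun e => ?_, fun e => ?_⟩
    · show nx _ (ψ (φ (nx ω e))) = ψ (φ e)
      rw [h2.n, h1.n]
    · show hdv (ψ (φ e)) = τ (σ (tlv e))
      rw [h2.h, h1.h]
    · show tlv (ψ (φ e)) = τ (σ (hdv e))
      rw [SyP.t h2, h1.t]
  · simp only [if_true] at h1 h2
    simp only [bne_self_eq_false, Bool.false_eq_true, if_false]
    exact SyR.comp_R h1 h2

theorem Sym.inverse {r : Bool} (h : Sym P φ σ b r) : Sym P φ.symm σ.symm b r := by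
  have hrl : ∀ ω, rl σ.symm b (rl σ b ω) = ω := by
    intro ω
    funext v
    show fx b (fx b (ω (σ (σ.symm v)))) = ω v
    rw [fx_fx, Equiv.apply_symm_apply]
  refine ⟨fun I f => ?_, fun ω => ?_⟩
  · have h1 := h.inv (I.image σ.symm) (fun u => fx b (f (σ u)))
    rw [image_image, Equiv.self_comp_symm, image_id] at h1
    show pF P (I.image σ.symm) (fun u => fx b (f (σ u))) = pF P I f
    rw [← h1]
    refine pF_congr fun u _ => ?_
    show fx b (fx b (f (σ (σ.symm u)))) = f u
    rw [fx_fx, Equiv.apply_symm_apply]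
  · have h1 := h.sy (rl σ b ω)
    rw [hrl] at h1
    show if r then SyR φ.symm σ.symm ω (rl σ b ω) else SyP φ.symm σ.symm ω (rl σ b ω)
    cases r
    · exact h1.symm
    · exact h1.symm

/-! ### generators -/

variable {Q : ℝ}

/-- Reflections without exchange of the colours. -/
theorem sym_rx (hQ : 0 < Q) (hP : IsLim Q P) : Sym P rxE rxV false true :=
  ⟨fun I f => pF_r1 hQ hP I f, fun ω => syR_rx ω⟩

theorem sym_ry (hQ : 0 < Q) (hP : IsLim Q P) : Sym P ryE ryV false true :=
  ⟨fun I f => pF_r2 hQ hP I f, fun ω => syR_ry ω⟩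

theorem sym_sw (hQ : 0 < Q) (hP : IsLim Q P) : Sym P swE swV false true :=
  ⟨fun I f => pF_rd hQ hP I f, fun ω => syR_sw ω⟩

/-- Translations by even vectors. -/
theorem sym_ev (hQ : 0 < Q) (hP : IsLim Q P) (p : ℤ × ℤ) (hp : Even (p.1 + p.2)) :
    Sym P (trE p) (trV p) false false := by
  refine ⟨fun I f => ?_, fun ω => syP_tr p hp ω⟩
  have h1 := TI_all hQ hP (-p) I f
  have h2 : (fun w : ℤ × ℤ => w + -p) = trV p := by
    funext w
    apply Prod.ext
    · show w.1 + -p.1 = w.1 - p.1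
      ring
    · show w.2 + -p.2 = w.2 - p.2
      ring
  rw [h2] at h1
  rw [← h1]
  refine pF_congr fun u _ => ?_
  have hx : ∀ x, xp (-p) x = x := fun x => by
    rw [xp_neg]
    exact if_pos hp
  rw [hx]
  show fx false (f (u.1 + p.1, u.2 + p.2)) = f (u - -p)
  show f (u.1 + p.1, u.2 + p.2) = f (u - -p)
  congr 1
  rw [sub_neg_eq_add]
  rfl

/-- The translation by `(1, 0)`. -/
theorem sym_du (hQ : 0 < Q) (hP : IsLim Q P) : Sym P shE shV true true := by
  refine ⟨fun I f => ?_, fun ω => ?_⟩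
  · have h1 := TI_all hQ hP (1, 0) I f
    have h2 : (fun w : ℤ × ℤ => w + ((1, 0) : ℤ × ℤ)) = shV := by
      funext w
      apply Prod.ext
      · rfl
      · show w.2 + 0 = w.2
        ring
    rw [h2] at h1
    rw [← h1]
    refine pF_congr fun u _ => ?_
    have hx : ∀ x, xp (1, 0) x = !x := fun x => if_neg (by decide)
    rw [hx]
    show fx true (f (u.1 - 1, u.2)) = !(f (u - (1, 0)))
    show (!(f (u.1 - 1, u.2))) = !(f (u - (1, 0)))
    congr 2
    apply Prod.ext
    · rfl
    · show u.2 = u.2 - 0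
      ring
  · have h1 := syR_du ω
    have h2 : rl shV.symm true ω = du ω := by
      funext v
      rfl
    rw [h2]
    exact h1

end Vale.Agent.P167.H680.T
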