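import Vale.Agent.P167.H680.T.Rho

/-!
# P167, general `q`, block 2A: the inner sum of a union of separate sets of squares

If `D` and `D'` have no common square and no common side, then
`rhoT (D ∪ D') = rhoT D * rhoT D'`, for all phases.
-/

namespace Vale.Agent.P167.H680.T

open Finset
open Vale.Agent.P167.A (plane plane_nx)
open Vale.Agent.P167.BR (eds mem_eds pcs IsLp pcs_nonempty)
open Vale.Agent.P167.FK (cf eta0)
open Vale.Agent.P167.H199 (cang strand ret ret_min ret_le Returns loop_nx loop_iter)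
open Vale.Agent.P167.XDL (bS mem_bS loop_cases lp_disj)
open Vale.Agent.P167.QX (XinT XinT_loc in_iter rhoT)

/-- No common square, no common side. -/
structure Sepd (D D' : Finset (ℤ × ℤ)) : Prop where
  dis : Disjoint D D'
  ht : ∀ e, hdv e ∈ D → tlv e ∉ D'
  th : ∀ e, tlv e ∈ D → hdv e ∉ D'

variable {D D' : Finset (ℤ × ℤ)} {ω : Cfg} {θ : ℝ} {a : Ed → Bool → ℝ}

theorem Sepd.symm (h : Sepd D D') : Sepd D' D :=
  ⟨h.dis.symm, fun e h1 h2 => h.th e h2 h1, fun e h1 h2 => h.ht e h2 h1⟩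

theorem Sepd.empty : Sepd D ∅ :=
  ⟨Finset.disjoint_empty_right _, fun _ _ h => absurd h (notMem_empty _),
    fun _ _ h => absurd h (notMem_empty _)⟩

theorem Sepd.union {D'' : Finset (ℤ × ℤ)} (h : Sepd D D') (h' : Sepd D D'') :
    Sepd D (D' ∪ D'') := by
  refine ⟨Finset.disjoint_union_right.2 ⟨h.dis, h'.dis⟩, fun e h1 h2 => ?_, fun e h1 h2 => ?_⟩
  · rcases mem_union.1 h2 with h2 | h2
    · exact h.ht e h1 h2
    · exact h'.ht e h1 h2
  · rcases mem_union.1 h2 with h2 | h2
    · exact h.th e h1 h2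
    · exact h'.th e h1 h2

theorem Sepd.biUnion {ι : Type*} [DecidableEq ι] {J : Finset ι} {I : ι → Finset (ℤ × ℤ)}
    (h : ∀ i ∈ J, Sepd D (I i)) : Sepd D (J.biUnion I) := by
  refine ⟨Finset.disjoint_biUnion_right _ _ _ |>.2 fun i hi => (h i hi).dis,
    fun e h1 h2 => ?_, fun e h1 h2 => ?_⟩
  · obtain ⟨i, hi, h2⟩ := mem_biUnion.1 h2
    exact (h i hi).ht e h1 h2
  · obtain ⟨i, hi, h2⟩ := mem_biUnion.1 h2
    exact (h i hi).th e h1 h2

/-- Boundary of the union. -/
theorem Sepd.bS_union (h : Sepd D D') : bS (D ∪ D') = bS D ∪ bS D' := by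
  ext e
  simp only [mem_union, mem_bS]
  have h1 := h.ht e
  have h2 := h.th e
  tauto

/-- Edges with the head in `D`. -/
theorem Sepd.in_left (h : Sepd D D') {e : Ed} (he : hdv e ∈ D ∨ tlv e ∈ D) :
    e ∈ bS (D ∪ D') ↔ e ∈ bS D := by
  simp only [mem_union, mem_bS]
  have h1 := h.ht e
  have h2 := h.th e
  tauto

theorem Sepd.strand (h : Sepd D D') {e : Ed} (he : hdv e ∈ D) :
    H199.strand (nx ω) (bS (D ∪ D')) e = H199.strand (nx ω) (bS D) e := by
  have key : ∀ k, 1 ≤ k → (∀ j, 1 ≤ j → j < k → (nx ω)^[j] e ∉ bS D) →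
      ((nx ω)^[k] e ∈ bS (D ∪ D') ↔ (nx ω)^[k] e ∈ bS D) := by
    intro k hk hj
    obtain ⟨m, rfl⟩ : ∃ m, k = m + 1 := ⟨k - 1, by omega⟩
    apply h.in_left
    right
    rw [Function.iterate_succ_apply', tlv_nx]
    exact (in_iter (ω := ω) (ω' := ω) (fun _ _ => rfl) he m fun j h1 h2 => hj j h1 (by omega)).2
  have hret : ret (nx ω) (bS (D ∪ D')) e = ret (nx ω) (bS D) e := by
    by_cases hR : Returns (nx ω) (bS D) e
    · have h1 := hR.spec
      have h2 : (nx ω)^[ret (nx ω) (bS D) e] e ∈ bS (D ∪ D') :=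
        (key _ h1.1 fun j j1 j2 => ret_min j1 j2).2 h1.2
      have hR' : Returns (nx ω) (bS (D ∪ D')) e := ⟨_, h1.1, h2⟩
      refine le_antisymm (ret_le h1.1 h2) ?_
      by_contra hlt
      push Not at hlt
      have h3 := hR'.spec
      exact ret_min h3.1 hlt ((key _ h3.1 fun j j1 j2 => ret_min j1 (by omega)).1 h3.2)
    · have h1 : ∀ k, 1 ≤ k → (nx ω)^[k] e ∉ bS D := fun k hk hh => hR ⟨k, hk, hh⟩
      have h2 : ∀ k, 1 ≤ k → (nx ω)^[k] e ∉ bS (D ∪ D') := fun k hk hh =>
        h1 k hk ((key k hk fun j j1 _ => h1 j j1).1 hh)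
      unfold ret
      congr 1
      ext k
      exact ⟨fun hh => absurd hh.2 (h2 k hh.1), fun hh => absurd hh.2 (h1 k hh.1)⟩
  unfold H199.strand
  rw [hret]

open Classical in
/-- The pieces which are loops inside `D`. -/
theorem mem_lp {A : Finset Ed} : A ∈ (pcs ω D).filter (IsLp D) ↔
    IsLoop ω A ∧ (∀ e ∈ A, hdv e ∈ D) ∧ A.Nonempty := by
  rw [mem_filter]
  constructor
  · rintro ⟨h1, h2⟩
    exact ⟨BR.IsLp.isLoop h1 h2, h2, pcs_nonempty h1⟩
  · rintro ⟨h1, h2, h3⟩
    have hd : Disjoint A (bS D) := by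
      rw [Finset.disjoint_left]
      intro x hx hx'
      rw [mem_bS] at hx'
      have hb : A.image (nx ω) = A := by
        apply eq_of_subset_of_card_le
        · intro y hy
          obtain ⟨x, hx, rfl⟩ := mem_image.1 hy
          exact loop_nx h1 hx
        · rw [card_image_of_injective _ (s_nx ω).1]
      rw [← hb] at hx
      obtain ⟨w, hw, rfl⟩ := mem_image.1 hx
      rw [tlv_nx] at hx'
      have h4 := h2 w hw
      have h5 := h2 _ (loop_nx h1 hw)
      tauto
    rcases loop_cases h1 hd with h | h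
    · exact h
    · obtain ⟨x, hx⟩ := h3
      exact absurd (mem_eds.2 (Or.inl (h2 x hx))) (h x hx)

theorem loop_side (h : Sepd D D') {A : Finset Ed} (hl : IsLoop ω A)
    (hA : ∀ e ∈ A, hdv e ∈ D ∪ D') {e : Ed} (he : e ∈ A) (hD : hdv e ∈ D) :
    ∀ x ∈ A, hdv x ∈ D := by
  intro x hx
  obtain ⟨n, rfl⟩ := (H685.loop_gen hl he x).1 hx
  clear hx
  induction n with
  | zero => exact hD
  | succ n ih =>
    rw [Function.iterate_succ_apply']
    have h1 := hA _ (loop_nx hl (loop_iter hl he n))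
    rcases mem_union.1 h1 with h1 | h1
    · exact h1
    · exact absurd h1 (h.th _ (by rw [tlv_nx]; exact ih))

open Classical in
theorem lp_union (h : Sepd D D') : (pcs ω (D ∪ D')).filter (IsLp (D ∪ D')) =
    (pcs ω D).filter (IsLp D) ∪ (pcs ω D').filter (IsLp D') := by
  ext A
  rw [mem_union, mem_lp, mem_lp, mem_lp]
  constructor
  · rintro ⟨h1, h2, x, hx⟩
    rcases mem_union.1 (h2 x hx) with h3 | h3
    · exact Or.inl ⟨h1, loop_side h h1 h2 hx h3, x, hx⟩
    · refine Or.inr ⟨h1, loop_side h.symm h1 (fun e he => ?_) hx h3, x, hx⟩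
      rw [union_comm]
      exact h2 e he
  · rintro (⟨h1, h2, h3⟩ | ⟨h1, h2, h3⟩)
    · exact ⟨h1, fun e he => mem_union_left _ (h2 e he), h3⟩
    · exact ⟨h1, fun e he => mem_union_right _ (h2 e he), h3⟩

/-- **The inner products multiply.** -/
theorem XinT_union (h : Sepd D D') :
    XinT θ (D ∪ D') a ω = XinT θ D a ω * XinT θ D' a ω := by
  classical
  unfold XinT
  have h1 : Disjoint ((pcs ω D).filter (IsLp D)) ((pcs ω D').filter (IsLp D')) := by
    rw [Finset.disjoint_left]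
    intro A hA hA'
    obtain ⟨-, h2, x, hx⟩ := mem_lp.1 hA
    exact Finset.disjoint_left.1 h.dis (h2 x hx) ((mem_lp.1 hA').2.1 x hx)
  have h2 : (bS (D ∪ D')).filter (fun e => hdv e ∈ D ∪ D') =
      (bS D).filter (fun e => hdv e ∈ D) ∪ (bS D').filter (fun e => hdv e ∈ D') := by
    ext e
    simp only [mem_filter, mem_union, mem_bS]
    have h1 := h.ht e
    have h2 := h.th e
    tauto
  have h3 : Disjoint ((bS D).filter (fun e => hdv e ∈ D))
      ((bS D').filter (fun e => hdv e ∈ D')) := by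
    rw [Finset.disjoint_left]
    intro e he he'
    exact Finset.disjoint_left.1 h.dis (mem_filter.1 he).2 (mem_filter.1 he').2
  rw [lp_union h, prod_union h1, h2, prod_union h3]
  have h4 : ∏ e ∈ (bS D).filter (fun e => hdv e ∈ D),
      2 * Real.cos (cang plane θ a ω (H199.strand (nx ω) (bS (D ∪ D')) e)) =
      ∏ e ∈ (bS D).filter (fun e => hdv e ∈ D),
      2 * Real.cos (cang plane θ a ω (H199.strand (nx ω) (bS D) e)) :=
    prod_congr rfl fun e he => by rw [h.strand (mem_filter.1 he).2]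
  have h5 : ∏ e ∈ (bS D').filter (fun e => hdv e ∈ D'),
      2 * Real.cos (cang plane θ a ω (H199.strand (nx ω) (bS (D ∪ D')) e)) =
      ∏ e ∈ (bS D').filter (fun e => hdv e ∈ D'),
      2 * Real.cos (cang plane θ a ω (H199.strand (nx ω) (bS D') e)) :=
    prod_congr rfl fun e he => by rw [union_comm D D', h.symm.strand (mem_filter.1 he).2]
  rw [h4, h5]
  ring

/-- **The inner sums multiply.** -/
theorem rhoT_union (h : Sepd D D') : rhoT θ (D ∪ D') a = rhoT θ D a * rhoT θ D' a := by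
  classical
  unfold rhoT
  rw [sum_mul_sum, ← sum_product']
  symm
  refine sum_bij (fun (x : Finset (ℤ × ℤ) × Finset (ℤ × ℤ)) _ => x.1 ∪ x.2) ?_ ?_ ?_ ?_
  · rintro ⟨S, S'⟩ hx
    rw [mem_product, mem_powerset, mem_powerset] at hx
    exact mem_powerset.2 (union_subset_union hx.1 hx.2)
  · rintro ⟨S, S'⟩ hx ⟨T, T'⟩ hy hh
    rw [mem_product, mem_powerset, mem_powerset] at hx hy
    simp only at hx hy hh
    have key : ∀ v, v ∈ D → (v ∈ S ↔ v ∈ S ∪ S') := fun v hv => by
      rw [mem_union]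
      exact ⟨Or.inl, fun h1 => h1.resolve_right fun h2 =>
        Finset.disjoint_left.1 h.dis hv (hx.2 h2)⟩
    have key' : ∀ v, v ∈ D → (v ∈ T ↔ v ∈ T ∪ T') := fun v hv => by
      rw [mem_union]
      exact ⟨Or.inl, fun h1 => h1.resolve_right fun h2 =>
        Finset.disjoint_left.1 h.dis hv (hy.2 h2)⟩
    have key2 : ∀ v, v ∈ D' → (v ∈ S' ↔ v ∈ S ∪ S') := fun v hv => by
      rw [mem_union]
      exact ⟨Or.inr, fun h1 => h1.resolve_left fun h2 =>
        Finset.disjoint_left.1 h.dis (hx.1 h2) hv⟩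
    have key2' : ∀ v, v ∈ D' → (v ∈ T' ↔ v ∈ T ∪ T') := fun v hv => by
      rw [mem_union]
      exact ⟨Or.inr, fun h1 => h1.resolve_left fun h2 =>
        Finset.disjoint_left.1 h.dis (hy.1 h2) hv⟩
    apply Prod.ext
    · ext v
      constructor
      · intro hv
        exact (key' v (hx.1 hv)).2 (hh ▸ (key v (hx.1 hv)).1 hv)
      · intro hv
        exact (key v (hy.1 hv)).2 (hh ▸ (key' v (hy.1 hv)).1 hv)
    · ext v
      constructor
      · intro hv
        exact (key2' v (hx.2 hv)).2 (hh ▸ (key2 v (hx.2 hv)).1 hv)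
      · intro hv
        exact (key2 v (hy.2 hv)).2 (hh ▸ (key2' v (hy.2 hv)).1 hv)
  · intro S hS
    rw [mem_powerset] at hS
    refine ⟨(S ∩ D, S ∩ D'), ?_, ?_⟩
    · rw [mem_product, mem_powerset, mem_powerset]
      exact ⟨inter_subset_right, inter_subset_right⟩
    · show (S ∩ D) ∪ (S ∩ D') = S
      rw [← inter_union_distrib_left]
      exact inter_eq_left.2 hS
  · rintro ⟨S, S'⟩ hx
    rw [mem_product, mem_powerset, mem_powerset] at hx
    simp only at hx ⊢
    rw [XinT_union h]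
    congr 1
    · refine XinT_loc θ a _ _ fun v hv => ?_
      have h1 : v ∈ D ∪ D' := mem_union_left _ hv
      have h2 : v ∉ S' := fun hh => Finset.disjoint_left.1 h.dis hv (hx.2 hh)
      simp [cf, hv, h2]
    · refine XinT_loc θ a _ _ fun v hv => ?_
      have h1 : v ∈ D ∪ D' := mem_union_right _ hv
      have h2 : v ∉ S := fun hh => Finset.disjoint_left.1 h.dis (hx.1 hh) hv
      simp [cf, hv, h2]

theorem rhoT_empty : rhoT θ ∅ a = 1 := by
  classical
  unfold rhoT XinT
  rw [powerset_empty, sum_singleton]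
  have h1 : (pcs (cf ∅ eta0 ∅) (∅ : Finset (ℤ × ℤ))).filter (IsLp ∅) = ∅ := by
    ext A
    rw [mem_lp]
    constructor
    · rintro ⟨-, h2, x, hx⟩
      exact absurd (h2 x hx) (notMem_empty _)
    · intro h
      exact absurd h (notMem_empty _)
  have h2 : (bS (∅ : Finset (ℤ × ℤ))).filter (fun e => hdv e ∈ (∅ : Finset (ℤ × ℤ))) = ∅ :=
    filter_eq_empty_iff.2 fun e _ h => absurd h (notMem_empty _)
  rw [h1, h2, prod_empty, prod_empty, one_mul]

/-- **Finite unions.** -/
theorem rhoT_biUnion {ι : Type*} [DecidableEq ι] (J : Finset ι) {I : ι → Finset (ℤ × ℤ)}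
    (h : ∀ i ∈ J, ∀ j ∈ J, i ≠ j → Sepd (I i) (I j)) :
    rhoT θ (J.biUnion I) a = ∏ i ∈ J, rhoT θ (I i) a := by
  induction J using Finset.induction_on with
  | empty => rw [biUnion_empty, prod_empty, rhoT_empty]
  | insert i J hi ih =>
    rw [biUnion_insert, prod_insert hi, rhoT_union, ih]
    · exact fun j hj k hk => h j (mem_insert_of_mem hj) k (mem_insert_of_mem hk)
    · refine Sepd.biUnion fun j hj => h i (mem_insert_self _ _) j (mem_insert_of_mem hj) ?_
      rintro rfl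
      exact hi hj

theorem bS_biUnion {ι : Type*} [DecidableEq ι] (J : Finset ι) {I : ι → Finset (ℤ × ℤ)}
    (h : ∀ i ∈ J, ∀ j ∈ J, i ≠ j → Sepd (I i) (I j)) :
    bS (J.biUnion I) = J.biUnion fun i => bS (I i) := by
  induction J using Finset.induction_on with
  | empty =>
    rw [biUnion_empty, biUnion_empty]
    ext e
    rw [mem_bS]
    simp
  | insert i J hi ih =>
    rw [biUnion_insert, biUnion_insert, Sepd.bS_union, ih]
    · exact fun j hj k hk => h j (mem_insert_of_mem hj) k (mem_insert_of_mem hk)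
    · refine Sepd.biUnion fun j hj => h i (mem_insert_self _ _) j (mem_insert_of_mem hj) ?_
      rintro rfl
      exact hi hj

end Vale.Agent.P167.H680.T
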