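import Vale.Agent.P167.H680.T.Os

/-!
# P167, general `q`, block 2A: classes of walls given by orbits

`clO om P₀`: all images of the walls of `P₀` under translations and reflections; the normalisation
is the value of the single wall, which is invariant. Positivity of the normalisations of the walls
of `P₀` is the only hypothesis of `Cls.Ok`.
-/

namespace Vale.Agent.P167.H680.T

open Finset Filter Topology MeasureTheory
open Vale.Agent.P167.H592

/-- The images of a wall under translations and reflections. -/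
inductive Orb (w : WallG) : WallG → Prop
  | refl : Orb w w
  | tr {w' : WallG} (v : ℤ × ℤ) : Orb w w' → Orb w (wtr w' v)
  | rD {w' : WallG} : Orb w w' → Orb w (wrD w')
  | rX {w' : WallG} : Orb w w' → Orb w (wrX w')

/-- The label is invariant. -/
theorem Orb.z_eq {w w' : WallG} (h : Orb w w') : w'.z = w.z := by
  induction h with
  | refl => rfl
  | tr v _ ih => exact ih
  | rD _ ih => exact ih
  | rX _ ih => exact ih

/-- **The class of the images of the walls of `P₀`**; the normalisation is the label. -/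
def clL (P₀ : ℝ → ℕ → WallG → Prop) : Cls where
  P κ n w := ∃ w₀, P₀ κ n w₀ ∧ Orb w₀ w
  Z _ w := w.z

/-- The class is invariant; hypotheses: monotonicity in the margins, positivity of the labels. -/
theorem clL_ok {P₀ : ℝ → ℕ → WallG → Prop}
    (hmono : ∀ {κ κ' : ℝ} {n : ℕ} {w : WallG}, κ' * n ≤ κ * n → P₀ κ n w → P₀ κ' n w)
    (hpos : ∀ {κ : ℝ}, 0 < κ → ∀ᶠ n : ℕ in atTop, ∀ w, P₀ κ n w → 0 < w.z) :
    (clL P₀).Ok where
  mono := by
    rintro κ κ' n w h ⟨w₀, h1, h2⟩
    exact ⟨w₀, hmono h h1, h2⟩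
  pos := by
    intro κ hκ
    filter_upwards [hpos hκ] with n hn w hw
    obtain ⟨w₀, h1, h2⟩ := hw
    show 0 < w.z
    rw [h2.z_eq]
    exact hn w₀ h1
  tr := by
    rintro κ n w a ⟨w₀, h1, h2⟩
    exact ⟨w₀, h1, h2.tr a⟩
  rD := by
    rintro κ n w ⟨w₀, h1, h2⟩
    exact ⟨w₀, h1, h2.rD⟩
  rX := by
    rintro κ κ' n w h ⟨w₀, h1, h2⟩
    exact ⟨w₀, hmono (by linarith) h1, h2.rX⟩
  Ztr _ _ _ := rfl
  ZD _ := ⟨1, le_rfl, Eventually.of_forall fun _ w _ => (one_mul w.z).symm.le⟩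
  ZX _ := ⟨1, le_rfl, Eventually.of_forall fun _ w _ => (one_mul w.z).symm.le⟩

/-- A single wall, without flow. -/
def one (w : WallG) : WCG Unit := ⟨fun _ => w, 0⟩

theorem one_fc (w : WallG) : Fc (one w) := by
  show (Function.support (0 : Ed → ℝ)).Finite
  simp

/-- The value of the single wall. -/
noncomputable def zO (om : Ins → ℂ) (w : WallG) : ℝ := ‖om (insW (one w) (one_fc w)).1‖

/-- **The class of the images of the walls of `P₀`.** -/
noncomputable def clO (om : Ins → ℂ) (P₀ : ℝ → ℕ → WallG → Prop) : Cls where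
  P κ n w := ∃ w₀, P₀ κ n w₀ ∧ Orb w₀ w
  Z _ w := zO om w

variable {om : Ins → ℂ} {c : ℝ}

theorem one_wtr (w : WallG) (a : ℤ × ℤ) : one (wtr w a) = tr (one w) a := rfl

theorem one_wrf {P : Rf (ℤ × ℤ)} {l : ℤ × ℤ → ℤ × ℤ} (hP : P.Lin l) (w : WallG) :
    one (wrf hP w) = mP hP (one w) := by
  unfold one mP
  congr 1
  funext e
  show (0 : ℝ) = _ * 0
  rw [mul_zero]

theorem one_wrD (w : WallG) : one (wrD w) = mD (one w) := one_wrf rD_lin w

theorem one_wrX (w : WallG) : one (wrX w) = mX (one w) := one_wrf rX_lin w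

theorem zO_wtr (hok : (sysOm om).Ok) (w : WallG) (a : ℤ × ℤ) : zO om (wtr w a) = zO om w := by
  show ‖om (insW (tr (one w) a) _).1‖ = ‖om (insW (one w) _).1‖
  rw [insW_tr (one w) (one_fc w) a]
  have := hok.w_sh a (insW (one w) (one_fc w))
  exact congrArg norm this

theorem zO_wrD (hom : IsOm c om) (hc : 0 ≤ c) (w : WallG) : zO om (wrD w) = zO om w := by
  unfold zO
  rw [insW_congr (one_wrD w) _ (mD_fc (one_fc w)), insW_mD (one w) (one_fc w)]
  have := (hom.rfl_D hc).conj (insW (one w) (one_fc w))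
  rw [this, RCLike.norm_conj]

theorem zO_wrX (hom : IsOm c om) (hc : 0 ≤ c) (w : WallG) : zO om (wrX w) = zO om w := by
  unfold zO
  rw [insW_congr (one_wrX w) _ (mX_fc (one_fc w)), insW_mX (one w) (one_fc w)]
  have := (hom.rfl_X hc).conj (insW (one w) (one_fc w))
  rw [this, RCLike.norm_conj]

/-- The value of the single wall is invariant. -/
theorem zO_orb (hom : IsOm c om) (hc : 0 ≤ c) (hok : (sysOm om).Ok) {w w' : WallG}
    (h : Orb w w') : zO om w' = zO om w := by
  induction h with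
  | refl => rfl
  | tr v _ ih => rw [zO_wtr hok, ih]
  | rD _ ih => rw [zO_wrD hom hc, ih]
  | rX _ ih => rw [zO_wrX hom hc, ih]

/-- **The class is invariant**; hypotheses: monotonicity in the margins, positivity. -/
theorem clO_ok {P₀ : ℝ → ℕ → WallG → Prop} (hom : IsOm c om) (hc : 0 ≤ c) (hok : (sysOm om).Ok)
    (hmono : ∀ {κ κ' : ℝ} {n : ℕ} {w : WallG}, κ' * n ≤ κ * n → P₀ κ n w → P₀ κ' n w)
    (hpos : ∀ {κ : ℝ}, 0 < κ → ∀ᶠ n : ℕ in atTop, ∀ w, P₀ κ n w → 0 < zO om w) :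
    (clO om P₀).Ok where
  mono := by
    rintro κ κ' n w h ⟨w₀, h1, h2⟩
    exact ⟨w₀, hmono h h1, h2⟩
  pos := by
    intro κ hκ
    filter_upwards [hpos hκ] with n hn w hw
    obtain ⟨w₀, h1, h2⟩ := hw
    show 0 < zO om w
    rw [zO_orb hom hc hok h2]
    exact hn w₀ h1
  tr := by
    rintro κ n w a ⟨w₀, h1, h2⟩
    exact ⟨w₀, h1, h2.tr a⟩
  rD := by
    rintro κ n w ⟨w₀, h1, h2⟩
    exact ⟨w₀, h1, h2.rD⟩
  rX := by
    rintro κ κ' n w h ⟨w₀, h1, h2⟩
    exact ⟨w₀, hmono (by linarith) h1, h2.rX⟩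
  Ztr _ w a := zO_wtr hok w a
  ZD _ := ⟨1, le_rfl, Eventually.of_forall fun _ w _ => by
    show zO om (wrD w) ≤ 1 * zO om w
    rw [zO_wrD hom hc, one_mul]⟩
  ZX _ := ⟨1, le_rfl, Eventually.of_forall fun _ w _ => by
    show zO om (wrX w) ≤ 1 * zO om w
    rw [zO_wrX hom hc, one_mul]⟩

end Vale.Agent.P167.H680.T
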