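import Vale.Agent.P167.H680.T.Os
import Vale.Agent.P167.H825.Osb

/-!
# P167, general `q`, block 2A: the bound of the reflection norms for groups of walls
-/

namespace Vale.Agent.P167.H680.T

open Finset Filter Topology MeasureTheory
open Vale.Agent.P167.H592
open Vale.Agent.P167.H825 (GDir Sys os OSb Strip tK Lin3 ThLin os_lin3 nm_of_strip prod_in os_neg)

/-- Reflection norm of the product of translated configurations. -/
theorem os_prod {om : Ins → ℂ} {Cl : Cls} (hCl : Cl.Ok) (hH : HOSQ om Cl) {D : GDir}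
    {θ : ℤ → LIns → LIns} {rf : ∀ {ι : Type}, ℤ → WCG ι → WCG ι} (hD : RWQ Cl D θ rf)
    {κ : ℝ} (hκ : 0 < κ) (R B : ℝ) (κ' M : ℕ) : ∃ C : ℝ, 0 < C ∧ ∀ᶠ n : ℕ in atTop,
    ∀ (ι : Fin 5 → Type) [∀ i, Fintype (ι i)] (F : ∀ i, WCG (ι i)) (hc : ∀ i, Fc (F i))
      (K : Fin 5 → Set (ℤ × ℤ)) (N : ℕ), ∑ i, Fintype.card (ι i) ≤ M → κ * n ≤ N → (N : ℝ) ≤ n →
      (∀ i, (F i).Adm κ R B n) → (∀ i, (F i).In Cl κ n) → (∀ i, ∀ u ∈ pts (F i), u ∈ K i) →
    ∀ (A : Finset (Fin 5)) (w : Fin 5 → ℤ × ℤ), (∀ i, |(w i).1| ≤ κ' ∧ |(w i).2| ≤ κ') →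
      (∀ i ∈ A, ∀ j ∈ A, i ≠ j → Strip N (tK (K i) (N • w i)) (tK (K j) (N • w j))) →
    ∀ m : ℤ, |m| ≤ κ' * N →
      ((∀ i ∈ A, ∀ q ∈ tK (K i) (N • w i), m + N ≤ D.l q) ∨
        (∀ i ∈ A, ∀ q ∈ tK (K i) (N • w i), D.l q ≤ m - N)) →
    os (sysOm om) θ m (∏ i ∈ A, LIns.sh (N • w i) (insW (F i) (hc i))) ≤
      C * ∏ i ∈ A, ((F i).Z Cl n) ^ 2 := by
  obtain ⟨C, hC, hev⟩ := os_le hCl hH hD hκ (|R| + κ') (5 * |B|) M
  refine ⟨C, hC, ?_⟩
  filter_upwards [hev, eventually_ge_atTop 1] with n hn hn1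
  intro ι _ F hc K N hM hN1 hN2 hA hI hK A w hw hs m hm hside
  have hn0 : (0 : ℝ) < n := by exact_mod_cast hn1
  have hpos : 0 < κ * n := by positivity
  -- distances
  have hin : ∀ i, ∀ u ∈ pts (tr (F i) (N • w i)), u ∈ tK (K i) (N • w i) := fun i u hu =>
    hK i _ ((pts_tr (F i) (N • w i)).1 hu)
  have hfar : ∀ i ∈ A, ∀ j ∈ A, i ≠ j → ∀ u ∈ pts (tr (F i) (N • w i)),
      ∀ v ∈ pts (tr (F j) (N • w j)), κ * n ≤ (nm (u - v) : ℝ) := by
    intro i hi j hj hij u hu v hv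
    have h1 := nm_of_strip (hs i hi j hj hij) (hin i u hu) (hin j v hv)
    have h2 : (N : ℝ) ≤ nm (u - v) := by exact_mod_cast h1
    linarith
  have hprod := insW_sig_coe A (fun i => tr (F i) (N • w i)) (fun i => tr_fc (hc i) _)
  have hprod' : ∏ i ∈ A, LIns.sh (N • w i) (insW (F i) (hc i)) =
      insW (sig fun i : A => tr (F i) (N • w i))
        (sig_fc fun i : A => tr_fc (hc i) (N • w i)) := by
    rw [hprod]
    exact Finset.prod_congr rfl fun i _ => (insW_tr (F i) (hc i) _).symm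
  rw [hprod']
  -- admissibility
  have hadm : (sig fun i : A => tr (F i) (N • w i)).Adm κ (|R| + κ')
      (Fintype.card A * B) n := by
    refine Adm.sig (fun i => Adm.tr (hA i) ?_)
      (fun i j hij => hfar i i.2 j j.2 fun e => hij (Subtype.ext e))
    have h1 : (nm (N • w i) : ℝ) ≤ κ' * N := by exact_mod_cast H825.nm_smul_le (hw i) N
    have h2 : (κ' : ℝ) * N ≤ κ' * n := by gcongr
    have h3 : R * n ≤ |R| * n := by
      gcongr
      exact le_abs_self R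
    linarith
  have hcard5 : Fintype.card A ≤ 5 := by
    rw [Fintype.card_coe]
    exact (Finset.card_le_univ A).trans (le_of_eq (Fintype.card_fin 5))
  have hadm' : (sig fun i : A => tr (F i) (N • w i)).Adm κ (|R| + κ') (5 * |B|) n := by
    refine Adm.mono hadm le_rfl le_rfl ?_
    have h5 : ((Fintype.card A : ℕ) : ℝ) ≤ 5 := by exact_mod_cast hcard5
    calc ((Fintype.card A : ℕ) : ℝ) * B ≤ ((Fintype.card A : ℕ) : ℝ) * |B| := by
          gcongr
          exact le_abs_self B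
      _ ≤ 5 * |B| := by gcongr
  have hIn : (sig fun i : A => tr (F i) (N • w i)).In Cl κ n := fun x =>
    In.tr hCl _ (hI x.1) x.2
  have hcard : Fintype.card (Σ i : A, ι i) = ∑ i ∈ A, Fintype.card (ι i) := by
    rw [Fintype.card_sigma]
    exact Finset.sum_coe_sort A fun i => Fintype.card (ι i)
  have hcM : Fintype.card (Σ i : A, ι i) ≤ M := by
    rw [hcard]
    exact (Finset.sum_le_sum_of_subset (Finset.subset_univ A)).trans hM
  have hmR : |(m : ℝ)| ≤ (|R| + κ') * n := by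
    have h1 : |(m : ℝ)| ≤ κ' * N := by exact_mod_cast hm
    have h2 : (κ' : ℝ) * N ≤ κ' * n := by gcongr
    have h3 : 0 ≤ |R| * (n : ℝ) := by positivity
    linarith
  have hpts : ∀ u ∈ pts (sig fun i : A => tr (F i) (N • w i)),
      ∃ i ∈ A, u ∈ tK (K i) (N • w i) := by
    rintro u (⟨⟨i, j⟩, k, hk, rfl⟩ | ⟨e, he, rfl⟩)
    · exact ⟨i, i.2, hin i _ (Or.inl ⟨j, k, hk, rfl⟩)⟩
    · have h1 : ∃ i : A, (tr (F i) (N • w i)).c e ≠ 0 := by
        by_contra hcon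
        push Not at hcon
        exact he (Finset.sum_eq_zero fun i _ => hcon i)
      obtain ⟨i, hi⟩ := h1
      exact ⟨i, i.2, hin i _ (Or.inr ⟨e, hi, rfl⟩)⟩
  have hside' : (∀ u ∈ pts (sig fun i : A => tr (F i) (N • w i)),
      (m : ℝ) + κ * n ≤ D.l u) ∨ (∀ u ∈ pts (sig fun i : A => tr (F i) (N • w i)),
      (D.l u : ℝ) ≤ m - κ * n) := by
    rcases hside with h | h
    · left
      intro u hu
      obtain ⟨i, hi, hui⟩ := hpts u hu
      have h1 : ((m : ℝ) + N) ≤ D.l u := by exact_mod_cast h i hi u hui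
      linarith
    · right
      intro u hu
      obtain ⟨i, hi, hui⟩ := hpts u hu
      have h1 : (D.l u : ℝ) ≤ m - N := by exact_mod_cast h i hi u hui
      linarith
  have key := hn (Σ i : A, ι i) (sig fun i : A => tr (F i) (N • w i))
    (sig_fc fun i : A => tr_fc (hc i) (N • w i)) hcM hadm' hIn m hmR hside'
  refine key.trans (le_of_eq ?_)
  have hZ : (sig fun i : A => tr (F i) (N • w i)).Z Cl n = ∏ i ∈ A, (F i).Z Cl n := by
    have h1 : (sig fun i : A => tr (F i) (N • w i)).Z Cl n =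
        ∏ i : A, (tr (F i) (N • w i)).Z Cl n := by
      unfold WCG.Z
      rw [Fintype.prod_sigma]
      rfl
    rw [h1, Finset.prod_coe_sort A fun i => (tr (F i) (N • w i)).Z Cl n]
    exact Finset.prod_congr rfl fun i _ => Z_tr hCl _ _ _
  rw [hZ, Finset.prod_pow]

/-- The groups of walls and the centre. -/
structure Grp (ι : Fin 5 → Type) [∀ i, Fintype (ι i)] where
  G : ∀ i, ℕ → WCG (ι i)
  hc : ∀ i n, Fc (G i n)
  G1 : ℕ → WCG (ι 4)
  hc1 : ∀ n, Fc (G1 n)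
  α : ℝ
  g : Fin 5 → ℕ → LIns
  hg : ∀ i, i ≠ 4 → ∀ n, g i n = insW (G i n) (hc i n)
  hg4 : ∀ n, Lin3 α (g 4 n) (insW (G1 n) (hc1 n)) (insW (G 4 n) (hc 4 n))
  hw : ∀ n, (G1 n).w = (G 4 n).w

/-- The normalisations. -/
noncomputable def Grp.Z {ι : Fin 5 → Type} [∀ i, Fintype (ι i)] (Γ : Grp ι) (Cl : Cls)
    (i : Fin 5) (n : ℕ) : ℝ := (Γ.G i n).Z Cl n

/-- Estimates for the groups. -/
structure Grp.Ok {ι : Fin 5 → Type} [∀ i, Fintype (ι i)] (Γ : Grp ι) (Cl : Cls)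
    (K : Fin 5 → ℕ → Set (ℤ × ℤ)) (N : ℕ → ℕ) (κ R B : ℝ) : Prop where
  κ0 : 0 < κ
  N : ∀ᶠ n : ℕ in atTop, κ * n ≤ N n ∧ (N n : ℝ) ≤ n
  adm : ∀ᶠ n : ℕ in atTop, ∀ i, (Γ.G i n).Adm κ R B n
  adm1 : ∀ᶠ n : ℕ in atTop, (Γ.G1 n).Adm κ R B n
  cls : ∀ᶠ n : ℕ in atTop, ∀ i, (Γ.G i n).In Cl κ n
  pts : ∀ᶠ n : ℕ in atTop, ∀ i, ∀ u ∈ pts (Γ.G i n), u ∈ K i n
  pts1 : ∀ᶠ n : ℕ in atTop, ∀ u ∈ T.pts (Γ.G1 n), u ∈ K 4 n
  li : ∀ᶠ n : ℕ in atTop, ∀ i, LI (K i n) (insW (Γ.G i n) (Γ.hc i n)).1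
  li1 : ∀ᶠ n : ℕ in atTop, LI (K 4 n) (insW (Γ.G1 n) (Γ.hc1 n)).1

theorem Grp.osb {ι : Fin 5 → Type} [∀ i, Fintype (ι i)] {Γ : Grp ι} {Cl : Cls} (hCl : Cl.Ok)
    {K : Fin 5 → ℕ → Set (ℤ × ℤ)} {N : ℕ → ℕ} {κ R B : ℝ} (hΓ : Γ.Ok Cl K N κ R B)
    {c : ℝ} {om : Ins → ℂ} (hH : HOSQ om Cl) (hom : IsOm c om) {D : GDir}
    {θ : ℤ → LIns → LIns} {rf : ∀ {ι : Type}, ℤ → WCG ι → WCG ι} (hD : RWQ Cl D θ rf)
    (hS : (sysOm om).Ok) (hR : (sysOm om).Refl D θ) (hGD : D.Ok) (hθ : ThLin θ) :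
    OSb (sysOm om) D θ N K Γ.g (Γ.Z Cl) := by
  classical
  intro κ'
  obtain ⟨C, hC, hev⟩ := os_prod hCl hH hD hΓ.κ0 R B κ' (∑ i, Fintype.card (ι i))
  refine ⟨(2 + 2 * Γ.α ^ 2) * C, by positivity, ?_⟩
  filter_upwards [hev, hΓ.N, hΓ.adm, hΓ.adm1, hΓ.cls, hΓ.pts, hΓ.pts1, hΓ.li, hΓ.li1,
    hCl.pos hΓ.κ0] with n hn hN hA hA1 hI hp hp1 hl hl1 hpos
  intro A w hw4 hw hs m hm hside
  have hI1 : (Γ.G1 n).In Cl κ n := fun i => by
    rw [Γ.hw n]
    exact hI 4 i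
  have key := hn ι (fun i => Γ.G i n) (fun i => Γ.hc i n) (fun i => K i n) (N n) le_rfl hN.1 hN.2
    hA hI hp A w hw hs m hm hside
  have hZ : ∏ i ∈ A, ((Γ.G i n).Z Cl n) ^ 2 = ∏ i ∈ A, Γ.Z Cl i n ^ 2 := rfl
  have hZ0 : 0 ≤ C * ∏ i ∈ A, Γ.Z Cl i n ^ 2 :=
    mul_nonneg hC.le (Finset.prod_nonneg fun i _ => sq_nonneg _)
  by_cases h4 : (4 : Fin 5) ∈ A
  · -- the second family
    have key1 := hn ι (Function.update (fun i => Γ.G i n) 4 (Γ.G1 n)) (by
        intro i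
        rcases eq_or_ne i 4 with rfl | hi
        · rw [Function.update_self]; exact Γ.hc1 n
        · rw [Function.update_of_ne hi]; exact Γ.hc i n)
      (fun i => K i n) (N n) le_rfl hN.1 hN.2 (by
        intro i
        rcases eq_or_ne i 4 with rfl | hi
        · rw [Function.update_self]; exact hA1
        · rw [Function.update_of_ne hi]; exact hA i) (by
        intro i
        rcases eq_or_ne i 4 with rfl | hi
        · rw [Function.update_self]; exact hI1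
        · rw [Function.update_of_ne hi]; exact hI i) (by
        intro i
        rcases eq_or_ne i 4 with rfl | hi
        · rw [Function.update_self]; exact hp1
        · rw [Function.update_of_ne hi]; exact hp i) A w hw hs m hm hside
    set P : LIns := ∏ i ∈ A.erase 4, LIns.sh (N n • w i) (insW (Γ.G i n) (Γ.hc i n)) with hP
    have e0 : ∏ i ∈ A, LIns.sh (N n • w i) (insW (Γ.G i n) (Γ.hc i n)) =
        P * insW (Γ.G 4 n) (Γ.hc 4 n) := by
      rw [← Finset.prod_erase_mul A _ h4, hw4, smul_zero, LIns.sh_zero]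
    have e1 : ∏ i ∈ A, LIns.sh (N n • w i)
        (insW (Function.update (fun i => Γ.G i n) 4 (Γ.G1 n) i) (by
        rcases eq_or_ne i 4 with rfl | hi
        · rw [Function.update_self]; exact Γ.hc1 n
        · rw [Function.update_of_ne hi]; exact Γ.hc i n)) =
        P * insW (Γ.G1 n) (Γ.hc1 n) := by
      rw [← Finset.prod_erase_mul A _ h4, hw4, smul_zero, LIns.sh_zero]
      congr 1
      refine Finset.prod_congr rfl fun i hi => ?_
      congr 1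
      exact insW_congr (Function.update_of_ne (Finset.ne_of_mem_erase hi) _ _) _ _
    have eY : ∏ i ∈ A, (sysOm om).sh (N n • w i) (Γ.g i n) = P * Γ.g 4 n := by
      show ∏ i ∈ A, LIns.sh (N n • w i) (Γ.g i n) = _
      rw [← Finset.prod_erase_mul A _ h4, hw4, smul_zero, LIns.sh_zero]
      congr 1
      refine Finset.prod_congr rfl fun i hi => ?_
      rw [Γ.hg i (Finset.ne_of_mem_erase hi)]
    rw [e0] at key
    have hZ1 : ∏ i ∈ A, ((Function.update (fun i => Γ.G i n) 4 (Γ.G1 n) i).Z Cl n) ^ 2 =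
        ∏ i ∈ A, Γ.Z Cl i n ^ 2 := by
      refine Finset.prod_congr rfl fun i _ => ?_
      rcases eq_or_ne i 4 with rfl | hi
      · rw [Function.update_self]
        unfold Grp.Z WCG.Z
        rw [Γ.hw n]
      · rw [Function.update_of_ne hi]; rfl
    have key1' : os (sysOm om) θ m (P * insW (Γ.G1 n) (Γ.hc1 n)) ≤
        C * ∏ i ∈ A, Γ.Z Cl i n ^ 2 := by
      rw [← hZ1, ← e1]
      exact key1
    have key0' : os (sysOm om) θ m (P * insW (Γ.G 4 n) (Γ.hc 4 n)) ≤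
        C * ∏ i ∈ A, Γ.Z Cl i n ^ 2 := key
    -- supports
    have hin : ∀ (L : Set (ℤ × ℤ)), (∀ i ∈ A, ∀ q ∈ tK (K i n) (N n • w i), q ∈ L) →
        (sysOm om).In L (P * insW (Γ.G1 n) (Γ.hc1 n)) ∧
        (sysOm om).In L (P * insW (Γ.G 4 n) (Γ.hc 4 n)) := by
      intro L hL
      have hPL : (sysOm om).In L P := prod_in hS _ _ fun i hi =>
        hS.mono (hS.shift (N n • w i) (hl i)) (hL i (Finset.mem_of_mem_erase hi))
      have h4L : ∀ q ∈ K 4 n, q ∈ L := fun q hq => hL 4 h4 q (by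
        show q - N n • w 4 ∈ K 4 n
        rw [hw4, smul_zero, sub_zero]
        exact hq)
      exact ⟨hS.mul hPL (hS.mono hl1 h4L), hS.mul hPL (hS.mono (hl 4) h4L)⟩
    have hfin : os (sysOm om) θ m (P * Γ.g 4 n) ≤
        2 * os (sysOm om) θ m (P * insW (Γ.G1 n) (Γ.hc1 n)) +
        2 * Γ.α ^ 2 * os (sysOm om) θ m (P * insW (Γ.G 4 n) (Γ.hc 4 n)) := by
      have hNn : (0 : ℤ) ≤ N n := by positivity
      rcases hside with h | h
      · obtain ⟨h1, h2⟩ := hin {q | m ≤ D.l q} (fun i hi q hq => by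
          have := h i hi q hq
          show m ≤ D.l q
          linarith)
        exact os_lin3 hom hR hθ (Γ.hg4 n) h1 h2
      · obtain ⟨h1, h2⟩ := hin {q | -m ≤ D.neg.l q} (fun i hi q hq => by
          have := h i hi q hq
          show -m ≤ - D.l q
          linarith)
        have := os_lin3 hom (hR.neg hS hGD) hθ.neg (Γ.hg4 n) h1 h2
        rw [os_neg, os_neg, os_neg, neg_neg] at this
        exact this
    rw [eY]
    refine hfin.trans ?_
    have hα : 0 ≤ 2 * Γ.α ^ 2 := by positivity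
    calc _ ≤ 2 * (C * ∏ i ∈ A, Γ.Z Cl i n ^ 2) +
          2 * Γ.α ^ 2 * (C * ∏ i ∈ A, Γ.Z Cl i n ^ 2) := by gcongr
      _ = _ := by ring
  · have e : ∏ i ∈ A, (sysOm om).sh (N n • w i) (Γ.g i n) =
        ∏ i ∈ A, LIns.sh (N n • w i) (insW (Γ.G i n) (Γ.hc i n)) :=
      Finset.prod_congr rfl fun i hi => by
        rw [Γ.hg i (fun h => h4 (h ▸ hi))]
        rfl
    rw [e]
    refine key.trans ?_
    rw [hZ]
    have hα : 0 ≤ 2 * Γ.α ^ 2 := by positivity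
    nlinarith

end Vale.Agent.P167.H680.T
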