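import Vale.Agent.P167.H680.T.RowQ
import Vale.Agent.P167.QX.Thick

/-!
# P167, general `q`, block 2A: the inner sum of a row

Phases which vanish on the inner half arrows of a row of `L ≥ 1` squares: the inner sum `rhoT` is
`2 (2 cos (θ / 4)) ^ (2 L)`.
-/

namespace Vale.Agent.P167.H680.T

open Finset
open Vale.Agent.P167.A (plane plane_nx)
open Vale.Agent.P167.BR (eds mem_eds pcs IsLp pcs_nonempty)
open Vale.Agent.P167.FK (cf eta0)
open Vale.Agent.P167.H199 (cang strand ret ah at' hb ret_min ret_le Returns loop_nx)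
open Vale.Agent.P167.XDL (bS mem_bS)
open Vale.Agent.P167.QX (XinT rhoT)
open Vale.Agent.P167.H825.Q (Row)

/-! ### halves -/

theorem sq_hb (e : Ed) : sq e (hb plane e) = hdv e ∧ sq e (!hb plane e) = tlv e := by
  have h : ∀ e : Ed, hb plane e = decide (sg e = 1) := fun e => by
    unfold hb
    rw [A.plane_sg]
  rw [h]
  rcases e with v | v <;> by_cases hv : Even (v.1 + v.2) <;> simp [sg, sq, hdv, tlv, hv]

/-- The phases vanish on the inner half arrows of `D`. -/
def In0 (D : Finset (ℤ × ℤ)) (a : Ed → Bool → ℝ) : Prop := ∀ e b, sq e b ∈ D → a e b = 0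

/-- Angles inside `D`. -/
theorem cang_in {D : Finset (ℤ × ℤ)} {a : Ed → Bool → ℝ} (h0 : In0 D a) {ω : Cfg} {θ : ℝ}
    {A : Finset Ed} (hA : ∀ x ∈ A, hdv x ∈ D) :
    cang plane θ a ω A = ∑ x ∈ A, θ / 4 * (if ω (hdv x) then -1 else 1) := by
  unfold cang
  refine sum_congr rfl fun x hx => ?_
  have h1 : ah plane a x = 0 := by
    unfold ah
    rw [h0 x _ (by rw [(sq_hb x).1]; exact hA x hx), zero_mul]
  have h2 : at' plane a (plane.nx ω x) = 0 := by
    unfold at'
    rw [plane_nx, h0 _ _ (by rw [(sq_hb (nx ω x)).2, tlv_nx]; exact hA x hx), zero_mul]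
  rw [h1, h2, add_zero, add_zero, H685.plane_turn]
  unfold trn
  push_cast
  rfl

/-! ### rows -/

/-- The medial edge crosses the sides orthogonal to the row. -/
def ax (o : Bool) : Ed → Bool
  | Sum.inl _ => o
  | Sum.inr _ => !o

theorem ax_nx (o : Bool) (ω : Cfg) (e : Ed) : ax o (nx ω e) = !ax o e := by
  rcases e with v | v
  · simp only [nx]
    split_ifs <;> rfl
  · simp only [nx]
    split_ifs <;> cases o <;> rfl

theorem mem_I {r : Row} {v : ℤ × ℤ} : v ∈ r.I ↔
    if r.o then v.2 = r.x.2 ∧ r.x.1 ≤ v.1 ∧ v.1 < r.x.1 + r.L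
    else v.1 = r.x.1 ∧ r.x.2 ≤ v.2 ∧ v.2 < r.x.2 + r.L := (toRD r 0).mem_D

theorem sq_mem {r : Row} {k : ℕ} : r.sq k ∈ r.I ↔ k < r.L := by
  rw [mem_I]
  unfold Row.sq
  cases ho : r.o
  · simp only [Bool.false_eq_true, if_false]
    constructor
    · rintro ⟨-, -, h⟩
      omega
    · intro h
      exact ⟨trivial, by omega, by omega⟩
  · simp only [if_true]
    constructor
    · rintro ⟨-, -, h⟩
      omega
    · intro h
      exact ⟨trivial, by omega, by omega⟩

theorem sq_inj {r : Row} : Function.Injective r.sq := by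
  intro i j h
  have := congrArg r.ix h
  rwa [r.ix_sq, r.ix_sq] at this

/-- A transversal edge has at most one end in the row. -/
theorem trans_mem {r : Row} {e : Ed} (h : ax r.o e = false) (h1 : sq e true ∈ r.I)
    (h2 : sq e false ∈ r.I) : False := by
  rw [mem_I] at h1 h2
  rcases e with v | v
  · have ho : r.o = false := h
    rw [ho] at h1 h2
    have a1 : v.1 + 1 = r.x.1 := h1.1
    have a2 : v.1 = r.x.1 := h2.1
    omega
  · have ho : r.o = true := by simpa [ax] using h
    rw [ho] at h1 h2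
    have a1 : v.2 + 1 = r.x.2 := h1.1
    have a2 : v.2 = r.x.2 := h2.1
    omega

theorem trans_mem' {r : Row} {e : Ed} (h : ax r.o e = false) (h1 : hdv e ∈ r.I)
    (h2 : tlv e ∈ r.I) : False := by
  have h3 := sq_hb e
  cases hh : hb plane e
  · rw [hh] at h3
    exact trans_mem h (by rw [← h3.2] at h2; exact h2) (by rw [← h3.1] at h1; exact h1)
  · rw [hh] at h3
    exact trans_mem h (by rw [← h3.1] at h1; exact h1) (by rw [← h3.2] at h2; exact h2)

/-- The turn. -/
def tb (b : Bool) : ℝ := if b then -1 else 1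

/-- The factor of an axial edge. -/
noncomputable def gw (θ : ℝ) (D : Finset (ℤ × ℤ)) (ω : Cfg) (h : Ed) : ℝ :=
  2 * Real.cos (θ / 4 * ((if sq h false ∈ D then tb (ω (sq h false)) else 0) +
    if sq h true ∈ D then tb (ω (sq h true)) else 0))

theorem gw_eq (θ : ℝ) (D : Finset (ℤ × ℤ)) (ω : Cfg) (h : Ed) : gw θ D ω h =
    2 * Real.cos (θ / 4 * ((if tlv h ∈ D then tb (ω (tlv h)) else 0) +
      if hdv h ∈ D then tb (ω (hdv h)) else 0)) := by
  unfold gw
  have h3 := sq_hb h
  cases hh : hb plane h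
  · rw [hh] at h3
    rw [← h3.1, ← h3.2, add_comm]
    rfl
  · rw [hh] at h3
    rw [← h3.1, ← h3.2]
    rfl

theorem strand_one {ω : Cfg} {S : Finset Ed} {e : Ed} (h : nx ω e ∈ S) :
    strand (nx ω) S e = {e} := by
  have h1 : Returns (nx ω) S e := ⟨1, le_rfl, h⟩
  have h2 : ret (nx ω) S e = 1 :=
    le_antisymm (ret_le le_rfl h) h1.spec.1
  unfold strand
  rw [h2]
  simp

theorem strand_two {ω : Cfg} {S : Finset Ed} {e : Ed} (h : nx ω e ∉ S) (h' : nx ω (nx ω e) ∈ S) :
    strand (nx ω) S e = {e, nx ω e} := by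
  have h1 : Returns (nx ω) S e := ⟨2, by norm_num, h'⟩
  have h2 : ret (nx ω) S e = 2 := by
    refine le_antisymm (ret_le (by norm_num) h') ?_
    by_contra hn
    have h3 := h1.spec
    have h4 : ret (nx ω) S e = 1 := by omega
    rw [h4] at h3
    exact h h3.2
  unfold strand
  rw [h2]
  ext x
  simp only [mem_image, mem_range, mem_insert, mem_singleton]
  constructor
  · rintro ⟨k, hk, rfl⟩
    interval_cases k
    · exact Or.inl rfl
    · exact Or.inr rfl
  · rintro (rfl | rfl)
    · exact ⟨0, by norm_num, rfl⟩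
    · exact ⟨1, by norm_num, rfl⟩

section

variable {r : Row} {ω : Cfg} {θ : ℝ} {a : Ed → Bool → ℝ}

/-- The factor of the strand of an entering axial edge. -/
theorem fac_ax (h0 : In0 r.I a) {e : Ed} (h : ax r.o e = true) (h1 : hdv e ∈ r.I)
    (h2 : tlv e ∉ r.I) :
    2 * Real.cos (cang plane θ a ω (strand (nx ω) (bS r.I) e)) = gw θ r.I ω e := by
  have h3 : nx ω e ∈ bS r.I := by
    rw [mem_bS]
    right
    rw [tlv_nx]
    exact ⟨fun h4 => trans_mem' (e := nx ω e) (by rw [ax_nx, h]; rfl) h4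
      (by rw [tlv_nx]; exact h1), h1⟩
  rw [strand_one h3, cang_in h0 fun x hx => by rw [mem_singleton.1 hx]; exact h1, sum_singleton,
    gw_eq, if_neg h2, if_pos h1, zero_add]
  rfl

/-- The factor of the strand of an entering transversal edge. -/
theorem fac_tr (h0 : In0 r.I a) {e : Ed} (h : ax r.o e = false) (h1 : hdv e ∈ r.I) :
    2 * Real.cos (cang plane θ a ω (strand (nx ω) (bS r.I) e)) = gw θ r.I ω (nx ω e) := by
  rw [gw_eq, tlv_nx, if_pos h1]
  by_cases h3 : hdv (nx ω e) ∈ r.I
  · have h4 : nx ω e ∉ bS r.I := by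
      rw [mem_bS, tlv_nx]
      tauto
    have h5 : nx ω (nx ω e) ∈ bS r.I := by
      rw [mem_bS]
      right
      rw [tlv_nx]
      exact ⟨fun h6 => trans_mem' (e := nx ω (nx ω e)) (by rw [ax_nx, ax_nx, h]; rfl) h6
        (by rw [tlv_nx]; exact h3), h3⟩
    have hne : e ≠ nx ω e := by
      intro h6
      have := congrArg (ax r.o) h6
      rw [ax_nx, h] at this
      exact absurd this (by simp)
    rw [strand_two h4 h5, cang_in h0 fun x hx => by
      rcases mem_insert.1 hx with rfl | hx
      · exact h1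
      · rw [mem_singleton.1 hx]; exact h3, sum_pair hne, if_pos h3]
    unfold tb
    rw [mul_add]
  · have h4 : nx ω e ∈ bS r.I := by
      rw [mem_bS, tlv_nx]
      exact Or.inr ⟨h3, h1⟩
    rw [strand_one h4, cang_in h0 fun x hx => by rw [mem_singleton.1 hx]; exact h1, sum_singleton,
      if_neg h3, add_zero]
    rfl

/-- There are no loops inside a row. -/
theorem no_loop {A : Finset Ed} (hA : A ∈ pcs ω r.I) : ¬ IsLp r.I A := by
  intro hl
  have hL := BR.IsLp.isLoop hA hl
  obtain ⟨e, he⟩ := pcs_nonempty hA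
  have key : ∀ x ∈ A, ax r.o (nx ω x) = true := by
    intro x hx
    by_contra hn
    rw [Bool.not_eq_true] at hn
    exact trans_mem' hn (hl _ (loop_nx hL hx)) (by rw [tlv_nx]; exact hl x hx)
  have h1 := key e he
  have h2 := key _ (loop_nx hL he)
  rw [ax_nx, h1] at h2
  exact absurd h2 (by simp)

/-- **The inner product of a row.** -/
theorem XinT_row (h0 : In0 r.I a) : XinT θ r.I a ω =
    ∏ h ∈ (eds r.I).filter (fun h => ax r.o h = true), gw θ r.I ω h := by
  classical
  unfold XinT
  have h1 : (pcs ω r.I).filter (IsLp r.I) = ∅ :=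
    filter_eq_empty_iff.2 fun A hA => no_loop hA
  rw [h1, prod_empty, one_mul]
  refine prod_bij (fun e _ => if ax r.o e then e else nx ω e) ?_ ?_ ?_ ?_
  · intro e he
    rw [mem_filter] at he
    rw [mem_filter, mem_eds]
    cases ha : ax r.o e
    · simp only [Bool.false_eq_true, if_false]
      exact ⟨Or.inr (by rw [tlv_nx]; exact he.2), by rw [ax_nx, ha]; rfl⟩
    · simp only [if_true]
      exact ⟨Or.inl he.2, ha⟩
  · intro e he e' he' hh
    rw [mem_filter, mem_bS] at he he'
    have t1 : tlv e ∉ r.I := by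
      rcases he.1 with h | h
      · exact h.2
      · exact absurd he.2 h.1
    have t2 : tlv e' ∉ r.I := by
      rcases he'.1 with h | h
      · exact h.2
      · exact absurd he'.2 h.1
    cases ha : ax r.o e <;> cases ha' : ax r.o e'
    · simp only [ha, ha', Bool.false_eq_true, if_false] at hh
      exact (s_nx ω).1 hh
    · simp only [ha, ha', Bool.false_eq_true, if_false, if_true] at hh
      rw [← hh, tlv_nx] at t2
      exact absurd he.2 t2
    · simp only [ha, ha', Bool.false_eq_true, if_false, if_true] at hh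
      rw [hh, tlv_nx] at t1
      exact absurd he'.2 t1
    · simpa only [ha, ha', if_true] using hh
  · intro h hh
    rw [mem_filter, mem_eds] at hh
    by_cases ht : tlv h ∈ r.I
    · obtain ⟨e, rfl⟩ := (s_nx ω).2 h
      rw [tlv_nx] at ht
      have hax : ax r.o e = false := by
        have := hh.2
        rw [ax_nx] at this
        simpa using this
      refine ⟨e, ?_, by simp only [hax, Bool.false_eq_true, if_false]⟩
      rw [mem_filter, mem_bS]
      exact ⟨Or.inl ⟨ht, fun h3 => trans_mem' hax ht h3⟩, ht⟩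
    · have hd : hdv h ∈ r.I := hh.1.resolve_right ht
      refine ⟨h, ?_, by simp only [hh.2, if_true]⟩
      rw [mem_filter, mem_bS]
      exact ⟨Or.inl ⟨hd, ht⟩, hd⟩
  · intro e he
    rw [mem_filter, mem_bS] at he
    have t1 : tlv e ∉ r.I := by
      rcases he.1 with h | h
      · exact h.2
      · exact absurd he.2 h.1
    cases ha : ax r.o e
    · simp only [Bool.false_eq_true, if_false]
      exact fac_tr h0 ha he.2
    · simp only [if_true]
      exact fac_ax h0 ha he.2 t1

end

/-- The axial edges. -/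
def axk (r : Row) (k : ℕ) : Ed :=
  if r.o then Sum.inl (r.x.1 - 1 + k, r.x.2) else Sum.inr (r.x.1, r.x.2 - 1 + k)

theorem axk_inj (r : Row) : Function.Injective (axk r) := by
  intro i j h
  unfold axk at h
  cases ho : r.o
  · rw [ho] at h
    have h1 := Sum.inr.inj h
    have h2 : r.x.2 - 1 + (i : ℤ) = r.x.2 - 1 + j := congrArg Prod.snd h1
    omega
  · rw [ho] at h
    have h1 := Sum.inl.inj h
    have h2 : r.x.1 - 1 + (i : ℤ) = r.x.1 - 1 + j := congrArg Prod.fst h1
    omega

theorem axk_true (r : Row) (k : ℕ) : sq (axk r k) true = r.sq k := by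
  unfold axk Row.sq
  cases r.o
  · show ((r.x.1, r.x.2 - 1 + k + 1) : ℤ × ℤ) = (r.x.1, r.x.2 + k)
    congr 1
    ring
  · show ((r.x.1 - 1 + k + 1, r.x.2) : ℤ × ℤ) = (r.x.1 + k, r.x.2)
    congr 1
    ring

theorem axk_false (r : Row) (k : ℕ) : sq (axk r (k + 1)) false = r.sq k := by
  unfold axk Row.sq
  cases r.o
  · show ((r.x.1, r.x.2 - 1 + ((k + 1 : ℕ) : ℤ)) : ℤ × ℤ) = (r.x.1, r.x.2 + k)
    congr 1
    push_cast
    ring
  · show ((r.x.1 - 1 + ((k + 1 : ℕ) : ℤ), r.x.2) : ℤ × ℤ) = (r.x.1 + k, r.x.2)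
    congr 1
    push_cast
    ring

theorem axk_zero (r : Row) : sq (axk r 0) false ∉ r.I := by
  rw [mem_I]
  unfold axk
  cases ho : r.o
  · simp only [Bool.false_eq_true, if_false]
    show ¬ (r.x.1 = r.x.1 ∧ r.x.2 ≤ r.x.2 - 1 + ((0 : ℕ) : ℤ) ∧
      r.x.2 - 1 + ((0 : ℕ) : ℤ) < r.x.2 + r.L)
    omega
  · simp only [if_true]
    show ¬ (r.x.2 = r.x.2 ∧ r.x.1 ≤ r.x.1 - 1 + ((0 : ℕ) : ℤ) ∧
      r.x.1 - 1 + ((0 : ℕ) : ℤ) < r.x.1 + r.L)
    omega

theorem mem_eds_sq {D : Finset (ℤ × ℤ)} {e : Ed} : e ∈ eds D ↔ sq e true ∈ D ∨ sq e false ∈ D := by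
  rw [mem_eds]
  have h3 := sq_hb e
  cases hh : hb plane e
  · rw [hh] at h3
    rw [← h3.1, ← h3.2]
    exact or_comm
  · rw [hh] at h3
    rw [← h3.1, ← h3.2]
    rfl

theorem eds_ax {r : Row} (hL : 1 ≤ r.L) :
    (eds r.I).filter (fun h => ax r.o h = true) = (range (r.L + 1)).image (axk r) := by
  ext e
  rw [mem_filter, mem_image, mem_eds_sq]
  constructor
  · rintro ⟨h1, h2⟩
    simp only [mem_I] at h1
    rcases e with v | v
    · have ho : r.o = true := h2
      rw [ho] at h1
      have h3 : v.2 = r.x.2 ∧ r.x.1 - 1 ≤ v.1 ∧ v.1 < r.x.1 + r.L := by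
        rcases h1 with h | h
        · have a1 : v.2 = r.x.2 := h.1
          have a2 : r.x.1 ≤ v.1 + 1 := h.2.1
          have a3 : v.1 + 1 < r.x.1 + r.L := h.2.2
          omega
        · have a1 : v.2 = r.x.2 := h.1
          have a2 : r.x.1 ≤ v.1 := h.2.1
          have a3 : v.1 < r.x.1 + r.L := h.2.2
          omega
      refine ⟨(v.1 - (r.x.1 - 1)).toNat, mem_range.2 (by omega), ?_⟩
      unfold axk
      rw [if_pos ho]
      congr 1
      apply Prod.ext
      · show r.x.1 - 1 + ((v.1 - (r.x.1 - 1)).toNat : ℤ) = v.1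
        omega
      · exact h3.1.symm
    · have ho : r.o = false := by simpa [ax] using h2
      rw [ho] at h1
      have h3 : v.1 = r.x.1 ∧ r.x.2 - 1 ≤ v.2 ∧ v.2 < r.x.2 + r.L := by
        rcases h1 with h | h
        · have a1 : v.1 = r.x.1 := h.1
          have a2 : r.x.2 ≤ v.2 + 1 := h.2.1
          have a3 : v.2 + 1 < r.x.2 + r.L := h.2.2
          omega
        · have a1 : v.1 = r.x.1 := h.1
          have a2 : r.x.2 ≤ v.2 := h.2.1
          have a3 : v.2 < r.x.2 + r.L := h.2.2
          omega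
      refine ⟨(v.2 - (r.x.2 - 1)).toNat, mem_range.2 (by omega), ?_⟩
      unfold axk
      rw [if_neg (by simp [ho])]
      congr 1
      apply Prod.ext
      · exact h3.1.symm
      · show r.x.2 - 1 + ((v.2 - (r.x.2 - 1)).toNat : ℤ) = v.2
        omega
  · rintro ⟨k, hk, rfl⟩
    rw [mem_range] at hk
    constructor
    · by_cases h1 : k < r.L
      · left
        rw [axk_true]
        exact sq_mem.2 h1
      · right
        obtain ⟨j, rfl⟩ : ∃ j, k = j + 1 := ⟨k - 1, by omega⟩
        rw [axk_false]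
        exact sq_mem.2 (by omega)
    · unfold axk
      cases ho : r.o <;> rfl

/-- The sum over the states. -/
theorem sum_states (w : Bool → Bool → ℝ) {W : ℝ} (hW : ∀ b, w b false + w b true = W) (m : ℕ) :
    ∑ T ∈ (range (m + 1)).powerset, ∏ k ∈ range m, w (decide (k ∈ T)) (decide (k + 1 ∈ T)) =
      2 * W ^ m := by
  induction m with
  | zero =>
    simp only [range_zero, prod_empty, sum_const, card_powerset, card_range]
    norm_num
  | succ m ih =>
    rw [range_add_one (n := m + 1), sum_powerset_insert (by simp)]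
    rw [← sum_add_distrib, pow_succ, ← mul_assoc, ← ih, sum_mul]
    refine sum_congr rfl fun T hT => ?_
    have hm : m + 1 ∉ T := fun h => by
      have := mem_powerset.1 hT h
      simp at this
    rw [prod_range_succ, prod_range_succ]
    have e1 : ∏ k ∈ range m, w (decide (k ∈ insert (m + 1) T)) (decide (k + 1 ∈ insert (m + 1) T)) =
        ∏ k ∈ range m, w (decide (k ∈ T)) (decide (k + 1 ∈ T)) := by
      refine prod_congr rfl fun k hk => ?_
      rw [mem_range] at hk
      have a1 : k ∈ insert (m + 1) T ↔ k ∈ T := by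
        rw [mem_insert]
        constructor
        · rintro (h | h)
          · omega
          · exact h
        · exact Or.inr
      have a2 : k + 1 ∈ insert (m + 1) T ↔ k + 1 ∈ T := by
        rw [mem_insert]
        constructor
        · rintro (h | h)
          · omega
          · exact h
        · exact Or.inr
      simp only [a1, a2]
    have a3 : m ∈ insert (m + 1) T ↔ m ∈ T := by
      rw [mem_insert]
      constructor
      · rintro (h | h)
        · omega
        · exact h
      · exact Or.inr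
    have a4 : (decide (m + 1 ∈ insert (m + 1) T)) = true := by simp
    have a5 : (decide (m + 1 ∈ T)) = false := by simp [hm]
    rw [e1, a4, a5, ← mul_add]
    simp only [a3]
    rw [hW]

theorem tb_sq (θ : ℝ) (b : Bool) : 2 * Real.cos (θ / 4 * tb b) = 2 * Real.cos (θ / 4) := by
  cases b
  · show 2 * Real.cos (θ / 4 * 1) = _
    rw [mul_one]
  · show 2 * Real.cos (θ / 4 * -1) = _
    rw [mul_neg_one, Real.cos_neg]

/-- **The inner sum of a row.** -/
theorem rhoT_row {r : Row} {θ : ℝ} {a : Ed → Bool → ℝ} (h0 : In0 r.I a) (hL : 1 ≤ r.L) :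
    rhoT θ r.I a = 2 * (2 * Real.cos (θ / 4)) ^ (2 * r.L) := by
  classical
  obtain ⟨m, hm⟩ : ∃ m, r.L = m + 1 := ⟨r.L - 1, by omega⟩
  unfold rhoT
  have hI : r.I = (range (m + 1)).image r.sq := by
    unfold Row.I
    rw [hm]
  -- the sum over the sets of indices
  have h1 : ∑ S ∈ r.I.powerset, XinT θ r.I a (cf r.I eta0 S) =
      ∑ T ∈ (range (m + 1)).powerset, XinT θ r.I a (cf r.I eta0 (T.image r.sq)) := by
    symm
    refine sum_bij (fun T _ => T.image r.sq) ?_ ?_ ?_ ?_
    · intro T hT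
      rw [mem_powerset, hI]
      exact image_subset_image (mem_powerset.1 hT)
    · intro T _ T' _ h
      exact image_injective sq_inj h
    · intro S hS
      refine ⟨(range (m + 1)).filter fun k => r.sq k ∈ S, mem_powerset.2 (filter_subset _ _), ?_⟩
      ext v
      rw [mem_image]
      constructor
      · rintro ⟨k, hk, rfl⟩
        exact (mem_filter.1 hk).2
      · intro hv
        have h2 := mem_powerset.1 hS hv
        rw [hI, mem_image] at h2
        obtain ⟨k, hk, rfl⟩ := h2
        exact ⟨k, mem_filter.2 ⟨hk, hv⟩, rfl⟩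
    · intro T _
      rfl
  rw [h1]
  -- the factors
  set w : Bool → Bool → ℝ := fun b b' => 2 * Real.cos (θ / 4 * (tb b + tb b')) with hw
  set W : ℝ := (2 * Real.cos (θ / 4)) ^ 2 with hW
  have hcos : 2 * Real.cos (θ / 4 * (1 + 1)) + 2 = W := by
    have : θ / 4 * (1 + 1) = 2 * (θ / 4) := by ring
    rw [this, Real.cos_two_mul, hW]
    ring
  have hcos' : 2 * Real.cos (θ / 4 * (-1 + -1)) + 2 = W := by
    have : θ / 4 * (-1 + -1) = -(θ / 4 * (1 + 1)) := by ring
    rw [this, Real.cos_neg, hcos]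
  have hWW : ∀ b, w b false + w b true = W := by
    intro b
    cases b
    · show 2 * Real.cos (θ / 4 * (1 + 1)) + 2 * Real.cos (θ / 4 * (1 + -1)) = W
      rw [← hcos]
      norm_num
    · show 2 * Real.cos (θ / 4 * (-1 + 1)) + 2 * Real.cos (θ / 4 * (-1 + -1)) = W
      rw [← hcos']
      norm_num [add_comm]
  have h2 : ∀ T ∈ (range (m + 1)).powerset, XinT θ r.I a (cf r.I eta0 (T.image r.sq)) =
      (∏ k ∈ range m, w (decide (k ∈ T)) (decide (k + 1 ∈ T))) * W := by
    intro T _
    have hst : ∀ k < r.L, cf r.I eta0 (T.image r.sq) (r.sq k) = decide (k ∈ T) := by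
      intro k hk
      unfold cf
      rw [if_pos (sq_mem.2 hk)]
      congr 1
      apply propext
      rw [mem_image]
      constructor
      · rintro ⟨j, hj, h⟩
        rwa [← sq_inj h]
      · intro h
        exact ⟨k, h, rfl⟩
    rw [XinT_row h0, eds_ax hL, prod_image fun i _ j _ h => axk_inj r h, hm, prod_range_succ,
      prod_range_succ']
    have e0 : gw θ r.I (cf r.I eta0 (T.image r.sq)) (axk r 0) = 2 * Real.cos (θ / 4) := by
      unfold gw
      rw [if_neg (axk_zero r), axk_true, if_pos (sq_mem.2 (by omega)), zero_add]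
      exact tb_sq θ _
    have e1 : gw θ r.I (cf r.I eta0 (T.image r.sq)) (axk r (m + 1)) = 2 * Real.cos (θ / 4) := by
      unfold gw
      rw [axk_false, if_pos (sq_mem.2 (by omega)), axk_true, if_neg (fun h => by
        have := sq_mem.1 h
        omega), add_zero]
      exact tb_sq θ _
    have e2 : ∀ k ∈ range m, gw θ r.I (cf r.I eta0 (T.image r.sq)) (axk r (k + 1)) =
        w (decide (k ∈ T)) (decide (k + 1 ∈ T)) := by
      intro k hk
      rw [mem_range] at hk
      unfold gw
      rw [axk_false, if_pos (sq_mem.2 (by omega)), axk_true, if_pos (sq_mem.2 (by omega)),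
        hst k (by omega), hst (k + 1) (by omega)]
    rw [e0, e1, prod_congr rfl e2, hW]
    ring
  rw [sum_congr rfl h2, ← sum_mul, sum_states w hWW m, hm, hW]
  generalize 2 * Real.cos (θ / 4) = X
  rw [← pow_mul]
  ring

/-- The phases of a thick wall vanish inside. -/
theorem thk_in0 {θ : ℝ} {I : Finset (ℤ × ℤ)} {Φ ta : ℤ × ℤ → ℝ} {z : ℝ} :
    In0 I (thk θ I Φ ta z).a := by
  intro e b h
  show (if e ∈ bS I then (if sq e b ∈ I then 0 else
    sgb b * Φ (sq e (!b)) + (sg e : ℝ) * ta (sq e (!b)) * ((3 * θ - Real.pi) / 4)) else 0) = 0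
  rw [if_pos h, ite_self]

theorem rhoT_wall {r : Row} {θ z : ℝ} (hL : 1 ≤ r.L) :
    rhoT θ r.I (r.wall θ z).a = 2 * (2 * Real.cos (θ / 4)) ^ (2 * r.L) :=
  rhoT_row thk_in0 hL

end Vale.Agent.P167.H680.T
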