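import Vale.Agent.P167.H680.T.Thick

/-!
# P167, general `q`, block 2A: rows (thick walls along a straight side)

`RD`: a row of squares with the data of the raw outward phases: mean `c`, from the square `k0` on
`c + j`; colour `s`, from the square `k0` on `s η`. The images of `d.wall θ` under translations and
reflections are the walls of the data `d.tr v`, `d.rD`, `d.rX`.
-/

namespace Vale.Agent.P167.H680.T

open Finset Filter Topology MeasureTheory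
open Vale.Agent.P167.H592
open Vale.Agent.P167.XDL (bS mem_bS)

/-- Rows of squares (`o = true`: horizontal) with the data of the raw phases. -/
@[ext] structure RD where
  o : Bool
  q : ℤ × ℤ
  L : ℕ
  c : ℝ
  j : ℝ
  k0 : ℕ
  s : ℝ
  η : ℝ
  z : ℝ

/-- The squares of the row. -/
def RD.D (d : RD) : Finset (ℤ × ℤ) :=
  (range d.L).image fun k : ℕ => if d.o then (d.q.1 + k, d.q.2) else (d.q.1, d.q.2 + k)

/-- Index of a square. -/
def RD.ix (d : RD) (v : ℤ × ℤ) : ℤ := if d.o then v.1 - d.q.1 else v.2 - d.q.2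

/-- The mean raw phase. -/
noncomputable def RD.Φ (d : RD) (v : ℤ × ℤ) : ℝ := d.c + if (d.k0 : ℤ) ≤ d.ix v then d.j else 0

/-- The colour (`1`: closed, `-1`: open). -/
noncomputable def RD.ta (d : RD) (v : ℤ × ℤ) : ℝ := d.s * if (d.k0 : ℤ) ≤ d.ix v then d.η else 1

/-- The thick wall. -/
noncomputable def RD.wall (d : RD) (θ : ℝ) : WallG := thk θ d.D d.Φ d.ta d.z

/-- Admissible data: `K0` no jump; `K1`, `K2` junctions; `K3` base point. -/
structure RD.Ok (d : RD) (θ κ : ℝ) (n : ℕ) : Prop where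
  s : d.s = 1 ∨ d.s = -1
  len : κ * n ≤ d.L
  jn : (d.j = 0 ∧ d.η = 1) ∨ (κ * n ≤ d.k0 ∧ d.k0 + κ * n ≤ d.L ∧ d.k0 ≤ d.L ∧
    ((d.η = -1 ∧ (|d.j| = (Real.pi - θ) / 2 ∨ |d.j| = (Real.pi - 3 * θ) / 2)) ∨
      (d.η = 1 ∧ |d.j| = θ)))

/-- Translation of the data. -/
noncomputable def RD.tr (d : RD) (v : ℤ × ℤ) : RD := { d with q := d.q + v, s := par v * d.s }

/-- Reflection of the data in the diagonal. -/
noncomputable def RD.rD (d : RD) : RD := { d with o := !d.o, q := (d.q.2, d.q.1), s := -d.s }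

/-- Data of the reversed row. -/
noncomputable def RD.rev (d : RD) : RD :=
  { d with c := d.c + d.j, j := -d.j, k0 := d.L - d.k0, s := d.s * d.η }

/-- Reflection of the data in the columns. -/
noncomputable def RD.rX (d : RD) : RD :=
  if d.o then { d.rev with q := (2 - d.q.1 - d.L, d.q.2), s := -(d.s * d.η) }
  else { d with q := (1 - d.q.1, d.q.2), s := -d.s }

theorem RD.mem_D (d : RD) {v : ℤ × ℤ} : v ∈ d.D ↔
    if d.o then v.2 = d.q.2 ∧ d.q.1 ≤ v.1 ∧ v.1 < d.q.1 + d.L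
    else v.1 = d.q.1 ∧ d.q.2 ≤ v.2 ∧ v.2 < d.q.2 + d.L := by
  unfold RD.D
  rw [mem_image]
  cases ho : d.o
  · simp only [if_false, Bool.false_eq_true]
    constructor
    · rintro ⟨k, hk, rfl⟩
      rw [mem_range] at hk
      exact ⟨rfl, by show d.q.2 ≤ d.q.2 + k; omega, by show d.q.2 + k < d.q.2 + d.L; omega⟩
    · rintro ⟨h1, h2, h3⟩
      refine ⟨(v.2 - d.q.2).toNat, ?_, ?_⟩
      · rw [mem_range]; omega
      · apply Prod.ext
        · exact h1.symm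
        · show d.q.2 + ((v.2 - d.q.2).toNat : ℤ) = v.2
          omega
  · simp only [if_true]
    constructor
    · rintro ⟨k, hk, rfl⟩
      rw [mem_range] at hk
      exact ⟨rfl, by show d.q.1 ≤ d.q.1 + k; omega, by show d.q.1 + k < d.q.1 + d.L; omega⟩
    · rintro ⟨h1, h2, h3⟩
      refine ⟨(v.1 - d.q.1).toNat, ?_, ?_⟩
      · rw [mem_range]; omega
      · apply Prod.ext
        · show d.q.1 + ((v.1 - d.q.1).toNat : ℤ) = v.1
          omega
        · exact h1.symm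

/-- The index of a square of the row. -/
theorem RD.ix_mem {d : RD} {v : ℤ × ℤ} (h : v ∈ d.D) : 0 ≤ d.ix v ∧ d.ix v < d.L := by
  rw [RD.mem_D] at h
  unfold RD.ix
  cases ho : d.o
  · rw [ho] at h
    simp only [Bool.false_eq_true, if_false] at h ⊢
    omega
  · rw [ho] at h
    simp only [if_true] at h ⊢
    omega

variable {θ κ κ' : ℝ} {n : ℕ} {d : RD}

/-! ### translations -/

theorem RD.tr_D (d : RD) (v : ℤ × ℤ) : (d.tr v).D = d.D.image (· + v) := by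
  ext u
  rw [mem_image_add, RD.mem_D, RD.mem_D]
  show (if d.o then u.2 = d.q.2 + v.2 ∧ d.q.1 + v.1 ≤ u.1 ∧ u.1 < d.q.1 + v.1 + d.L
    else u.1 = d.q.1 + v.1 ∧ d.q.2 + v.2 ≤ u.2 ∧ u.2 < d.q.2 + v.2 + d.L) ↔
    if d.o then u.2 - v.2 = d.q.2 ∧ d.q.1 ≤ u.1 - v.1 ∧ u.1 - v.1 < d.q.1 + d.L
    else u.1 - v.1 = d.q.1 ∧ d.q.2 ≤ u.2 - v.2 ∧ u.2 - v.2 < d.q.2 + d.L
  split_ifs <;> constructor <;> rintro ⟨h1, h2, h3⟩ <;> exact ⟨by omega, by omega, by omega⟩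

theorem RD.tr_ix (d : RD) (v u : ℤ × ℤ) : (d.tr v).ix u = d.ix (u - v) := by
  unfold RD.ix
  show (if d.o then u.1 - (d.q.1 + v.1) else u.2 - (d.q.2 + v.2)) =
    if d.o then u.1 - v.1 - d.q.1 else u.2 - v.2 - d.q.2
  split_ifs <;> ring

theorem RD.wtr_wall (d : RD) (v : ℤ × ℤ) : wtr (d.wall θ) v = (d.tr v).wall θ := by
  unfold RD.wall
  rw [wtr_thk, RD.tr_D]
  refine thk_congr (fun u _ => ?_) fun u _ => ?_
  · unfold RD.Φ
    rw [RD.tr_ix]
    rfl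
  · unfold RD.ta
    rw [RD.tr_ix]
    exact (mul_assoc _ _ _).symm

theorem RD.Ok.tr (h : d.Ok θ κ n) (v : ℤ × ℤ) : (d.tr v).Ok θ κ n := by
  refine ⟨?_, h.len, h.jn⟩
  show par v * d.s = 1 ∨ par v * d.s = -1
  rcases par_cases v with h1 | h1 <;> rcases h.s with h2 | h2 <;> rw [h1, h2] <;> norm_num

/-! ### reflection in the diagonal -/

theorem RD.rD_D (d : RD) : d.rD.D = d.D.image rd := by
  ext u
  rw [mem_image_inv rd_rd, RD.mem_D, RD.mem_D]
  show (if (!d.o) = true then u.2 = d.q.1 ∧ d.q.2 ≤ u.1 ∧ u.1 < d.q.2 + d.L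
    else u.1 = d.q.2 ∧ d.q.1 ≤ u.2 ∧ u.2 < d.q.1 + d.L) ↔
    if d.o then u.1 = d.q.2 ∧ d.q.1 ≤ u.2 ∧ u.2 < d.q.1 + d.L
    else u.2 = d.q.1 ∧ d.q.2 ≤ u.1 ∧ u.1 < d.q.2 + d.L
  cases d.o <;> simp

theorem RD.rD_ix (d : RD) (u : ℤ × ℤ) : d.rD.ix u = d.ix (rd u) := by
  unfold RD.ix
  show (if (!d.o) = true then u.1 - d.q.2 else u.2 - d.q.1) =
    if d.o then u.2 - d.q.1 else u.1 - d.q.2
  cases d.o <;> simp

theorem RD.wrD_wall (d : RD) : wrD (d.wall θ) = d.rD.wall θ := by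
  unfold RD.wall
  rw [wrD_thk, RD.rD_D]
  refine thk_congr (fun u _ => ?_) fun u _ => ?_
  · unfold RD.Φ
    rw [RD.rD_ix]
    rfl
  · unfold RD.ta
    rw [RD.rD_ix]
    exact (neg_mul _ _).symm

theorem RD.Ok.rD (h : d.Ok θ κ n) : d.rD.Ok θ κ n := by
  refine ⟨?_, h.len, h.jn⟩
  show -d.s = 1 ∨ -d.s = -1
  rcases h.s with h2 | h2 <;> rw [h2] <;> norm_num

/-! ### reflection in the columns -/

theorem RD.rX_D (d : RD) : d.rX.D = d.D.image rx := by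
  ext u
  rw [mem_image_inv rx_rx, RD.mem_D, RD.mem_D]
  unfold RD.rX RD.rev
  cases ho : d.o
  · simp only [Bool.false_eq_true, if_false]
    show (u.1 = 1 - d.q.1 ∧ d.q.2 ≤ u.2 ∧ u.2 < d.q.2 + d.L) ↔
      1 - u.1 = d.q.1 ∧ d.q.2 ≤ u.2 ∧ u.2 < d.q.2 + d.L
    constructor <;> rintro ⟨h1, h2, h3⟩ <;> exact ⟨by omega, h2, h3⟩
  · simp only [if_true]
    show (u.2 = d.q.2 ∧ 2 - d.q.1 - d.L ≤ u.1 ∧ u.1 < 2 - d.q.1 - d.L + d.L) ↔
      u.2 = d.q.2 ∧ d.q.1 ≤ 1 - u.1 ∧ 1 - u.1 < d.q.1 + d.L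
    constructor <;> rintro ⟨h1, h2, h3⟩ <;> exact ⟨h1, by omega, by omega⟩

theorem RD.eta (h : d.Ok θ κ n) : d.η = 1 ∨ d.η = -1 := by
  rcases h.jn with h | ⟨-, -, -, h | h⟩
  · exact Or.inl h.2
  · exact Or.inr h.1
  · exact Or.inl h.1

/-- The junction is inside of the row, or there is none. -/
theorem RD.Ok.cs (h : d.Ok θ κ n) : (d.j = 0 ∧ d.η = 1) ∨ d.k0 ≤ d.L := by
  rcases h.jn with h | ⟨-, -, h, -⟩
  · exact Or.inl h
  · exact Or.inr h

theorem RD.wrX_wall (h : d.Ok θ κ n) : wrX (d.wall θ) = d.rX.wall θ := by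
  have hη := RD.eta h
  have hη2 : d.η * d.η = 1 := by rcases hη with h | h <;> rw [h] <;> norm_num
  unfold RD.wall
  rw [wrX_thk, RD.rX_D]
  have hz : d.rX.z = d.z := by
    unfold RD.rX RD.rev
    split_ifs <;> rfl
  rw [hz]
  cases ho : d.o
  · have hX : d.rX = { d with q := (1 - d.q.1, d.q.2), s := -d.s } := by
      unfold RD.rX
      rw [if_neg (by simp [ho])]
    rw [hX]
    refine thk_congr (fun u _ => ?_) fun u _ => ?_
    · unfold RD.Φ RD.ix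
      simp only [ho, Bool.false_eq_true, if_false]
      rfl
    · unfold RD.ta RD.ix
      simp only [ho, Bool.false_eq_true, if_false]
      show -(d.s * if (d.k0 : ℤ) ≤ u.2 - d.q.2 then d.η else 1) =
        -d.s * if (d.k0 : ℤ) ≤ u.2 - d.q.2 then d.η else 1
      ring
  · have hX : d.rX = ⟨true, (2 - d.q.1 - d.L, d.q.2), d.L, d.c + d.j, -d.j, d.L - d.k0,
        -(d.s * d.η), d.η, d.z⟩ := by
      unfold RD.rX RD.rev
      rw [if_pos ho, ho]
    rw [hX]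
    have hcase : ∀ u ∈ d.D.image rx, (d.j = 0 ∧ d.η = 1) ∨
        (((d.L - d.k0 : ℕ) : ℤ) ≤ u.1 - (2 - d.q.1 - d.L) ↔ ¬ (d.k0 : ℤ) ≤ 1 - u.1 - d.q.1) := by
      intro u hu
      rw [mem_image_inv rx_rx, RD.mem_D, if_pos ho] at hu
      have h1 : d.q.1 ≤ 1 - u.1 := hu.2.1
      have h2 : 1 - u.1 < d.q.1 + d.L := hu.2.2
      rcases h.cs with h3 | h3
      · exact Or.inl h3
      · right
        omega
    refine thk_congr (fun u hu => ?_) fun u hu => ?_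
    · unfold RD.Φ RD.ix
      simp only [ho, if_true]
      show d.c + (if (d.k0 : ℤ) ≤ 1 - u.1 - d.q.1 then d.j else 0) =
        d.c + d.j + if ((d.L - d.k0 : ℕ) : ℤ) ≤ u.1 - (2 - d.q.1 - d.L) then -d.j else 0
      rcases hcase u hu with h3 | h3
      · rw [h3.1, neg_zero, add_zero]
        split_ifs <;> ring
      · by_cases h4 : (d.k0 : ℤ) ≤ 1 - u.1 - d.q.1
        · rw [if_pos h4, if_neg fun h5 => h3.1 h5 h4]
          ring
        · rw [if_neg h4, if_pos (h3.2 h4)]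
          ring
    · unfold RD.ta RD.ix
      simp only [ho, if_true]
      show -(d.s * if (d.k0 : ℤ) ≤ 1 - u.1 - d.q.1 then d.η else 1) =
        -(d.s * d.η) * if ((d.L - d.k0 : ℕ) : ℤ) ≤ u.1 - (2 - d.q.1 - d.L) then d.η else 1
      rcases hcase u hu with h3 | h3
      · rw [h3.2]
        split_ifs <;> ring
      · by_cases h4 : (d.k0 : ℤ) ≤ 1 - u.1 - d.q.1
        · rw [if_pos h4, if_neg fun h5 => h3.1 h5 h4]
          ring
        · rw [if_neg h4, if_pos (h3.2 h4)]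
          linear_combination d.s * hη2

theorem RD.Ok.rX (h : d.Ok θ κ n) : d.rX.Ok θ κ n := by
  have hη := RD.eta h
  unfold RD.rX RD.rev
  cases ho : d.o
  · simp only [Bool.false_eq_true, if_false]
    refine ⟨?_, h.len, h.jn⟩
    show -d.s = 1 ∨ -d.s = -1
    rcases h.s with h2 | h2 <;> rw [h2] <;> norm_num
  · simp only [if_true]
    refine ⟨?_, h.len, ?_⟩
    · show -(d.s * d.η) = 1 ∨ -(d.s * d.η) = -1
      rcases h.s with h2 | h2 <;> rcases hη with h3 | h3 <;> rw [h2, h3] <;> norm_num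
    · show (-d.j = 0 ∧ d.η = 1) ∨ (κ * n ≤ ((d.L - d.k0 : ℕ) : ℝ) ∧
        ((d.L - d.k0 : ℕ) : ℝ) + κ * n ≤ d.L ∧ d.L - d.k0 ≤ d.L ∧
        ((d.η = -1 ∧ (|-d.j| = (Real.pi - θ) / 2 ∨ |-d.j| = (Real.pi - 3 * θ) / 2)) ∨
          (d.η = 1 ∧ |-d.j| = θ)))
      rw [abs_neg, neg_eq_zero]
      rcases h.jn with h1 | ⟨h1, h2, h3, h4⟩
      · exact Or.inl h1
      · right
        rw [Nat.cast_sub h3]
        exact ⟨by linarith, by linarith, Nat.sub_le _ _, h4⟩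

theorem RD.Ok.mono (h : d.Ok θ κ n) (hκ : κ' * n ≤ κ * n) : d.Ok θ κ' n :=
  ⟨h.s, hκ.trans h.len, h.jn.imp_right fun h1 => ⟨hκ.trans h1.1, by linarith [h1.2.1],
    h1.2.2.1, h1.2.2.2⟩⟩

/-! ### the class -/

/-- A normalisation of the rows which is invariant under translations and reflections. -/
structure ZInv (θ : ℝ) (Zf : ℕ → RD → ℝ) : Prop where
  tr : ∀ {κ : ℝ} {n : ℕ} {d : RD} (v : ℤ × ℤ), d.Ok θ κ n → Zf n (d.tr v) = Zf n d
  rD : ∀ {κ : ℝ} {n : ℕ} {d : RD}, d.Ok θ κ n → Zf n d.rD = Zf n d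
  rX : ∀ {κ : ℝ} {n : ℕ} {d : RD}, d.Ok θ κ n → Zf n d.rX = Zf n d

/-- **The class of thick walls** with the normalisation `Zf`. -/
noncomputable def clR (θ : ℝ) (Zf : ℕ → RD → ℝ) : Cls where
  P κ n w := ∃ d : RD, d.Ok θ κ n ∧ d.z = Zf n d ∧ w = d.wall θ
  Z _ w := w.z

theorem RD.rX_z (d : RD) : d.rX.z = d.z := by
  unfold RD.rX RD.rev
  split_ifs <;> rfl

/-- **The class is invariant.** -/
theorem clR_ok {Zf : ℕ → RD → ℝ} (hZ : ZInv θ Zf)
    (hpos : ∀ {κ : ℝ}, 0 < κ → ∀ᶠ n : ℕ in atTop, ∀ d : RD, d.Ok θ κ n → 0 < Zf n d) :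
    (clR θ Zf).Ok where
  mono := by
    rintro κ κ' n w h ⟨d, h1, h2, rfl⟩
    exact ⟨d, h1.mono h, h2, rfl⟩
  pos := by
    intro κ hκ
    filter_upwards [hpos hκ] with n hn w hw
    obtain ⟨d, h1, h2, rfl⟩ := hw
    show 0 < d.z
    rw [h2]
    exact hn d h1
  tr := by
    rintro κ n w v ⟨d, h1, h2, rfl⟩
    exact ⟨d.tr v, h1.tr v, h2.trans (hZ.tr v h1).symm, d.wtr_wall v⟩
  rD := by
    rintro κ n w ⟨d, h1, h2, rfl⟩
    exact ⟨d.rD, h1.rD, h2.trans (hZ.rD h1).symm, d.wrD_wall⟩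
  rX := by
    rintro κ κ' n w h ⟨d, h1, h2, rfl⟩
    exact ⟨d.rX, h1.rX.mono (by linarith), by rw [RD.rX_z, h2, hZ.rX h1], RD.wrX_wall h1⟩
  Ztr _ _ _ := rfl
  ZD _ := ⟨1, le_rfl, Eventually.of_forall fun _ w _ => (one_mul w.z).symm.le⟩
  ZX _ := ⟨1, le_rfl, Eventually.of_forall fun _ w _ => (one_mul w.z).symm.le⟩

end Vale.Agent.P167.H680.T
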