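import Vale.Agent.P167.H680.T.Orb
import Vale.Agent.P167.XDL.Strand

/-!
# P167, general `q`, block 2A: thick walls

`thk θ I Φ ta z`: the cut of all sides of the finite set `I` of squares. The raw outward phase (phase
of an arrow which points away from `I`) of a side of the square `v ∈ I` is `Φ v` plus the stagger
`± ta v (3 θ - π) / 4` (sign `+` iff the primal corner of the side is on the left looking outward);
`ta = 1` : closed (free), `ta = -1` : open (wired). The inner faces have the phase `0`.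
Raw phases are transported unchanged by translations and reflections, the colour is exchanged by
reflections and odd translations.
-/

namespace Vale.Agent.P167.H680.T

open Finset Filter Topology MeasureTheory
open Vale.Agent.P167.H592
open Vale.Agent.P167.H825 (dv epos)
open Vale.Agent.P167.H199 (shA thP)
open Vale.Agent.P167.XDL (bS mem_bS)

/-- The square at the half `b` of the medial edge `e`. -/
def sq : Ed → Bool → ℤ × ℤ
  | Sum.inl v, b => if b then (v.1 + 1, v.2) else v
  | Sum.inr v, b => if b then (v.1, v.2 + 1) else v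

/-- Sign of the half arrow. -/
def sgb (b : Bool) : ℝ := if b then 1 else -1

theorem mem_bS_sq {D : Finset (ℤ × ℤ)} {e : Ed} : e ∈ bS D ↔
    (sq e true ∈ D ∧ sq e false ∉ D) ∨ (sq e true ∉ D ∧ sq e false ∈ D) := by
  rw [mem_bS]
  rcases e with v | v <;> by_cases h : Even (v.1 + v.2) <;> simp [hdv, tlv, sq, h] <;> tauto

/-- **Thick walls.** -/
noncomputable def thk (θ : ℝ) (I : Finset (ℤ × ℤ)) (Φ ta : ℤ × ℤ → ℝ) (z : ℝ) : WallG where
  S := bS I
  a e b := if e ∈ bS I then (if sq e b ∈ I then 0 else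
    sgb b * Φ (sq e (!b)) + (sg e : ℝ) * ta (sq e (!b)) * ((3 * θ - Real.pi) / 4)) else 0
  off e he := by
    funext b
    exact if_neg he
  z := z

variable {θ : ℝ} {I : Finset (ℤ × ℤ)} {Φ ta Φ' ta' : ℤ × ℤ → ℝ} {z : ℝ}

theorem thk_congr (h1 : ∀ v ∈ I, Φ v = Φ' v) (h2 : ∀ v ∈ I, ta v = ta' v) :
    thk θ I Φ ta z = thk θ I Φ' ta' z := by
  refine WallG.ext rfl ?_ rfl
  funext e b
  show (if e ∈ bS I then (if sq e b ∈ I then 0 else
      sgb b * Φ (sq e (!b)) + (sg e : ℝ) * ta (sq e (!b)) * ((3 * θ - Real.pi) / 4)) else 0) =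
    (if e ∈ bS I then (if sq e b ∈ I then 0 else
      sgb b * Φ' (sq e (!b)) + (sg e : ℝ) * ta' (sq e (!b)) * ((3 * θ - Real.pi) / 4)) else 0)
  by_cases he : e ∈ bS I
  · rw [if_pos he, if_pos he]
    by_cases hb : sq e b ∈ I
    · rw [if_pos hb, if_pos hb]
    · rw [if_neg hb, if_neg hb]
      have hv : sq e (!b) ∈ I := by
        rw [mem_bS_sq] at he
        cases b
        · exact he.resolve_right (fun h => hb h.2) |>.1
        · exact he.resolve_left (fun h => hb h.1) |>.2
      rw [h1 _ hv, h2 _ hv]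
  · rw [if_neg he, if_neg he]

/-! ### images -/

theorem mem_image_inv {r : ℤ × ℤ → ℤ × ℤ} (hr : ∀ v, r (r v) = v) {u : ℤ × ℤ} :
    u ∈ I.image r ↔ r u ∈ I := by
  rw [mem_image]
  constructor
  · rintro ⟨w, h, rfl⟩
    rwa [hr]
  · intro h
    exact ⟨_, h, hr u⟩

theorem mem_image_add {v u : ℤ × ℤ} : u ∈ I.image (· + v) ↔ u - v ∈ I := by
  rw [mem_image]
  constructor
  · rintro ⟨w, h, rfl⟩
    rwa [add_sub_cancel_right]
  · intro h
    exact ⟨_, h, sub_add_cancel u v⟩

theorem sq_sh (v : ℤ × ℤ) (e : Ed) (b : Bool) : sq (shE v e) b = sq e b + v := by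
  rcases e with u | u
  · cases b
    · rfl
    · show ((u + v).1 + 1, (u + v).2) = (u.1 + 1, u.2) + v
      apply Prod.ext
      · show u.1 + v.1 + 1 = u.1 + 1 + v.1
        ring
      · rfl
  · cases b
    · rfl
    · show ((u + v).1, (u + v).2 + 1) = (u.1, u.2 + 1) + v
      apply Prod.ext
      · rfl
      · show u.2 + v.2 + 1 = u.2 + 1 + v.2
        ring

/-- The sign of a site. -/
def par (v : ℤ × ℤ) : ℝ := if Even (v.1 + v.2) then 1 else -1

theorem par_mul (v : ℤ × ℤ) : par v * par v = 1 := by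
  unfold par
  split_ifs <;> norm_num

theorem par_cases (v : ℤ × ℤ) : par v = 1 ∨ par v = -1 := by
  unfold par
  split_ifs
  · exact Or.inl rfl
  · exact Or.inr rfl

theorem sg_inl (v : ℤ × ℤ) : ((sg (Sum.inl v) : ℤ) : ℝ) = par v := by
  show (((if Even (v.1 + v.2) then 1 else -1 : ℤ) : ℤ) : ℝ) = _
  unfold par
  split_ifs <;> norm_num

theorem sg_inr (v : ℤ × ℤ) : ((sg (Sum.inr v) : ℤ) : ℝ) = -par v := by
  show (((if Even (v.1 + v.2) then -1 else 1 : ℤ) : ℤ) : ℝ) = _
  unfold par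
  split_ifs <;> norm_num

theorem par_add (u v : ℤ × ℤ) : par (u + v) = par u * par v := by
  have h : (u + v).1 + (u + v).2 = (u.1 + u.2) + (v.1 + v.2) := by
    show u.1 + v.1 + (u.2 + v.2) = _
    ring
  unfold par
  rw [h]
  by_cases h1 : Even (u.1 + u.2)
  · by_cases h2 : Even (v.1 + v.2)
    · rw [if_pos (Int.even_add.2 (iff_of_true h1 h2)), if_pos h1, if_pos h2, one_mul]
    · rw [if_neg fun h => h2 ((Int.even_add.1 h).1 h1), if_pos h1, if_neg h2, one_mul]
  · by_cases h2 : Even (v.1 + v.2)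
    · rw [if_neg fun h => h1 ((Int.even_add.1 h).2 h2), if_neg h1, if_pos h2, mul_one]
    · rw [if_pos (Int.even_add.2 (iff_of_false h1 h2)), if_neg h1, if_neg h2]
      norm_num

theorem par_neg (v : ℤ × ℤ) : par (-v) = par v := by
  have h : (-v).1 + (-v).2 = -(v.1 + v.2) := by
    show -v.1 + -v.2 = _
    ring
  unfold par
  rw [h]
  simp only [even_neg]

theorem sg_sh (v : ℤ × ℤ) (e : Ed) : ((sg (shE v e) : ℤ) : ℝ) = par v * sg e := by
  rcases e with u | u
  · show ((sg (Sum.inl (u + v)) : ℤ) : ℝ) = _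
    rw [sg_inl, sg_inl, par_add, mul_comm]
  · show ((sg (Sum.inr (u + v)) : ℤ) : ℝ) = _
    rw [sg_inr, sg_inr, par_add]
    ring

theorem wtr_thk (v : ℤ × ℤ) : wtr (thk θ I Φ ta z) v =
    thk θ (I.image (· + v)) (fun u => Φ (u - v)) (fun u => par v * ta (u - v)) z := by
  have key : ∀ e b, sq (shE (-v) e) b = sq e b - v := fun e b => by
    rw [sq_sh, sub_eq_add_neg]
  have hS : ∀ e, e ∈ bS (I.image (· + v)) ↔ shE (-v) e ∈ bS I := by
    intro e
    rw [mem_bS_sq, mem_bS_sq, key, key]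
    simp only [mem_image_add]
  refine WallG.ext ?_ ?_ rfl
  · show (bS I).image (shE v) = bS (I.image (· + v))
    ext e
    rw [hS, mem_image]
    constructor
    · rintro ⟨e, he, rfl⟩
      rwa [shE_shE, neg_add_cancel, shE_zero]
    · intro he
      exact ⟨_, he, by rw [shE_shE, add_neg_cancel, shE_zero]⟩
  · funext e b
    show (if shE (-v) e ∈ bS I then (if sq (shE (-v) e) b ∈ I then 0 else
        sgb b * Φ (sq (shE (-v) e) (!b)) + (sg (shE (-v) e) : ℝ) * ta (sq (shE (-v) e) (!b)) *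
          ((3 * θ - Real.pi) / 4)) else 0) =
      if e ∈ bS (I.image (· + v)) then (if sq e b ∈ I.image (· + v) then 0 else
        sgb b * Φ (sq e (!b) - v) + (sg e : ℝ) * (par v * ta (sq e (!b) - v)) *
          ((3 * θ - Real.pi) / 4)) else 0
    simp only [hS, key, mem_image_add, sg_sh, par_neg]
    split_ifs <;> ring

theorem wrf_thk {P : Rf (ℤ × ℤ)} {l : ℤ × ℤ → ℤ × ℤ} (hP : P.Lin l) {r : ℤ × ℤ → ℤ × ℤ}
    (hr : ∀ v, r (r v) = v) (hsq : ∀ e b, sq (P.ρ e) (xor (P.t e) b) = r (sq e b))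
    (hst : ∀ e, P.t e = !P.s e)
    (hsg : ∀ e, (if P.s e then 1 else -1 : ℝ) * (sg (P.ρ e) : ℝ) = -(sg e : ℝ)) :
    wrf hP (thk θ I Φ ta z) =
      thk θ (I.image r) (fun u => Φ (r u)) (fun u => -ta (r u)) z := by
  have hS : ∀ e, e ∈ bS (I.image r) ↔ P.ρ e ∈ bS I := by
    intro e
    rw [mem_bS_sq, mem_bS_sq]
    simp only [mem_image_inv hr, ← hsq]
    cases P.t e
    · rfl
    · simp only [Bool.true_xor, Bool.not_true, Bool.not_false]
      tauto
  refine WallG.ext ?_ ?_ rfl
  · show (bS I).image P.ρ = bS (I.image r)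
    ext e
    rw [hS, mem_image]
    constructor
    · rintro ⟨e, he, rfl⟩
      rwa [hP.ok.ρρ]
    · intro he
      exact ⟨_, he, hP.ok.ρρ e⟩
  · funext e b
    show (if P.s e then 1 else -1) * (if P.ρ e ∈ bS I then
        (if sq (P.ρ e) (xor (P.t e) b) ∈ I then 0 else
        sgb (xor (P.t e) b) * Φ (sq (P.ρ e) (!(xor (P.t e) b))) +
          (sg (P.ρ e) : ℝ) * ta (sq (P.ρ e) (!(xor (P.t e) b))) * ((3 * θ - Real.pi) / 4)) else 0) =
      if e ∈ bS (I.image r) then (if sq e b ∈ I.image r then 0 else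
        sgb b * Φ (r (sq e (!b))) + (sg e : ℝ) * (-ta (r (sq e (!b)))) *
          ((3 * θ - Real.pi) / 4)) else 0
    have h1 : (!(xor (P.t e) b)) = xor (P.t e) (!b) := by cases P.t e <;> cases b <;> rfl
    have h2 : (if P.s e then 1 else -1 : ℝ) * sgb (xor (P.t e) b) = sgb b := by
      rw [hst e]
      cases P.s e <;> cases b <;> simp [sgb]
    simp only [hS, mem_image_inv hr, ← hsq, h1]
    by_cases he : P.ρ e ∈ bS I
    · rw [if_pos he, if_pos he]
      by_cases hb : sq (P.ρ e) (xor (P.t e) b) ∈ I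
      · rw [if_pos hb, if_pos hb, mul_zero]
      · rw [if_neg hb, if_neg hb, mul_add, ← mul_assoc, h2]
        have h3 := hsg e
        congr 1
        linear_combination (ta (sq (P.ρ e) (xor (P.t e) (!b))) * ((3 * θ - Real.pi) / 4)) * h3
    · rw [if_neg he, if_neg he, mul_zero]

/-- Reflection of the squares in the columns. -/
def rx (v : ℤ × ℤ) : ℤ × ℤ := (1 - v.1, v.2)

/-- Reflection of the squares in the diagonal. -/
def rd (v : ℤ × ℤ) : ℤ × ℤ := (v.2, v.1)

theorem rx_rx (v : ℤ × ℤ) : rx (rx v) = v := by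
  apply Prod.ext
  · show 1 - (1 - v.1) = v.1
    ring
  · rfl

theorem rd_rd (v : ℤ × ℤ) : rd (rd v) = v := rfl

theorem par_rx (v : ℤ × ℤ) : par (rx v) = -par v := by
  have h : Even ((rx v).1 + (rx v).2) ↔ ¬ Even (v.1 + v.2) := by
    show Even (1 - v.1 + v.2) ↔ _
    rw [Int.even_add, Int.even_add, Int.even_sub]
    simp only [Int.not_even_one, false_iff]
    tauto
  unfold par
  by_cases h1 : Even (v.1 + v.2)
  · rw [if_pos h1, if_neg fun h2 => h.1 h2 h1]
  · rw [if_neg h1, if_pos (h.2 h1), neg_neg]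

theorem wrX_thk : wrX (thk θ I Φ ta z) =
    thk θ (I.image rx) (fun u => Φ (rx u)) (fun u => -ta (rx u)) z := by
  refine wrf_thk rX_lin rx_rx ?_ (fun e => by rcases e with v | v <;> rfl) ?_
  · intro e b
    rcases e with u | u
    · cases b
      · show ((-u.1 + 1, u.2) : ℤ × ℤ) = (1 - u.1, u.2)
        congr 1
        ring
      · show ((-u.1, u.2) : ℤ × ℤ) = (1 - (u.1 + 1), u.2)
        congr 1
        ring
    · cases b <;> rfl
  · intro e
    rcases e with u | u
    · show (if false then 1 else -1 : ℝ) * ((sg (Sum.inl (-u.1, u.2)) : ℤ) : ℝ) =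
        -((sg (Sum.inl u) : ℤ) : ℝ)
      rw [sg_inl, sg_inl]
      have h : par (-u.1, u.2) = par u := by
        have h0 : Even (-u.1 + u.2) ↔ Even (u.1 + u.2) := by
          rw [Int.even_add, Int.even_add, even_neg]
        unfold par
        simp only [h0]
      rw [h]
      simp
    · show (if true then 1 else -1 : ℝ) * ((sg (Sum.inr (rx u)) : ℤ) : ℝ) =
        -((sg (Sum.inr u) : ℤ) : ℝ)
      rw [sg_inr, sg_inr, par_rx]
      simp

theorem wrD_thk : wrD (thk θ I Φ ta z) =
    thk θ (I.image rd) (fun u => Φ (rd u)) (fun u => -ta (rd u)) z := by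
  have hp : ∀ u : ℤ × ℤ, par (rd u) = par u := by
    intro u
    unfold par
    have : (rd u).1 + (rd u).2 = u.1 + u.2 := add_comm u.2 u.1
    rw [this]
  refine wrf_thk rD_lin rd_rd ?_ (fun e => by rcases e with v | v <;> rfl) ?_
  · intro e b
    rcases e with u | u <;> cases b <;> rfl
  · intro e
    rcases e with u | u
    · show (if true then 1 else -1 : ℝ) * ((sg (Sum.inr (rd u)) : ℤ) : ℝ) =
        -((sg (Sum.inl u) : ℤ) : ℝ)
      rw [sg_inr, sg_inl, hp]
      simp
    · show (if true then 1 else -1 : ℝ) * ((sg (Sum.inl (rd u)) : ℤ) : ℝ) =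
        -((sg (Sum.inr u) : ℤ) : ℝ)
      rw [sg_inr, sg_inl, hp]
      simp

end Vale.Agent.P167.H680.T
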