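import Vale.Agent.P167.H680.Q.Wall

/-!
# P167, general `q`, block 2A: walls of arbitrary shape

A wall is a finite set of cut edges with arbitrary phases of the half arrows; a configuration is a
finite family of walls and a flow. Sums, translations, reflections, admissibility.
-/

namespace Vale.Agent.P167.H680.T

open Finset Filter Topology MeasureTheory
open Vale.Agent.P167.H592
open Vale.Agent.P167.H825 (dv epos gX gY gD gA)
open Vale.Agent.P167.H199 (Fs exO phO exO_eq phO_eq phO_add phO_zero shA thP cP cP_supp cP_fc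
  cP_abs epos_rD epos_rX epos_mem rp nm_rp nm_rp_sub nm_add nm_swap nm_neg nm_fst nm_snd nm_le
  swap_sub' dv_tr dv_mD dv_mX dv_sum npos_of nm_smul_le)
open Vale.Agent.P167.H680.Q (insP insP_congr insP_mul insP_one insP_prod insP_sh insP_th)
open Vale.Agent.P152 (Edge Ori vw wt)

/-- A wall: a finite set of cut edges, phases of the half arrows and a number `z` (a label which is
kept by translations and reflections; used for the normalisation). -/
@[ext] structure WallG where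
  S : Finset Ed
  a : Ed → Bool → ℝ
  off : ∀ e ∉ S, a e = 0
  z : ℝ

/-- translations -/
def wtr (w : WallG) (v : ℤ × ℤ) : WallG where
  S := w.S.image (shE v)
  a := shA v w.a
  off e he := by
    show w.a (shE (-v) e) = 0
    refine w.off _ fun h => he (mem_image.2 ⟨_, h, ?_⟩)
    rw [shE_shE, add_neg_cancel, shE_zero]
  z := w.z

variable {P : Rf (ℤ × ℤ)} {l : ℤ × ℤ → ℤ × ℤ}

/-- The image of a wall under a reflection. -/
noncomputable def wrf {P : Rf (ℤ × ℤ)} {l : ℤ × ℤ → ℤ × ℤ} (hP : P.Lin l) (w : WallG) : WallG where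
  S := w.S.image P.ρ
  a := thP P w.a
  off e he := by
    funext b
    show (if P.s e then 1 else -1) * w.a (P.ρ e) (xor (P.t e) b) = 0
    rw [w.off _ fun h => he (mem_image.2 ⟨_, h, hP.ok.ρρ e⟩)]
    simp
  z := w.z

/-- reflection in the diagonal -/
noncomputable def wrD (w : WallG) : WallG := wrf rD_lin w

/-- reflection in the columns -/
noncomputable def wrX (w : WallG) : WallG := wrf rX_lin w

/-- Walls and a flow. -/
structure WCG (ι : Type) where
  w : ι → WallG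
  c : Ed → ℝ

variable {ι : Type} [Fintype ι]

/-- All cut edges. -/
def WCG.S (W : WCG ι) : Finset Ed := univ.biUnion fun i => (W.w i).S

/-- All phases. -/
noncomputable def WCG.ph (W : WCG ι) (e : Ed) (b : Bool) : ℝ :=
  ∑ i, (W.w i).a e b + W.c e / 2

/-- finitely supported flow -/
def Fc {ι : Type} (W : WCG ι) : Prop := (Function.support W.c).Finite

theorem mem_S_iff {W : WCG ι} {e : Ed} : e ∈ W.S ↔ ∃ i, e ∈ (W.w i).S := by
  simp [WCG.S]

theorem ph_off {W : WCG ι} {e : Ed} (h1 : e ∉ W.S) (h2 : W.c e = 0) : W.ph e = 0 := by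
  funext b
  have h1 : ∀ i, (W.w i).a e = 0 := fun i => (W.w i).off e fun h => h1 (mem_S_iff.2 ⟨i, h⟩)
  show ∑ i, (W.w i).a e b + W.c e / 2 = 0
  rw [sum_eq_zero fun i _ => by rw [h1 i]; rfl, h2]
  simp

theorem fs_ph {W : WCG ι} (hc : Fc W) : Fs W.ph := by
  classical
  refine Fs.of (E := W.S ∪ Set.Finite.toFinset hc) fun e he => ?_
  refine ph_off (fun h => he (mem_union_left _ h)) ?_
  by_contra hn
  exact he (mem_union_right _ ((Set.Finite.mem_toFinset hc).2 hn))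

/-- **The insertion of a configuration of walls.** -/
noncomputable def insW (W : WCG ι) (hc : Fc W) : LIns := insP W.S W.ph (fs_ph hc)

theorem insW_S (W : WCG ι) (hc : Fc W) : (insW W hc).1.S = W.S := rfl

theorem insW_congr {W W' : WCG ι} (h : W = W') (hc : Fc W) (hc' : Fc W') :
    insW W hc = insW W' hc' := by
  subst h
  rfl

/-- Support of the insertion. -/
theorem insW_LI {K : Set (ℤ × ℤ)} {W : WCG ι} (hc : Fc W) (hS : ∀ e ∈ W.S, e ∈ EdT K)
    (hK : ∀ e, W.c e ≠ 0 → e ∈ EdT K) : LI K (insW W hc).1 := by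
  classical
  refine ⟨W.S ∪ Set.Finite.toFinset hc, ?_, subset_union_left, ?_⟩
  · intro e he
    rcases mem_union.1 he with he | he
    · exact hS e he
    · exact hK e ((Set.Finite.mem_toFinset hc).1 he)
  · intro ω ω' h
    show phO W.ph ω = phO W.ph ω'
    unfold phO
    have h0 : ∀ e ∉ W.S ∪ Set.Finite.toFinset hc, W.ph e = 0 := by
      intro e he
      refine ph_off (fun h => he (mem_union_left _ h)) ?_
      by_contra hn
      exact he (mem_union_right _ ((Set.Finite.mem_toFinset hc).2 hn))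
    rw [exO_eq h0, exO_eq h0]
    congr 3
    refine sum_congr rfl fun e he => ?_
    rw [h e he]

/-! ### sums -/

section sig

variable {I : Type} [Fintype I] {κ : I → Type} [∀ i, Fintype (κ i)]

/-- The union of a family of configurations. -/
noncomputable def sig {I : Type} [Fintype I] {κ : I → Type} (W : ∀ i, WCG (κ i)) :
    WCG (Σ i, κ i) :=
  ⟨fun x => (W x.1).w x.2, fun e => ∑ i, (W i).c e⟩

theorem sig_S (W : ∀ i, WCG (κ i)) : (sig W).S = univ.biUnion fun i => (W i).S := by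
  ext e
  rw [mem_S_iff, mem_biUnion]
  constructor
  · rintro ⟨⟨i, j⟩, h⟩
    exact ⟨i, mem_univ _, mem_S_iff.2 ⟨j, h⟩⟩
  · rintro ⟨i, _, h⟩
    obtain ⟨j, h⟩ := mem_S_iff.1 h
    exact ⟨⟨i, j⟩, h⟩

theorem sig_ph (W : ∀ i, WCG (κ i)) : (sig W).ph = ∑ i, (W i).ph := by
  funext e b
  rw [Finset.sum_apply, Finset.sum_apply]
  show ∑ x : Σ i, κ i, ((W x.1).w x.2).a e b + (∑ i, (W i).c e) / 2 =
    ∑ i, (∑ j, ((W i).w j).a e b + (W i).c e / 2)
  rw [Fintype.sum_sigma, sum_add_distrib, sum_div]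

theorem sig_fc {I : Type} [Fintype I] {κ : I → Type} {W : ∀ i, WCG (κ i)}
    (hc : ∀ i, Fc (W i)) : Fc (sig W) := by
  refine (Set.finite_iUnion hc).subset fun e he => ?_
  rw [Set.mem_iUnion]
  by_contra hn
  push Not at hn
  apply he
  show ∑ i, (W i).c e = 0
  exact sum_eq_zero fun i _ => by
    have := hn i
    simpa [Function.mem_support] using this

/-- **Products of insertions.** -/
theorem insW_sig [DecidableEq I] (W : ∀ i, WCG (κ i)) (hc : ∀ i, Fc (W i)) :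
    insW (sig W) (sig_fc hc) = ∏ i, insW (W i) (hc i) := by
  unfold insW
  have h' : Fs (∑ i, (W i).ph) := by rw [← sig_ph]; exact fs_ph (sig_fc hc)
  rw [← insP_prod univ (fun i => (W i).S) (fun i => (W i).ph) (fun i => fs_ph (hc i)) h']
  exact insP_congr (sig_S W) (sig_ph W) _ _

end sig

/-- Products over a finite set of indices. -/
theorem insW_sig_coe {I : Type} [DecidableEq I] {κ : I → Type} [∀ i, Fintype (κ i)]
    (A : Finset I) (W : ∀ i, WCG (κ i)) (hc : ∀ i, Fc (W i)) :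
    insW (sig fun i : A => W i) (sig_fc fun i : A => hc i) = ∏ i ∈ A, insW (W i) (hc i) := by
  rw [insW_sig (fun i : A => W i) (fun i => hc i)]
  exact prod_coe_sort A fun i => insW (W i) (hc i)

/-! ### binary sums -/

/-- The union of two configurations. -/
noncomputable def add2 {ι ι' : Type} (W : WCG ι) (W' : WCG ι') : WCG (ι ⊕ ι') :=
  ⟨Sum.elim W.w W'.w, fun e => W.c e + W'.c e⟩

section add2

variable {ι ι' : Type} [Fintype ι] [Fintype ι']

theorem add2_S (W : WCG ι) (W' : WCG ι') : (add2 W W').S = W.S ∪ W'.S := by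
  ext e
  rw [mem_S_iff, mem_union, mem_S_iff, mem_S_iff]
  constructor
  · rintro ⟨i | i, h⟩
    · exact Or.inl ⟨i, h⟩
    · exact Or.inr ⟨i, h⟩
  · rintro (⟨i, h⟩ | ⟨i, h⟩)
    · exact ⟨Sum.inl i, h⟩
    · exact ⟨Sum.inr i, h⟩

theorem add2_ph (W : WCG ι) (W' : WCG ι') : (add2 W W').ph = W.ph + W'.ph := by
  funext e b
  show ∑ i : ι ⊕ ι', (Sum.elim W.w W'.w i).a e b + (W.c e + W'.c e) / 2 =
    (∑ i, (W.w i).a e b + W.c e / 2) + (∑ i, (W'.w i).a e b + W'.c e / 2)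
  rw [Fintype.sum_sum_type]
  simp only [Sum.elim_inl, Sum.elim_inr]
  ring

theorem add2_fc {ι ι' : Type} {W : WCG ι} {W' : WCG ι'} (hc : Fc W) (hc' : Fc W') :
    Fc (add2 W W') := by
  refine (Set.Finite.union hc hc').subset fun e he => ?_
  by_contra hn
  rw [Set.mem_union, not_or] at hn
  apply he
  have h1 : W.c e = 0 := by simpa [Function.mem_support] using hn.1
  have h2 : W'.c e = 0 := by simpa [Function.mem_support] using hn.2
  show W.c e + W'.c e = 0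
  rw [h1, h2, add_zero]

theorem insW_add2 {W : WCG ι} {W' : WCG ι'} (hc : Fc W) (hc' : Fc W') :
    insW (add2 W W') (add2_fc hc hc') = insW W hc * insW W' hc' := by
  unfold insW
  rw [← insP_mul]
  exact insP_congr (add2_S W W') (add2_ph W W') _ _

end add2

/-! ### translations and reflections -/

/-- translations -/
noncomputable def tr {ι : Type} (W : WCG ι) (v : ℤ × ℤ) : WCG ι :=
  ⟨fun i => wtr (W.w i) v, fun e => W.c (shE (-v) e)⟩

theorem tr_S (W : WCG ι) (v : ℤ × ℤ) : (tr W v).S = W.S.image (shE v) := by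
  unfold WCG.S
  rw [biUnion_image]
  rfl

theorem tr_ph (W : WCG ι) (v : ℤ × ℤ) : (tr W v).ph = shA v W.ph := rfl

theorem tr_fc {ι : Type} {W : WCG ι} (hc : Fc W) (v : ℤ × ℤ) : Fc (tr W v) := by
  refine (Set.Finite.image (shE v) hc).subset fun e he => ⟨shE (-v) e, he, ?_⟩
  rw [shE_shE, add_neg_cancel, shE_zero]

theorem insW_tr (W : WCG ι) (hc : Fc W) (v : ℤ × ℤ) :
    insW (tr W v) (tr_fc hc v) = LIns.sh v (insW W hc) := by
  unfold insW
  rw [← insP_sh]
  exact insP_congr (tr_S W v) (tr_ph W v) _ _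

/-- The image of a configuration under a reflection. -/
noncomputable def mP {ι : Type} {P : Rf (ℤ × ℤ)} {l : ℤ × ℤ → ℤ × ℤ} (hP : P.Lin l) (W : WCG ι) :
    WCG ι := ⟨fun i => wrf hP (W.w i), cP P W.c⟩

theorem mP_S (hP : P.Lin l) (W : WCG ι) : (mP hP W).S = W.S.image P.ρ := by
  unfold WCG.S
  rw [biUnion_image]
  rfl

theorem mP_ph (hP : P.Lin l) (W : WCG ι) : (mP hP W).ph = thP P W.ph := by
  funext e b
  show ∑ i, (if P.s e then (1 : ℝ) else -1) * (W.w i).a (P.ρ e) (xor (P.t e) b) + cP P W.c e / 2 =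
    (if P.s e then 1 else -1) * (∑ i, (W.w i).a (P.ρ e) (xor (P.t e) b) + W.c (P.ρ e) / 2)
  rw [mul_add, mul_sum]
  congr 1
  show (if P.s e then (1 : ℝ) else -1) * W.c (P.ρ e) / 2 = _
  ring

theorem mP_fc {ι : Type} {W : WCG ι} (hP : P.Lin l) (hc : Fc W) : Fc (mP hP W) := cP_fc hP hc

theorem insW_mP (hP : P.Lin l) (W : WCG ι) (hc : Fc W) :
    insW (mP hP W) (mP_fc hP hc) = LIns.th hP (insW W hc) := by
  unfold insW
  rw [← insP_th hP]
  exact insP_congr (mP_S hP W) (mP_ph hP W) _ _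

/-- reflection in the columns -/
noncomputable def mX {ι : Type} (W : WCG ι) : WCG ι := mP rX_lin W

/-- reflection in the diagonal -/
noncomputable def mD {ι : Type} (W : WCG ι) : WCG ι := mP rD_lin W

theorem mX_fc {ι : Type} {W : WCG ι} (hc : Fc W) : Fc (mX W) := mP_fc rX_lin hc

theorem mD_fc {ι : Type} {W : WCG ι} (hc : Fc W) : Fc (mD W) := mP_fc rD_lin hc

theorem insW_mX (W : WCG ι) (hc : Fc W) : insW (mX W) (mX_fc hc) = LIns.th rX_lin (insW W hc) :=
  insW_mP rX_lin W hc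

theorem insW_mD (W : WCG ι) (hc : Fc W) : insW (mD W) (mD_fc hc) = LIns.th rD_lin (insW W hc) :=
  insW_mP rD_lin W hc

/-- The four reflections. -/
noncomputable def rfX {ι : Type} (m : ℤ) (W : WCG ι) : WCG ι := tr (mX W) (m • gX.s)
/-- The four reflections. -/
noncomputable def rfD {ι : Type} (m : ℤ) (W : WCG ι) : WCG ι := tr (mD W) (m • gD.s)
/-- The four reflections. -/
noncomputable def rfY {ι : Type} (m : ℤ) (W : WCG ι) : WCG ι := tr (mD (mX (mD W))) (m • gY.s)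
/-- The four reflections. -/
noncomputable def rfA {ι : Type} (m : ℤ) (W : WCG ι) : WCG ι := tr (mX (mD (mX W))) (m • gA.s)

theorem rfX_fc {ι : Type} {W : WCG ι} (hc : Fc W) (m : ℤ) : Fc (rfX m W) := tr_fc (mX_fc hc) _
theorem rfD_fc {ι : Type} {W : WCG ι} (hc : Fc W) (m : ℤ) : Fc (rfD m W) := tr_fc (mD_fc hc) _
theorem rfY_fc {ι : Type} {W : WCG ι} (hc : Fc W) (m : ℤ) : Fc (rfY m W) :=
  tr_fc (mD_fc (mX_fc (mD_fc hc))) _
theorem rfA_fc {ι : Type} {W : WCG ι} (hc : Fc W) (m : ℤ) : Fc (rfA m W) :=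
  tr_fc (mX_fc (mD_fc (mX_fc hc))) _

theorem insW_rfX (W : WCG ι) (hc : Fc W) (m : ℤ) : insW (rfX m W) (rfX_fc hc m) =
    LIns.sh (m • gX.s) (LIns.th rX_lin (insW W hc)) := by
  unfold rfX
  rw [insW_tr _ (mX_fc hc), insW_mX _ hc]

theorem insW_rfD (W : WCG ι) (hc : Fc W) (m : ℤ) : insW (rfD m W) (rfD_fc hc m) =
    LIns.sh (m • gD.s) (LIns.th rD_lin (insW W hc)) := by
  unfold rfD
  rw [insW_tr _ (mD_fc hc), insW_mD _ hc]

theorem insW_rfY (W : WCG ι) (hc : Fc W) (m : ℤ) : insW (rfY m W) (rfY_fc hc m) =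
    LIns.sh (m • gY.s) (thY (insW W hc)) := by
  unfold rfY thY
  rw [insW_tr _ (mD_fc (mX_fc (mD_fc hc))), insW_mD _ (mX_fc (mD_fc hc)), insW_mX _ (mD_fc hc),
    insW_mD _ hc]

theorem insW_rfA (W : WCG ι) (hc : Fc W) (m : ℤ) : insW (rfA m W) (rfA_fc hc m) =
    LIns.sh (m • gA.s) (thA (insW W hc)) := by
  unfold rfA thA
  rw [insW_tr _ (mX_fc (mD_fc (mX_fc hc))), insW_mX _ (mD_fc (mX_fc hc)), insW_mD _ (mX_fc hc),
    insW_mX _ hc]

/-! ### admissibility -/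

/-- Admissible configurations at scale `n`: the walls are in a box, the walls and the flow are at
mutual distance `κ n`, bounds for the flow and its charges. -/
structure WCG.Adm {ι : Type} (W : WCG ι) (κ R B : ℝ) (n : ℕ) : Prop where
  box : ∀ i, ∀ e ∈ (W.w i).S, (nm (epos e) : ℝ) ≤ R * n
  sep : ∀ i i', i ≠ i' → ∀ e ∈ (W.w i).S, ∀ e' ∈ (W.w i').S,
    κ * n ≤ (nm (epos e - epos e') : ℝ)
  csup : ∀ e, W.c e ≠ 0 → (nm (epos e) : ℝ) ≤ R * n ∧
    ∀ i, ∀ e' ∈ (W.w i).S, κ * n ≤ (nm (epos e - epos e') : ℝ)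
  cle : ∀ e, |W.c e| ≤ B / n
  dle : ∀ z, |dv W.c z| ≤ B / n ^ 2

/-- Positions of the cut edges and of the flow. -/
def pts {ι : Type} (W : WCG ι) : Set (ℤ × ℤ) :=
  {v | (∃ i, ∃ e ∈ (W.w i).S, epos e = v) ∨ ∃ e, W.c e ≠ 0 ∧ epos e = v}

section adm

variable {ι : Type} {W : WCG ι} {κ κ' R R' B B' : ℝ} {n : ℕ}

theorem Adm.mono (h : W.Adm κ R B n) (hκ : κ' * n ≤ κ * n) (hR : R * n ≤ R' * n) (hB : B ≤ B') :
    W.Adm κ' R' B' n where
  box i e he := (h.box i e he).trans hR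
  sep i i' hi e he e' he' := hκ.trans (h.sep i i' hi e he e' he')
  csup e he := ⟨(h.csup e he).1.trans hR, fun i e' he' => hκ.trans ((h.csup e he).2 i e' he')⟩
  cle e := (h.cle e).trans (by gcongr)
  dle z := (h.dle z).trans (by gcongr)

/-- Restriction to a subfamily. -/
theorem Adm.restrict {ι' : Type} {w : ι → WallG} {c : Ed → ℝ}
    (h : (⟨w, c⟩ : WCG ι).Adm κ R B n) {f : ι' → ι} (hf : Function.Injective f) :
    (⟨fun x => w (f x), c⟩ : WCG ι').Adm κ R B n where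
  box i := h.box (f i)
  sep i i' hi := h.sep (f i) (f i') fun hh => hi (hf hh)
  csup e he := ⟨(h.csup e he).1, fun i => (h.csup e he).2 (f i)⟩
  cle := h.cle
  dle := h.dle

theorem Adm.sig {I : Type} [Fintype I] {κ' : I → Type}
    {W : ∀ i, WCG (κ' i)} {κ R B : ℝ} {n : ℕ} (h : ∀ i, (W i).Adm κ R B n)
    (hf : ∀ i j, i ≠ j → ∀ u ∈ pts (W i), ∀ v ∈ pts (W j), κ * n ≤ (nm (u - v) : ℝ)) :
    (sig W).Adm κ R (Fintype.card I * B) n where
  box x e he := (h x.1).box x.2 e he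
  sep := by
    rintro ⟨i, x⟩ ⟨j, y⟩ hne k hk k' hk'
    by_cases hij : i = j
    · subst hij
      exact (h i).sep x y (fun hh => hne (by rw [hh])) k hk k' hk'
    · exact hf i j hij _ (Or.inl ⟨x, k, hk, rfl⟩) _ (Or.inl ⟨y, k', hk', rfl⟩)
  csup := by
    intro e he
    have h1 : ∃ i, (W i).c e ≠ 0 := by
      by_contra hn
      push Not at hn
      exact he (sum_eq_zero fun i _ => hn i)
    obtain ⟨i, hi⟩ := h1
    refine ⟨((h i).csup e hi).1, ?_⟩
    rintro ⟨j, y⟩ k hk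
    by_cases hij : i = j
    · subst hij
      exact ((h i).csup e hi).2 y k hk
    · exact hf i j hij _ (Or.inr ⟨e, hi, rfl⟩) _ (Or.inl ⟨y, k, hk, rfl⟩)
  cle e := by
    refine (abs_sum_le_sum_abs _ _).trans ((sum_le_sum fun i _ => (h i).cle e).trans (le_of_eq ?_))
    rw [sum_const, card_univ, nsmul_eq_mul, mul_div_assoc]
  dle z := by
    show |dv (fun e => ∑ i, (W i).c e) z| ≤ _
    rw [dv_sum]
    refine (abs_sum_le_sum_abs _ _).trans ((sum_le_sum fun i _ => (h i).dle z).trans (le_of_eq ?_))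
    rw [sum_const, card_univ, nsmul_eq_mul, mul_div_assoc]

theorem Adm.add2 {ι ι' : Type} {W : WCG ι} {W' : WCG ι'} (h : W.Adm κ R B n)
    (h' : W'.Adm κ R B n) (hf : ∀ u ∈ pts W, ∀ v ∈ pts W', κ * n ≤ (nm (u - v) : ℝ)) :
    (add2 W W').Adm κ R (2 * B) n := by
  have hf' : ∀ u ∈ pts W', ∀ v ∈ pts W, κ * n ≤ (nm (u - v) : ℝ) := by
    intro u hu v hv
    have := hf v hv u hu
    rwa [← nm_neg, neg_sub] at this
  constructor
  · rintro (i | i) k hk
    · exact h.box i k hk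
    · exact h'.box i k hk
  · rintro (i | i) (j | j) hne k hk k' hk'
    · exact h.sep i j (fun hh => hne (by rw [hh])) k hk k' hk'
    · exact hf _ (Or.inl ⟨i, k, hk, rfl⟩) _ (Or.inl ⟨j, k', hk', rfl⟩)
    · exact hf' _ (Or.inl ⟨i, k, hk, rfl⟩) _ (Or.inl ⟨j, k', hk', rfl⟩)
    · exact h'.sep i j (fun hh => hne (by rw [hh])) k hk k' hk'
  · intro e he
    have h0 : W.c e ≠ 0 ∨ W'.c e ≠ 0 := by
      by_contra hn
      push Not at hn
      apply he
      show W.c e + W'.c e = 0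
      rw [hn.1, hn.2, add_zero]
    rcases h0 with h0 | h0
    · refine ⟨(h.csup e h0).1, ?_⟩
      rintro (i | i) k hk
      · exact (h.csup e h0).2 i k hk
      · exact hf _ (Or.inr ⟨e, h0, rfl⟩) _ (Or.inl ⟨i, k, hk, rfl⟩)
    · refine ⟨(h'.csup e h0).1, ?_⟩
      rintro (i | i) k hk
      · exact hf' _ (Or.inr ⟨e, h0, rfl⟩) _ (Or.inl ⟨i, k, hk, rfl⟩)
      · exact (h'.csup e h0).2 i k hk
  · intro e
    show |W.c e + W'.c e| ≤ _
    refine (abs_add_le _ _).trans ((add_le_add (h.cle e) (h'.cle e)).trans (le_of_eq ?_))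
    ring
  · intro z
    have h1 : dv (T.add2 W W').c z = dv W.c z + dv W'.c z := by
      unfold dv T.add2
      ring
    rw [h1]
    refine (abs_add_le _ _).trans ((add_le_add (h.dle z) (h'.dle z)).trans (le_of_eq ?_))
    ring

/-! translations -/

theorem epos_sh (v : ℤ × ℤ) (e : Ed) : epos (shE v e) = epos e + v := by
  rcases e with u | u <;> rfl

theorem pts_tr (W : WCG ι) (a : ℤ × ℤ) {v : ℤ × ℤ} : v ∈ pts (tr W a) ↔ v - a ∈ pts W := by
  constructor
  · rintro (⟨i, e, he, rfl⟩ | ⟨e, he, rfl⟩)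
    · obtain ⟨e', he', rfl⟩ := mem_image.1 he
      refine Or.inl ⟨i, e', he', ?_⟩
      rw [epos_sh, add_sub_cancel_right]
    · refine Or.inr ⟨shE (-a) e, he, ?_⟩
      rw [epos_sh, sub_eq_add_neg]
  · rintro (⟨i, e, he, h⟩ | ⟨e, he, h⟩)
    · refine Or.inl ⟨i, shE a e, mem_image_of_mem _ he, ?_⟩
      rw [epos_sh, h, sub_add_cancel]
    · refine Or.inr ⟨shE a e, ?_, ?_⟩
      · show W.c (shE (-a) (shE a e)) ≠ 0
        rwa [shE_shE, neg_add_cancel, shE_zero]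
      · rw [epos_sh, h, sub_add_cancel]

theorem Adm.tr {a : ℤ × ℤ} (h : W.Adm κ R B n) (hR : R * n + nm a ≤ R' * n) :
    (tr W a).Adm κ R' B n where
  box i e he := by
    obtain ⟨e', he', rfl⟩ := mem_image.1 he
    rw [epos_sh]
    have h1 := h.box i e' he'
    have h2 : (nm (epos e' + a) : ℝ) ≤ nm (epos e') + nm a := by exact_mod_cast nm_add _ _
    linarith
  sep i i' hi e he f hf := by
    obtain ⟨e', he', rfl⟩ := mem_image.1 he
    obtain ⟨f', hf', rfl⟩ := mem_image.1 hf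
    rw [epos_sh, epos_sh, add_sub_add_right_eq_sub]
    exact h.sep i i' hi e' he' f' hf'
  csup e he := by
    have h1 := h.csup (shE (-a) e) he
    have h0 : epos e = epos (shE (-a) e) + a := by rw [epos_sh, neg_add_cancel_right]
    refine ⟨?_, fun i f hf => ?_⟩
    · rw [h0]
      have h2 : (nm (epos (shE (-a) e) + a) : ℝ) ≤ nm (epos (shE (-a) e)) + nm a := by
        exact_mod_cast nm_add _ _
      linarith [h1.1]
    · obtain ⟨f', hf', rfl⟩ := mem_image.1 hf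
      rw [epos_sh, h0, add_sub_add_right_eq_sub]
      exact h1.2 i f' hf'
  cle e := h.cle _
  dle z := by
    show |dv (fun e => W.c (shE (-a) e)) z| ≤ _
    rw [dv_tr]
    exact h.dle _

/-! reflection in the diagonal -/

theorem pts_mD (W : WCG ι) {v : ℤ × ℤ} (hv : v ∈ pts (mD W)) : v.swap ∈ pts W := by
  rcases hv with ⟨i, e, he, rfl⟩ | ⟨e, he, rfl⟩
  · obtain ⟨e', he', rfl⟩ := mem_image.1 he
    refine Or.inl ⟨i, e', he', ?_⟩
    rw [epos_rD, Prod.swap_swap]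
  · exact Or.inr ⟨rD.ρ e, cP_supp he, epos_rD e⟩

theorem Adm.mD (h : W.Adm κ R B n) : (mD W).Adm κ R B n where
  box i e he := by
    obtain ⟨e', he', rfl⟩ := mem_image.1 he
    rw [epos_rD, nm_swap]
    exact h.box i e' he'
  sep i i' hi e he f hf := by
    obtain ⟨e', he', rfl⟩ := mem_image.1 he
    obtain ⟨f', hf', rfl⟩ := mem_image.1 hf
    rw [epos_rD, epos_rD, swap_sub']
    exact h.sep i i' hi e' he' f' hf'
  csup e he := by
    have h1 := h.csup (rD.ρ e) (cP_supp he)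
    have h0 : epos e = (epos (rD.ρ e)).swap := by rw [epos_rD, Prod.swap_swap]
    refine ⟨?_, fun i f hf => ?_⟩
    · rw [h0, nm_swap]
      exact h1.1
    · obtain ⟨f', hf', rfl⟩ := mem_image.1 hf
      rw [epos_rD, h0, swap_sub']
      exact h1.2 i f' hf'
  cle e := by
    show |cP rD W.c e| ≤ _
    rw [cP_abs]
    exact h.cle _
  dle z := by
    show |dv (cP rD W.c) z| ≤ _
    rw [dv_mD, abs_neg]
    exact h.dle _

/-! reflection in the columns -/

theorem rp_rp (s : ℤ) (v : ℤ × ℤ) : rp s (rp s v) = v := by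
  unfold rp
  simp

theorem epos_rX' (e : Ed) : ∃ s : ℤ, (s = 0 ∨ s = 1) ∧ epos ((rX ℤ ℤ).ρ e) = rp s (epos e) := by
  obtain ⟨s, hs, h⟩ := epos_rX e
  exact ⟨s, hs, by rw [h, rp_rp]⟩

theorem pts_mX (W : WCG ι) {v : ℤ × ℤ} (hv : v ∈ pts (mX W)) :
    ∃ u ∈ pts W, ∃ s : ℤ, (s = 0 ∨ s = 1) ∧ v = rp s u := by
  rcases hv with ⟨i, e, he, rfl⟩ | ⟨e, he, rfl⟩
  · obtain ⟨e', he', rfl⟩ := mem_image.1 he
    obtain ⟨s, hs, h⟩ := epos_rX' e'
    exact ⟨_, Or.inl ⟨i, e', he', rfl⟩, s, hs, h⟩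
  · obtain ⟨s, hs, h⟩ := epos_rX e
    exact ⟨_, Or.inr ⟨_, cP_supp he, rfl⟩, s, hs, h⟩

theorem Adm.mX (h : W.Adm κ R B n) (hκ : κ' * n + 1 ≤ κ * n) (hR : R * n + 1 ≤ R' * n) :
    (mX W).Adm κ' R' B n where
  box i e he := by
    obtain ⟨e', he', rfl⟩ := mem_image.1 he
    obtain ⟨s, hs, h1⟩ := epos_rX' e'
    rw [h1]
    have h2 := h.box i e' he'
    have h3 : (nm (rp s (epos e')) : ℝ) ≤ nm (epos e') + 1 := by exact_mod_cast nm_rp hs _
    linarith
  sep i i' hi e he f hf := by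
    obtain ⟨e', he', rfl⟩ := mem_image.1 he
    obtain ⟨f', hf', rfl⟩ := mem_image.1 hf
    obtain ⟨s, hs, h1⟩ := epos_rX' e'
    obtain ⟨s', hs', h1'⟩ := epos_rX' f'
    rw [h1, h1']
    have h2 := h.sep i i' hi e' he' f' hf'
    have h3 : (nm (epos e' - epos f') : ℝ) ≤ nm (rp s (epos e') - rp s' (epos f')) + 1 := by
      exact_mod_cast nm_rp_sub hs hs' _ _
    linarith
  csup e he := by
    have h1 := h.csup ((rX ℤ ℤ).ρ e) (cP_supp he)
    obtain ⟨s, hs, h0⟩ := epos_rX e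
    refine ⟨?_, fun i f hf => ?_⟩
    · rw [h0]
      have h3 : (nm (rp s (epos ((rX ℤ ℤ).ρ e))) : ℝ) ≤ nm (epos ((rX ℤ ℤ).ρ e)) + 1 := by
        exact_mod_cast nm_rp hs _
      linarith [h1.1]
    · obtain ⟨f', hf', rfl⟩ := mem_image.1 hf
      obtain ⟨t, ht, h2⟩ := epos_rX' f'
      rw [h0, h2]
      have h3 := h1.2 i f' hf'
      have h4 : (nm (epos ((rX ℤ ℤ).ρ e) - epos f') : ℝ) ≤
          nm (rp s (epos ((rX ℤ ℤ).ρ e)) - rp t (epos f')) + 1 := by
        exact_mod_cast nm_rp_sub hs ht _ _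
      linarith
  cle e := by
    show |cP (rX ℤ ℤ) W.c e| ≤ _
    rw [cP_abs]
    exact h.cle _
  dle z := by
    show |dv (cP (rX ℤ ℤ) W.c) z| ≤ _
    rw [dv_mX, abs_neg]
    exact h.dle _

theorem pts_sub [Fintype ι] {K : Set (ℤ × ℤ)} (hS : ∀ e ∈ W.S, e ∈ EdT K)
    (hK : ∀ e, W.c e ≠ 0 → e ∈ EdT K) : pts W ⊆ K := by
  rintro v (⟨i, e, he, rfl⟩ | ⟨e, he, rfl⟩)
  · exact epos_mem (hS _ (mem_S_iff.2 ⟨i, he⟩))
  · exact epos_mem (hK e he)

end adm

/-! ### the four reflections -/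

section four

variable {ι : Type} {W : WCG ι} {κ κ' R R' B : ℝ} {n : ℕ}

theorem Adm.rfX (h : W.Adm κ R B n) (m : ℤ) (hκ : κ' * n + 2 ≤ κ * n)
    (hR : R * n + 2 + 2 * |m| ≤ R' * n) : (rfX m W).Adm κ' R' B n := by
  have hn := npos_of hκ
  have e1 : (R + 1 / n) * n = R * n + 1 := by field_simp
  have h1 := Adm.mX (κ' := κ') (R' := R + 1 / n) h (by linarith) (by linarith)
  refine Adm.tr h1 ?_
  have h2 : (nm (m • gX.s) : ℝ) ≤ 2 * |m| := by exact_mod_cast nm_smul_le m (s := (2, 0)) (by decide)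
  push_cast at hR h2
  linarith

theorem Adm.rfD (h : W.Adm κ R B n) (m : ℤ) (hκ : κ' * n + 2 ≤ κ * n)
    (hR : R * n + 2 + 2 * |m| ≤ R' * n) : (rfD m W).Adm κ' R' B n := by
  have h1 := Adm.mono (κ' := κ') (R' := R) (B' := B) (Adm.mD h) (by linarith) le_rfl le_rfl
  refine Adm.tr h1 ?_
  have h2 : (nm (m • gD.s) : ℝ) ≤ 2 * |m| := by exact_mod_cast nm_smul_le m (s := (1, -1)) (by decide)
  push_cast at hR h2
  linarith

theorem Adm.rfY (h : W.Adm κ R B n) (m : ℤ) (hκ : κ' * n + 2 ≤ κ * n)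
    (hR : R * n + 2 + 2 * |m| ≤ R' * n) : (rfY m W).Adm κ' R' B n := by
  have hn := npos_of hκ
  have e1 : (R + 1 / n) * n = R * n + 1 := by field_simp
  have h1 := Adm.mX (κ' := κ') (R' := R + 1 / n) (Adm.mD h) (by linarith) (by linarith)
  refine Adm.tr (Adm.mD h1) ?_
  have h2 : (nm (m • gY.s) : ℝ) ≤ 2 * |m| := by exact_mod_cast nm_smul_le m (s := (0, 2)) (by decide)
  push_cast at hR h2
  linarith

theorem Adm.rfA (h : W.Adm κ R B n) (m : ℤ) (hκ : κ' * n + 2 ≤ κ * n)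
    (hR : R * n + 2 + 2 * |m| ≤ R' * n) : (rfA m W).Adm κ' R' B n := by
  have hn := npos_of hκ
  have e1 : (R + 1 / n) * n = R * n + 1 := by field_simp
  have e2 : (R + 2 / n) * n = R * n + 2 := by field_simp
  have e3 : (κ - 1 / n) * n = κ * n - 1 := by field_simp
  have h1 := Adm.mX (κ' := κ - 1 / n) (R' := R + 1 / n) h (by linarith) (by linarith)
  have h2 := Adm.mX (κ' := κ') (R' := R + 2 / n) (Adm.mD h1) (by linarith) (by linarith)
  refine Adm.tr h2 ?_
  have h3 : (nm (m • gA.s) : ℝ) ≤ 2 * |m| := by exact_mod_cast nm_smul_le m (s := (1, 1)) (by decide)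
  push_cast at hR h3
  linarith

theorem pts_rfX {m : ℤ} {v : ℤ × ℤ} (hv : v ∈ pts (T.rfX m W)) :
    ∃ u ∈ pts W, |gX.l v - (2 * m - gX.l u)| ≤ 2 := by
  obtain ⟨u, hu, s, hs, h⟩ := pts_mX W ((pts_tr _ _).1 hv)
  refine ⟨u, hu, ?_⟩
  have h1 : v.1 - m * 2 = s - u.1 := congrArg Prod.fst h
  show |v.1 - (2 * m - u.1)| ≤ 2
  rw [abs_le]
  omega

theorem pts_rfD {m : ℤ} {v : ℤ × ℤ} (hv : v ∈ pts (T.rfD m W)) :
    ∃ u ∈ pts W, |gD.l v - (2 * m - gD.l u)| ≤ 2 := by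
  have h1 := pts_mD W ((pts_tr _ _).1 hv)
  refine ⟨_, h1, ?_⟩
  show |v.1 - v.2 - (2 * m - ((v.2 - m * (-1)) - (v.1 - m * 1)))| ≤ 2
  rw [abs_le]
  omega

theorem pts_rfY {m : ℤ} {v : ℤ × ℤ} (hv : v ∈ pts (T.rfY m W)) :
    ∃ u ∈ pts W, |gY.l v - (2 * m - gY.l u)| ≤ 2 := by
  obtain ⟨u, hu, s, hs, h⟩ := pts_mX _ (pts_mD _ ((pts_tr _ _).1 hv))
  refine ⟨_, pts_mD W hu, ?_⟩
  have h1 : v.2 - m * 2 = s - u.1 := congrArg Prod.fst h
  show |v.2 - (2 * m - u.1)| ≤ 2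
  rw [abs_le]
  omega

theorem pts_rfA {m : ℤ} {v : ℤ × ℤ} (hv : v ∈ pts (T.rfA m W)) :
    ∃ u ∈ pts W, |gA.l v - (2 * m - gA.l u)| ≤ 2 := by
  obtain ⟨u1, hu1, s, hs, h⟩ := pts_mX _ ((pts_tr _ _).1 hv)
  obtain ⟨u, hu, t, ht, h'⟩ := pts_mX W (pts_mD _ hu1)
  refine ⟨u, hu, ?_⟩
  have h1 : v.1 - m * 1 = s - u1.1 := congrArg Prod.fst h
  have h2 : v.2 - m * 1 = u1.2 := congrArg Prod.snd h
  have h3 : u1.2 = t - u.1 := congrArg Prod.fst h'
  have h4 : u1.1 = u.2 := congrArg Prod.snd h'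
  show |v.1 + v.2 - (2 * m - (u.1 + u.2))| ≤ 2
  rw [abs_le]
  omega

end four

end Vale.Agent.P167.H680.T
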