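import Vale.Agent.P167.H680.T.Lrs

/-!
# P167, general `q`, block 2A: the normalisation `H945.Q.Zp` is invariant

`zInvR_Zp : ZInvR θ (H945.Q.Zp θ P)`.
-/

namespace Vale.Agent.P167.H680.T

open Finset Filter Topology MeasureTheory
open Vale.Agent.P167.FK (SyR SyP trV trE shV shE rxV rxE ryV ryE swV swE)
open Vale.Agent.P167.H519 (IsLim)
open Vale.Agent.P167.H506.Q (fz fz_one fz_zero)
open Vale.Agent.P167.H135 (fx rl meas_rl)
open Vale.Agent.P167.H825.Q (Row)
open Vale.Agent.P167.H945.Q (lrs SP natw relw face faces tipR tipL tj jn Plain rad TT Zp)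

/-! ### the composed symmetries -/

section sym

variable {P : Measure Cfg} {Q : ℝ}

/-- Odd translations. -/
theorem sym_odd (hQ : 0 < Q) (hP : IsLim Q P) (v : ℤ × ℤ) (hv : ¬ Even (v.1 + v.2)) :
    Sym P ((trE (1 - v.1, -v.2)).trans shE) ((trV (1 - v.1, -v.2)).trans shV) true true := by
  have h : Even ((1 - v.1, -v.2).1 + ((1 - v.1, -v.2) : ℤ × ℤ).2) := by
    show Even (1 - v.1 + -v.2)
    rw [Int.even_iff] at hv ⊢
    omega
  exact (sym_ev hQ hP _ h).comp (sym_du hQ hP)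

/-- Rotation which maps the row at the height `y` to the column `y`. -/
theorem sym_rot (hQ : 0 < Q) (hP : IsLim Q P) (y : ℤ) :
    Sym P ((swE.trans rxE).trans ((trE (1 - (2 * y + 1), -0)).trans shE))
      ((swV.trans rxV).trans ((trV (1 - (2 * y + 1), -0)).trans shV)) true true := by
  have h : ¬ Even (((2 * y + 1, 0) : ℤ × ℤ).1 + ((2 * y + 1, 0) : ℤ × ℤ).2) := by
    show ¬ Even (2 * y + 1 + 0)
    rw [Int.even_iff]
    omega
  exact ((sym_sw hQ hP).comp (sym_rx hQ hP)).comp (sym_odd hQ hP _ h)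

/-- Rotation which maps the column `x` to the row at the height `x`. -/
theorem sym_rot' (hQ : 0 < Q) (hP : IsLim Q P) (x : ℤ) :
    Sym P ((swE.trans ryE).trans ((trE (1 - 0, -(2 * x + 1))).trans shE))
      ((swV.trans ryV).trans ((trV (1 - 0, -(2 * x + 1))).trans shV)) true true := by
  have h : ¬ Even (((0, 2 * x + 1) : ℤ × ℤ).1 + ((0, 2 * x + 1) : ℤ × ℤ).2) := by
    show ¬ Even (0 + (2 * x + 1))
    rw [Int.even_iff]
    omega
  exact ((sym_sw hQ hP).comp (sym_ry hQ hP)).comp (sym_odd hQ hP _ h)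

/-- Half turn around the point `(1 / 2, y)`. -/
theorem sym_half (hQ : 0 < Q) (hP : IsLim Q P) (y : ℤ) :
    Sym P ((rxE.trans ryE).trans ((trE (1 - 2, -(2 * y + 1))).trans shE))
      ((rxV.trans ryV).trans ((trV (1 - 2, -(2 * y + 1))).trans shV)) true true := by
  have h : ¬ Even (((2, 2 * y + 1) : ℤ × ℤ).1 + ((2, 2 * y + 1) : ℤ × ℤ).2) := by
    show ¬ Even (2 + (2 * y + 1))
    rw [Int.even_iff]
    omega
  exact ((sym_rx hQ hP).comp (sym_ry hQ hP)).comp (sym_odd hQ hP _ h)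

end sym

variable {φ : Ed ≃ Ed} {σ : (ℤ × ℤ) ≃ (ℤ × ℤ)} {ω ω' : Cfg} {θ : ℝ} {I : Finset (ℤ × ℤ)}

/-! ### factors -/

theorem T_flip {p p' : SP} {R : ℤ} (h : SyR φ σ ω ω') (hA : p'.A = p.A.image φ)
    (hA' : p'.A' = p.A'.image φ) (hB : p'.bx R = (p.bx R).image σ) (hw : p'.w = p.w')
    (hw' : p'.w' = p.w) : p'.T (I.image σ) R ω' = p.T I R ω := by
  unfold SP.T
  rw [hA, hA', hB, lrs_rev h, lrs_rev h, hw, hw', mul_comm]

theorem T_flip' {p p' : SP} {R : ℤ} (h : SyR φ σ ω ω') (hA : p'.A = p.A'.image φ)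
    (hA' : p'.A' = p.A.image φ) (hB : p'.bx R = (p.bx R).image σ) (hw : p'.w = p.w)
    (hw' : p'.w' = p.w') : p'.T (I.image σ) R ω' = p.T I R ω := by
  unfold SP.T
  rw [hA, hA', hB, lrs_rev h, lrs_rev h, hw, hw']

/-- Symmetry of the weights. -/
theorem relw_neg (θ t d τ τ' : ℝ) : relw θ (-t) (-d) (-τ) (-τ') = relw θ t d τ τ' := by
  unfold relw natw
  have h1 : θ / 4 * -t + -d + (-τ + -τ') * ((3 * θ - Real.pi) / 4) =
      -(θ / 4 * t + d + (τ + τ') * ((3 * θ - Real.pi) / 4)) := by ring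
  have h2 : (-τ = -τ' ∧ 0 < -τ * -t) ↔ (τ = τ' ∧ 0 < τ * t) := by
    rw [neg_inj, neg_mul_neg]
  rw [h1, Real.cos_neg]
  simp only [h2]

/-- Exchange of the two sides. -/
theorem relw_swap (θ t d τ τ' : ℝ) : relw θ t d τ τ' = relw θ t d τ' τ := by
  unfold relw natw
  rw [add_comm τ τ']
  have h2 : (τ = τ' ∧ 0 < τ * t) ↔ (τ' = τ ∧ 0 < τ' * t) := by
    constructor
    · rintro ⟨rfl, h⟩
      exact ⟨rfl, h⟩
    · rintro ⟨rfl, h⟩
      exact ⟨rfl, h⟩
  simp only [h2]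

/-! ### the integral -/

theorem emb_rl (σ : (ℤ × ℤ) ≃ (ℤ × ℤ)) (b : Bool) : MeasurableEmbedding (rl σ.symm b) := by
  have h : ∀ (σ : (ℤ × ℤ) ≃ (ℤ × ℤ)) (ω : Cfg), rl σ.symm b (rl σ b ω) = ω := by
    intro σ ω
    funext v
    show fx b (fx b (ω (σ (σ.symm v)))) = ω v
    rw [fx_fx, Equiv.apply_symm_apply]
  let e : Cfg ≃ᵐ Cfg :=
    { toFun := rl σ.symm b
      invFun := rl σ b
      left_inv := fun ω => h σ.symm ω
      right_inv := fun ω => h σ ω
      measurable_toFun := meas_rl _ _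
      measurable_invFun := meas_rl _ _ }
  exact e.measurableEmbedding

variable {P : Measure Cfg} [IsProbabilityMeasure P]

/-- **Invariance of the normalisation** under a symmetry which exchanges the colours. -/
theorem zp_flip (hS : Sym P φ σ true true) {r r' : Row} (n : ℕ) (hI : r'.I = r.I.image σ)
    (hfr : ∀ v ∈ r.I, r'.fr (σ v) = !r.fr v) (hL : r'.L = r.L) (hrad : rad r' = rad r)
    (hTT : ∀ ω ω', SyR φ σ ω ω' →
      TT θ (r.I.image σ) r' (rad r) ω' = TT θ r.I r (rad r) ω) :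
    Zp θ P n r' = Zp θ P n r := by
  unfold Zp
  rw [hL, hrad]
  congr 1
  have h1 := (hS.inv.mp).integral_comp (emb_rl σ true)
    (fun ω => fz r'.I r'.fr ω * TT θ r'.I r' (rad r) ω)
  rw [← h1]
  refine integral_congr_ae (Eventually.of_forall fun ω => ?_)
  have h2 := hS.sy ω
  simp only [if_true] at h2
  beta_reduce
  rw [hI, hTT ω _ h2]
  congr 1
  refine fz_iff ?_
  have h3 : ∀ v, rl σ.symm true ω (σ v) = !ω v := by
    intro v
    show (!(ω (σ.symm (σ v)))) = !ω v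
    rw [Equiv.symm_apply_apply]
  constructor
  · intro h v hv
    have h4 := h (σ v) (mem_image_of_mem _ hv)
    rw [h3, hfr v hv] at h4
    exact Bool.not_inj h4
  · intro h u hu
    obtain ⟨v, hv, rfl⟩ := mem_image.1 hu
    rw [h3, hfr v hv, h v hv]

/-! ### faces -/

omit [IsProbabilityMeasure P] in
theorem face_eq (r : Row) (b : Bool) (k : ℕ) : face r b k =
    if r.o then Sum.inr (r.x.1 + k, if b then r.x.2 else r.x.2 - 1)
    else Sum.inl (if b then r.x.1 else r.x.1 - 1, r.x.2 + k) := by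
  unfold face Row.sq
  cases r.o <;> cases b <;> rfl

omit [IsProbabilityMeasure P] in
theorem faces_img {r r' : Row} {b b' : Bool} (h : ∀ k, face r' b' k = φ (face r b k)) (lo hi : ℕ) :
    faces r' b' lo hi = (faces r b lo hi).image φ := by
  unfold faces
  rw [image_image]
  exact image_congr fun k _ => h k

omit [IsProbabilityMeasure P] in
theorem faces_rev {r r' : Row} {b b' : Bool} {L : ℕ}
    (h : ∀ k, k < L → face r' b' (L - 1 - k) = φ (face r b k)) {lo hi : ℕ} (h2 : hi ≤ L) :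
    faces r' b' (L - hi) (L - lo) = (faces r b lo hi).image φ := by
  unfold faces
  rw [image_image]
  ext e
  simp only [mem_image, mem_Ico, Function.comp]
  constructor
  · rintro ⟨k, hk, rfl⟩
    refine ⟨L - 1 - k, by omega, ?_⟩
    rw [← h _ (by omega)]
    congr 1
    omega
  · rintro ⟨k, hk, rfl⟩
    exact ⟨L - 1 - k, by omega, h k (by omega)⟩

/-! ### the boxes -/

omit [IsProbabilityMeasure P] in
theorem mem_bx {p : SP} {R : ℤ} {v : ℤ × ℤ} : v ∈ p.bx R ↔
    (p.c.1 - R + p.e.1 ≤ v.1 ∧ v.1 < p.c.1 + R) ∧ p.c.2 - R + p.e.2 ≤ v.2 ∧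
      v.2 < p.c.2 + R := by
  unfold SP.bx
  rw [mem_product, mem_Ico, mem_Ico]

omit [IsProbabilityMeasure P] in
theorem mem_imgE {s : Finset (ℤ × ℤ)} {u : ℤ × ℤ} : u ∈ s.image σ ↔ σ.symm u ∈ s := by
  rw [mem_image]
  constructor
  · rintro ⟨y, hy, rfl⟩
    rwa [Equiv.symm_apply_apply]
  · intro h
    exact ⟨_, h, Equiv.apply_symm_apply _ _⟩

/-! ### degenerate rows -/

omit [IsProbabilityMeasure P] in
theorem lrs_empty {A' : Finset Ed} {B : Finset (ℤ × ℤ)} : lrs I ∅ A' B ω = ∅ := by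
  ext e
  rw [mem_lrs]
  simp

omit [IsProbabilityMeasure P] in
theorem T_empty {p : SP} {R : ℤ} (h : p.A = ∅) (h' : p.A' = ∅) : p.T I R ω = 1 := by
  unfold SP.T
  rw [h, h', lrs_empty]
  simp

omit [IsProbabilityMeasure P] in
theorem TT_zero {r : Row} (hL : r.L = 0) (hk : Plain r ∨ r.k0 ≤ r.L) (R : ℤ) :
    TT θ I r R ω = 1 := by
  classical
  have hf : ∀ b, faces r b 0 r.L = ∅ := fun b => by
    unfold faces
    rw [hL]
    rfl
  unfold TT
  rw [T_empty (p := tipL θ r) (hf _) (hf _), T_empty (p := tipR θ r) (hf _) (hf _)]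
  split_ifs with hp
  · norm_num
  · have hk0 : r.k0 = 0 := by
      have := hk.resolve_left hp
      omega
    have e1 : ∀ b, (jn θ r b).A = ∅ := fun b => by
      show faces r b 0 r.k0 = ∅
      unfold faces
      rw [hk0]
      rfl
    have e2 : ∀ b, (jn θ r b).A' = ∅ := fun b => by
      show faces r b r.k0 r.L = ∅
      unfold faces
      rw [hk0, hL]
      rfl
    rw [T_empty (e1 true) (e2 true), T_empty (e1 false) (e2 false)]
    norm_num

/-! ### odd translations -/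

section tr

variable {r : Row}

/-- The translated row with exchanged colours. -/
noncomputable def rT (r : Row) (v : ℤ × ℤ) : Row := { r with x := r.x + v, s := -r.s }

omit [IsProbabilityMeasure P] in
theorem phT_inr (v w : ℤ × ℤ) :
    ((trE (1 - v.1, -v.2)).trans shE) (Sum.inr w) = Sum.inr (w.1 + v.1, w.2 + v.2) := by
  show Sum.inr (w.1 - (1 - v.1) + 1, w.2 - -v.2) = _
  congr 2
  · ring
  · ring

omit [IsProbabilityMeasure P] in
theorem phT_inl (v w : ℤ × ℤ) :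
    ((trE (1 - v.1, -v.2)).trans shE) (Sum.inl w) = Sum.inl (w.1 + v.1, w.2 + v.2) := by
  show Sum.inl (w.1 - (1 - v.1) + 1, w.2 - -v.2) = _
  congr 2
  · ring
  · ring

omit [IsProbabilityMeasure P] in
theorem sgT (v w : ℤ × ℤ) :
    ((trV (1 - v.1, -v.2)).trans shV) w = w + v := by
  apply Prod.ext
  · show w.1 - (1 - v.1) + 1 = w.1 + v.1
    ring
  · show w.2 - -v.2 = w.2 + v.2
    ring

omit [IsProbabilityMeasure P] in
theorem sgT' (v w : ℤ × ℤ) :
    ((trV (1 - v.1, -v.2)).trans shV).symm w = w - v := by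
  rw [Equiv.symm_apply_eq, sgT, sub_add_cancel]

omit [IsProbabilityMeasure P] in
theorem rT_sq (r : Row) (v : ℤ × ℤ) (k : ℕ) : (rT r v).sq k = r.sq k + v := by
  unfold Row.sq rT
  cases r.o
  · apply Prod.ext
    · rfl
    · show r.x.2 + v.2 + k = r.x.2 + k + v.2
      ring
  · apply Prod.ext
    · show r.x.1 + v.1 + k = r.x.1 + k + v.1
      ring
    · rfl

omit [IsProbabilityMeasure P] in
theorem rT_I (r : Row) (v : ℤ × ℤ) : (rT r v).I = r.I.image ((trV (1 - v.1, -v.2)).trans shV) := by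
  unfold Row.I
  rw [image_image]
  refine image_congr fun k _ => ?_
  rw [rT_sq]
  exact (sgT v _).symm

omit [IsProbabilityMeasure P] in
theorem rT_τ (r : Row) (v : ℤ × ℤ) (k : ℕ) : (rT r v).τ ((rT r v).sq k) = -r.τ (r.sq k) := by
  rw [Row.τ_sq, Row.τ_sq]
  exact neg_mul _ _

omit [IsProbabilityMeasure P] in
theorem rT_face (r : Row) (v : ℤ × ℤ) (b : Bool) (k : ℕ) :
    face (rT r v) b k = ((trE (1 - v.1, -v.2)).trans shE) (face r b k) := by
  rw [face_eq, face_eq]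
  show (if r.o then _ else _) = _
  cases ho : r.o
  · simp only [Bool.false_eq_true, if_false]
    rw [phT_inl]
    congr 2
    · show (if b then r.x.1 + v.1 else r.x.1 + v.1 - 1) = (if b then r.x.1 else r.x.1 - 1) + v.1
      split_ifs <;> ring
    · show r.x.2 + v.2 + k = r.x.2 + k + v.2
      ring
  · simp only [if_true]
    rw [phT_inr]
    congr 2
    · show r.x.1 + v.1 + k = r.x.1 + k + v.1
      ring
    · show (if b then r.x.2 + v.2 else r.x.2 + v.2 - 1) = (if b then r.x.2 else r.x.2 - 1) + v.2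
      split_ifs <;> ring

omit [IsProbabilityMeasure P] in
theorem bx_T {p p' : SP} {v : ℤ × ℤ} (hc : p'.c = p.c + v) (he : p'.e = p.e) (R : ℤ) :
    p'.bx R = (p.bx R).image ((trV (1 - v.1, -v.2)).trans shV) := by
  ext u
  rw [mem_imgE, sgT', mem_bx, mem_bx, hc, he]
  simp only [Prod.fst_add, Prod.snd_add, Prod.fst_sub, Prod.snd_sub]
  omega

omit [IsProbabilityMeasure P] in
theorem TT_T (r : Row) (v : ℤ × ℤ) (R : ℤ)
    (h : SyR ((trE (1 - v.1, -v.2)).trans shE) ((trV (1 - v.1, -v.2)).trans shV) ω ω') :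
    TT θ (r.I.image ((trV (1 - v.1, -v.2)).trans shV)) (rT r v) R ω' = TT θ r.I r R ω := by
  classical
  have hf := fun b lo hi => faces_img (r := r) (r' := rT r v) (b := b) (b' := b)
    (φ := (trE (1 - v.1, -v.2)).trans shE) (rT_face r v b) lo hi
  have hP : Plain (rT r v) ↔ Plain r := Iff.rfl
  have hc : ∀ k, relw θ 4 0 (-r.τ (r.sq k)) (-r.τ (r.sq k)) =
      relw θ (-4) 0 (r.τ (r.sq k)) (r.τ (r.sq k)) := fun k => by
    have := relw_neg θ (-4) 0 (r.τ (r.sq k)) (r.τ (r.sq k))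
    rwa [neg_neg, neg_zero] at this
  have hc' : ∀ k, relw θ (-4) 0 (-r.τ (r.sq k)) (-r.τ (r.sq k)) =
      relw θ 4 0 (r.τ (r.sq k)) (r.τ (r.sq k)) := fun k => by
    have := relw_neg θ 4 0 (r.τ (r.sq k)) (r.τ (r.sq k))
    rwa [neg_zero] at this
  unfold TT
  have e1 : (tipL θ (rT r v)).T (r.I.image ((trV (1 - v.1, -v.2)).trans shV)) R ω' =
      (tipL θ r).T r.I R ω := by
    refine T_flip h (hf _ _ _) (hf _ _ _) (bx_T (p := tipL θ r) (p' := tipL θ (rT r v)) (v := v)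
      (rT_sq r v 0) rfl R) ?_ ?_
    · show relw θ 4 0 ((rT r v).τ ((rT r v).sq 0)) ((rT r v).τ ((rT r v).sq 0)) = _
      rw [rT_τ]
      exact hc 0
    · show relw θ (-4) 0 ((rT r v).τ ((rT r v).sq 0)) ((rT r v).τ ((rT r v).sq 0)) = _
      rw [rT_τ]
      exact hc' 0
  have e2 : (tipR θ (rT r v)).T (r.I.image ((trV (1 - v.1, -v.2)).trans shV)) R ω' =
      (tipR θ r).T r.I R ω := by
    refine T_flip h (hf _ _ _) (hf _ _ _) (bx_T (p := tipR θ r) (p' := tipR θ (rT r v)) (v := v)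
      (rT_sq r v (r.L - 1)) rfl R) ?_ ?_
    · show relw θ 4 0 ((rT r v).τ ((rT r v).sq (r.L - 1))) ((rT r v).τ ((rT r v).sq (r.L - 1))) = _
      rw [rT_τ]
      exact hc _
    · show relw θ (-4) 0 ((rT r v).τ ((rT r v).sq (r.L - 1)))
        ((rT r v).τ ((rT r v).sq (r.L - 1))) = _
      rw [rT_τ]
      exact hc' _
  have e3 : ∀ b, (jn θ (rT r v) b).T (r.I.image ((trV (1 - v.1, -v.2)).trans shV)) R ω' =
      (jn θ r b).T r.I R ω := by
    intro b
    refine T_flip h (hf _ _ _) (hf _ _ _) (bx_T (p := jn θ r b) (p' := jn θ (rT r v) b) (v := v)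
      (rT_sq r v r.k0) rfl R) ?_ ?_
    · show relw θ (tj r b) (-r.j) (-r.s) (-r.s * r.η) = relw θ (-tj r b) r.j r.s (r.s * r.η)
      have := relw_neg θ (-tj r b) r.j r.s (r.s * r.η)
      rw [neg_neg] at this
      rw [← this, neg_mul]
    · show relw θ (-tj r b) r.j (-r.s) (-r.s * r.η) = relw θ (tj r b) (-r.j) r.s (r.s * r.η)
      have := relw_neg θ (tj r b) (-r.j) r.s (r.s * r.η)
      rw [neg_neg] at this
      rw [← this, neg_mul]
  rw [e1, e2]
  by_cases hp : Plain r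
  · rw [if_pos hp, if_pos (hP.2 hp)]
  · rw [if_neg hp, if_neg fun h => hp (hP.1 h), e3, e3]

end tr

/-! ### rotations by 90 degrees -/

section rot

variable {r r' : Row}

omit [IsProbabilityMeasure P] in
theorem tip_neg (θ t τ : ℝ) : relw θ t 0 (-τ) (-τ) = relw θ (-t) 0 τ τ := by
  have := relw_neg θ (-t) 0 τ τ
  rwa [neg_neg, neg_zero] at this

omit [IsProbabilityMeasure P] in
/-- Symmetries which keep the order of the squares and exchange the faces. -/
theorem TT_gen (h : SyR φ σ ω ω') (hf : ∀ b k, face r' (!b) k = φ (face r b k)) (ho : r'.o = !r.o)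
    (hL : r'.L = r.L) (hk : r'.k0 = r.k0) (hj : r'.j = r.j) (hs : r'.s = -r.s) (hη : r'.η = r.η)
    (R : ℤ) (hL' : (tipL θ r').bx R = ((tipL θ r).bx R).image σ)
    (hR' : (tipR θ r').bx R = ((tipR θ r).bx R).image σ)
    (hJ' : ∀ b, (jn θ r' (!b)).bx R = ((jn θ r b).bx R).image σ) :
    TT θ (r.I.image σ) r' R ω' = TT θ r.I r R ω := by
  classical
  have hf1 : ∀ b lo hi, faces r' (!b) lo hi = (faces r b lo hi).image φ := fun b lo hi =>
    faces_img (hf b) lo hi
  have hP : Plain r' ↔ Plain r := by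
    unfold Plain
    rw [hj, hη]
  have hτ : ∀ k, r'.τ (r'.sq k) = -r.τ (r.sq k) := fun k => by
    rw [Row.τ_sq, Row.τ_sq, hs, hk, hη]
    exact neg_mul _ _
  unfold TT
  have e1 : (tipL θ r').T (r.I.image σ) R ω' = (tipL θ r).T r.I R ω := by
    refine T_flip h ?_ ?_ hL' ?_ ?_
    · show faces r' r'.o 0 r'.L = (faces r r.o 0 r.L).image φ
      rw [ho, hL, hf1]
    · show faces r' (!r'.o) 0 r'.L = (faces r (!r.o) 0 r.L).image φ
      rw [ho, hL, ← hf1]
    · show relw θ 4 0 (r'.τ (r'.sq 0)) (r'.τ (r'.sq 0)) = relw θ (-4) 0 (r.τ (r.sq 0)) (r.τ (r.sq 0))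
      rw [hτ, tip_neg]
    · show relw θ (-4) 0 (r'.τ (r'.sq 0)) (r'.τ (r'.sq 0)) = relw θ 4 0 (r.τ (r.sq 0)) (r.τ (r.sq 0))
      rw [hτ, tip_neg, neg_neg]
  have e2 : (tipR θ r').T (r.I.image σ) R ω' = (tipR θ r).T r.I R ω := by
    refine T_flip h ?_ ?_ hR' ?_ ?_
    · show faces r' (!r'.o) 0 r'.L = (faces r (!r.o) 0 r.L).image φ
      rw [ho, hL, ← hf1]
    · show faces r' r'.o 0 r'.L = (faces r r.o 0 r.L).image φ
      rw [ho, hL, hf1]
    · show relw θ 4 0 (r'.τ (r'.sq (r'.L - 1))) (r'.τ (r'.sq (r'.L - 1))) =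
        relw θ (-4) 0 (r.τ (r.sq (r.L - 1))) (r.τ (r.sq (r.L - 1)))
      rw [hL, hτ, tip_neg]
    · show relw θ (-4) 0 (r'.τ (r'.sq (r'.L - 1))) (r'.τ (r'.sq (r'.L - 1))) =
        relw θ 4 0 (r.τ (r.sq (r.L - 1))) (r.τ (r.sq (r.L - 1)))
      rw [hL, hτ, tip_neg, neg_neg]
  have htj : ∀ b, tj r' (!b) = tj r b := by
    intro b
    unfold tj
    rw [ho]
    cases r.o <;> cases b <;> rfl
  have e3 : ∀ b, (jn θ r' (!b)).T (r.I.image σ) R ω' = (jn θ r b).T r.I R ω := by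
    intro b
    refine T_flip h ?_ ?_ (hJ' b) ?_ ?_
    · show faces r' (!b) 0 r'.k0 = (faces r b 0 r.k0).image φ
      rw [hk, hf1]
    · show faces r' (!b) r'.k0 r'.L = (faces r b r.k0 r.L).image φ
      rw [hk, hL, hf1]
    · show relw θ (tj r' (!b)) (-r'.j) r'.s (r'.s * r'.η) = relw θ (-tj r b) r.j r.s (r.s * r.η)
      rw [htj, hj, hs, hη]
      have := relw_neg θ (-tj r b) r.j r.s (r.s * r.η)
      rw [neg_neg] at this
      rw [← this, neg_mul]
    · show relw θ (-tj r' (!b)) r'.j r'.s (r'.s * r'.η) = relw θ (tj r b) (-r.j) r.s (r.s * r.η)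
      rw [htj, hj, hs, hη]
      have := relw_neg θ (tj r b) (-r.j) r.s (r.s * r.η)
      rw [neg_neg] at this
      rw [← this, neg_mul]
  have e4 := e3 true
  have e5 := e3 false
  simp only [Bool.not_true, Bool.not_false] at e4 e5
  rw [e1, e2]
  by_cases hp : Plain r
  · rw [if_pos hp, if_pos (hP.2 hp)]
  · rw [if_neg hp, if_neg fun h => hp (hP.1 h), e4, e5, mul_comm ((jn θ r false).T r.I R ω)]

/-- The reflected row. -/
noncomputable def rDr (r : Row) : Row := { r with o := !r.o, x := (r.x.2, r.x.1), s := -r.s }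

omit [IsProbabilityMeasure P] in
theorem rDr_sq (r : Row) (k : ℕ) : (rDr r).sq k = ((r.sq k).2, (r.sq k).1) := by
  unfold Row.sq rDr
  cases r.o <;> rfl

omit [IsProbabilityMeasure P] in
theorem sgR (y : ℤ) (w : ℤ × ℤ) : ((swV.trans rxV).trans
    ((trV (1 - (2 * y + 1), -0)).trans shV)) w = (2 * y - w.2, w.1) := by
  apply Prod.ext
  · show -1 - w.2 - (1 - (2 * y + 1)) + 1 = 2 * y - w.2
    ring
  · show w.1 - -0 = w.1
    ring

omit [IsProbabilityMeasure P] in
theorem sgR_symm (y : ℤ) (w : ℤ × ℤ) : ((swV.trans rxV).trans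
    ((trV (1 - (2 * y + 1), -0)).trans shV)).symm w = (w.2, 2 * y - w.1) := by
  rw [Equiv.symm_apply_eq, sgR]
  apply Prod.ext
  · show w.1 = 2 * y - (2 * y - w.1)
    ring
  · rfl

omit [IsProbabilityMeasure P] in
theorem sgR' (x : ℤ) (w : ℤ × ℤ) : ((swV.trans ryV).trans
    ((trV (1 - 0, -(2 * x + 1))).trans shV)) w = (w.2, 2 * x - w.1) := by
  apply Prod.ext
  · show w.2 - (1 - 0) + 1 = w.2
    ring
  · show -1 - w.1 - -(2 * x + 1) = 2 * x - w.1
    ring

omit [IsProbabilityMeasure P] in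
theorem sgR'_symm (x : ℤ) (w : ℤ × ℤ) : ((swV.trans ryV).trans
    ((trV (1 - 0, -(2 * x + 1))).trans shV)).symm w = (2 * x - w.2, w.1) := by
  rw [Equiv.symm_apply_eq, sgR']
  apply Prod.ext
  · rfl
  · show w.2 = 2 * x - (2 * x - w.2)
    ring

omit [IsProbabilityMeasure P] in
theorem phR (y : ℤ) (w : ℤ × ℤ) : ((swE.trans rxE).trans
    ((trE (1 - (2 * y + 1), -0)).trans shE)) (Sum.inr w) = Sum.inl (2 * y - 1 - w.2, w.1) := by
  show Sum.inl (-2 - w.2 - (1 - (2 * y + 1)) + 1, w.1 - -0) = _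
  congr 2
  · ring
  · ring

omit [IsProbabilityMeasure P] in
theorem phR' (x : ℤ) (w : ℤ × ℤ) : ((swE.trans ryE).trans
    ((trE (1 - 0, -(2 * x + 1))).trans shE)) (Sum.inl w) = Sum.inr (w.2, 2 * x - 1 - w.1) := by
  show Sum.inr (w.2 - (1 - 0) + 1, -2 - w.1 - -(2 * x + 1)) = _
  congr 2
  · ring
  · ring

omit [IsProbabilityMeasure P] in
theorem rDr_face (ho : r.o = true) (b : Bool) (k : ℕ) : face (rDr r) (!b) k =
    ((swE.trans rxE).trans ((trE (1 - (2 * r.x.2 + 1), -0)).trans shE)) (face r b k) := by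
  rw [face_eq, face_eq, if_pos ho]
  have h1 : (rDr r).o = false := by
    show (!r.o) = false
    rw [ho]
    rfl
  rw [if_neg (by simp [h1]), phR]
  congr 2
  show (if (!b) = true then r.x.2 else r.x.2 - 1) =
    2 * r.x.2 - 1 - (if b = true then r.x.2 else r.x.2 - 1)
  cases b
  · simp only [Bool.not_false, if_true, Bool.false_eq_true, if_false]
    ring
  · simp only [Bool.not_true, Bool.false_eq_true, if_false, if_true]
    ring

omit [IsProbabilityMeasure P] in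
theorem rDr_face' (ho : r.o = false) (b : Bool) (k : ℕ) : face (rDr r) (!b) k =
    ((swE.trans ryE).trans ((trE (1 - 0, -(2 * r.x.1 + 1))).trans shE)) (face r b k) := by
  rw [face_eq, face_eq, if_neg (by simp [ho] : ¬ r.o = true)]
  have h1 : (rDr r).o = true := by
    show (!r.o) = true
    rw [ho]
    rfl
  rw [if_pos h1, phR']
  congr 2
  show (if (!b) = true then r.x.1 else r.x.1 - 1) =
    2 * r.x.1 - 1 - (if b = true then r.x.1 else r.x.1 - 1)
  cases b
  · simp only [Bool.not_false, if_true, Bool.false_eq_true, if_false]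
    ring
  · simp only [Bool.not_true, Bool.false_eq_true, if_false, if_true]
    ring

omit [IsProbabilityMeasure P] in
theorem sq_fix (ho : r.o = true) (k : ℕ) : (r.sq k).2 = r.x.2 := by
  unfold Row.sq
  rw [if_pos ho]

omit [IsProbabilityMeasure P] in
theorem sq_fix' (ho : r.o = false) (k : ℕ) : (r.sq k).1 = r.x.1 := by
  unfold Row.sq
  rw [if_neg (by simp [ho])]

omit [IsProbabilityMeasure P] in
theorem bx_R {p p' : SP} {y : ℤ} (hy : p.c.2 = y) (hc : p'.c = (p.c.2, p.c.1))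
    (h2 : p.e.2 = 1) (h1' : p'.e.1 = 1) (h2' : p'.e.2 = p.e.1) (R : ℤ) :
    p'.bx R = (p.bx R).image ((swV.trans rxV).trans ((trV (1 - (2 * y + 1), -0)).trans shV)) := by
  ext u
  rw [mem_imgE, sgR_symm, mem_bx, mem_bx, hc, h2, h1', h2', hy]
  dsimp only
  omega

omit [IsProbabilityMeasure P] in
theorem bx_R' {p p' : SP} {x : ℤ} (hx : p.c.1 = x) (hc : p'.c = (p.c.2, p.c.1))
    (h1 : p.e.1 = 1) (h2' : p'.e.2 = 1) (h1' : p'.e.1 = p.e.2) (R : ℤ) :
    p'.bx R = (p.bx R).image ((swV.trans ryV).trans ((trV (1 - 0, -(2 * x + 1))).trans shV)) := by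
  ext u
  rw [mem_imgE, sgR'_symm, mem_bx, mem_bx, hc, h1, h1', h2', hx]
  dsimp only
  omega

end rot

/-! ### half turns -/

section half

variable {r : Row}

/-- The half turn of a horizontal row. -/
noncomputable def rXr (r : Row) : Row :=
  { r with x := (2 - r.x.1 - r.L, r.x.2), c := r.c + r.j, j := -r.j, k0 := r.L - r.k0,
           s := -(r.s * r.η) }

omit [IsProbabilityMeasure P] in
theorem sgH (y : ℤ) (w : ℤ × ℤ) : ((rxV.trans ryV).trans
    ((trV (1 - 2, -(2 * y + 1))).trans shV)) w = (1 - w.1, 2 * y - w.2) := by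
  apply Prod.ext
  · show -1 - w.1 - (1 - 2) + 1 = 1 - w.1
    ring
  · show -1 - w.2 - -(2 * y + 1) = 2 * y - w.2
    ring

omit [IsProbabilityMeasure P] in
theorem sgH_symm (y : ℤ) (w : ℤ × ℤ) : ((rxV.trans ryV).trans
    ((trV (1 - 2, -(2 * y + 1))).trans shV)).symm w = (1 - w.1, 2 * y - w.2) := by
  rw [Equiv.symm_apply_eq, sgH]
  apply Prod.ext
  · show w.1 = 1 - (1 - w.1)
    ring
  · show w.2 = 2 * y - (2 * y - w.2)
    ring

omit [IsProbabilityMeasure P] in
theorem phH (y : ℤ) (w : ℤ × ℤ) : ((rxE.trans ryE).trans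
    ((trE (1 - 2, -(2 * y + 1))).trans shE)) (Sum.inr w) =
      Sum.inr (1 - w.1, 2 * y - 1 - w.2) := by
  show Sum.inr (-1 - w.1 - (1 - 2) + 1, -2 - w.2 - -(2 * y + 1)) = _
  congr 2
  · ring
  · ring

omit [IsProbabilityMeasure P] in
theorem rXr_sq (ho : r.o = true) {k : ℕ} (hk : k < r.L) :
    (rXr r).sq (r.L - 1 - k) = (1 - (r.sq k).1, (r.sq k).2) := by
  unfold Row.sq
  have h1 : (rXr r).o = true := ho
  rw [if_pos ho, if_pos h1]
  apply Prod.ext
  · show 2 - r.x.1 - r.L + ((r.L - 1 - k : ℕ) : ℤ) = 1 - (r.x.1 + k)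
    omega
  · rfl

omit [IsProbabilityMeasure P] in
theorem rXr_face (ho : r.o = true) (b : Bool) {k : ℕ} (hk : k < r.L) :
    face (rXr r) (!b) (r.L - 1 - k) =
      ((rxE.trans ryE).trans ((trE (1 - 2, -(2 * r.x.2 + 1))).trans shE)) (face r b k) := by
  rw [face_eq, face_eq, if_pos ho]
  have h1 : (rXr r).o = true := ho
  rw [if_pos h1, phH]
  congr 2
  · show 2 - r.x.1 - r.L + ((r.L - 1 - k : ℕ) : ℤ) = 1 - (r.x.1 + k)
    omega
  · show (if (!b) = true then r.x.2 else r.x.2 - 1) =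
      2 * r.x.2 - 1 - (if b = true then r.x.2 else r.x.2 - 1)
    cases b
    · simp only [Bool.not_false, if_true, Bool.false_eq_true, if_false]
      ring
    · simp only [Bool.not_true, Bool.false_eq_true, if_false, if_true]
      ring

omit [IsProbabilityMeasure P] in
theorem rXr_I (ho : r.o = true) : (rXr r).I =
    r.I.image ((rxV.trans ryV).trans ((trV (1 - 2, -(2 * r.x.2 + 1))).trans shV)) := by
  unfold Row.I
  rw [image_image]
  have hL : (rXr r).L = r.L := rfl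
  rw [hL]
  have key : ∀ k < r.L, ((rxV.trans ryV).trans ((trV (1 - 2, -(2 * r.x.2 + 1))).trans shV))
      (r.sq k) = (rXr r).sq (r.L - 1 - k) := by
    intro k hk
    rw [sgH, rXr_sq ho hk, sq_fix ho]
    apply Prod.ext
    · rfl
    · show 2 * r.x.2 - r.x.2 = r.x.2
      ring
  ext u
  simp only [mem_image, mem_range, Function.comp]
  constructor
  · rintro ⟨k, hk, rfl⟩
    refine ⟨r.L - 1 - k, by omega, ?_⟩
    rw [key _ (by omega)]
    congr 1
    omega
  · rintro ⟨k, hk, rfl⟩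
    exact ⟨r.L - 1 - k, by omega, (key k hk).symm⟩

omit [IsProbabilityMeasure P] in
theorem rXr_τ (hη : r.η = 1 ∨ r.η = -1) (hk0 : r.η = 1 ∨ r.k0 ≤ r.L) {k : ℕ} (hk : k < r.L) :
    (rXr r).τ ((rXr r).sq (r.L - 1 - k)) = -r.τ (r.sq k) := by
  rw [Row.τ_sq, Row.τ_sq]
  show -(r.s * r.η) * (if r.L - r.k0 ≤ r.L - 1 - k then r.η else 1) =
    -(r.s * if r.k0 ≤ k then r.η else 1)
  have hη2 : r.η * r.η = 1 := by rcases hη with h | h <;> rw [h] <;> norm_num
  rcases hk0 with h | h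
  · rw [h]
    split_ifs <;> ring
  · by_cases h1 : r.k0 ≤ k
    · rw [if_pos h1, if_neg (by omega)]
      ring
    · rw [if_neg h1, if_pos (by omega)]
      linear_combination -r.s * hη2

omit [IsProbabilityMeasure P] in
theorem bx_H {p p' : SP} {y : ℤ} (hy : p.c.2 = y) (hy' : p'.c.2 = y) (h1 : p'.e.1 = p.e.1)
    (hc : p'.c.1 = 2 - p.c.1 - p.e.1) (h2 : p.e.2 = 1) (h2' : p'.e.2 = 1) (R : ℤ) :
    p'.bx R = (p.bx R).image
      ((rxV.trans ryV).trans ((trV (1 - 2, -(2 * y + 1))).trans shV)) := by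
  ext u
  rw [mem_imgE, sgH_symm, mem_bx, mem_bx, hc, h1, h2, h2', hy, hy']
  dsimp only
  omega

omit [IsProbabilityMeasure P] in
theorem TT_H (ho : r.o = true) (hL : 1 ≤ r.L) (hη : r.η = 1 ∨ r.η = -1)
    (hk0 : Plain r ∨ r.k0 ≤ r.L) (R : ℤ)
    (h : SyR ((rxE.trans ryE).trans ((trE (1 - 2, -(2 * r.x.2 + 1))).trans shE))
      ((rxV.trans ryV).trans ((trV (1 - 2, -(2 * r.x.2 + 1))).trans shV)) ω ω') :
    TT θ (r.I.image ((rxV.trans ryV).trans ((trV (1 - 2, -(2 * r.x.2 + 1))).trans shV)))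
      (rXr r) R ω' = TT θ r.I r R ω := by
  classical
  set φ := (rxE.trans ryE).trans ((trE (1 - 2, -(2 * r.x.2 + 1))).trans shE) with hφ
  set σ := (rxV.trans ryV).trans ((trV (1 - 2, -(2 * r.x.2 + 1))).trans shV) with hσ
  have hk0' : r.η = 1 ∨ r.k0 ≤ r.L := hk0.imp (fun h => h.2) id
  have hη2 : r.η * r.η = 1 := by rcases hη with h | h <;> rw [h] <;> norm_num
  have hf : ∀ b, ∀ k < r.L, face (rXr r) (!b) (r.L - 1 - k) = φ (face r b k) := fun b k hk =>
    rXr_face ho b hk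
  have hf1 : ∀ b, faces (rXr r) (!b) 0 r.L = (faces r b 0 r.L).image φ := fun b => by
    have := faces_rev (hf b) (lo := 0) (hi := r.L) le_rfl
    rwa [Nat.sub_self, Nat.sub_zero] at this
  have hP : Plain (rXr r) ↔ Plain r := by
    unfold Plain
    show -r.j = 0 ∧ r.η = 1 ↔ _
    rw [neg_eq_zero]
  have hτ0 : (rXr r).τ ((rXr r).sq 0) = -r.τ (r.sq (r.L - 1)) := by
    have := rXr_τ hη hk0' (k := r.L - 1) (by omega)
    rwa [Nat.sub_self] at this
  have hτ1 : (rXr r).τ ((rXr r).sq (r.L - 1)) = -r.τ (r.sq 0) := by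
    have := rXr_τ hη hk0' (k := 0) (by omega)
    rwa [Nat.sub_zero] at this
  have hs0 : (rXr r).sq 0 = (1 - (r.sq (r.L - 1)).1, (r.sq (r.L - 1)).2) := by
    have := rXr_sq ho (k := r.L - 1) (by omega)
    rwa [Nat.sub_self] at this
  have hs1 : (rXr r).sq (r.L - 1) = (1 - (r.sq 0).1, (r.sq 0).2) := by
    have := rXr_sq ho (k := 0) (by omega)
    rwa [Nat.sub_zero] at this
  have hL' : (rXr r).L = r.L := rfl
  have ho' : (rXr r).o = true := ho
  unfold TT
  have e1 : (tipL θ (rXr r)).T (r.I.image σ) R ω' = (tipR θ r).T r.I R ω := by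
    refine T_flip h ?_ ?_ (bx_H (p := tipR θ r) (p' := tipL θ (rXr r)) (y := r.x.2) ?_ ?_ rfl ?_
      rfl rfl R) ?_ ?_
    · show faces (rXr r) (rXr r).o 0 r.L = (faces r (!r.o) 0 r.L).image φ
      rw [← hf1, ho, ho']
      rfl
    · show faces (rXr r) (!(rXr r).o) 0 r.L = (faces r r.o 0 r.L).image φ
      rw [← hf1, ho, ho']
    · exact sq_fix ho _
    · exact sq_fix ho' _
    · show ((rXr r).sq 0).1 = 2 - (r.sq (r.L - 1)).1 - 1
      rw [hs0]
      ring
    · show relw θ 4 0 ((rXr r).τ ((rXr r).sq 0)) ((rXr r).τ ((rXr r).sq 0)) =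
        relw θ (-4) 0 (r.τ (r.sq (r.L - 1))) (r.τ (r.sq (r.L - 1)))
      rw [hτ0, tip_neg]
    · show relw θ (-4) 0 ((rXr r).τ ((rXr r).sq 0)) ((rXr r).τ ((rXr r).sq 0)) =
        relw θ 4 0 (r.τ (r.sq (r.L - 1))) (r.τ (r.sq (r.L - 1)))
      rw [hτ0, tip_neg, neg_neg]
  have e2 : (tipR θ (rXr r)).T (r.I.image σ) R ω' = (tipL θ r).T r.I R ω := by
    refine T_flip h ?_ ?_ (bx_H (p := tipL θ r) (p' := tipR θ (rXr r)) (y := r.x.2) ?_ ?_ rfl ?_
      rfl rfl R) ?_ ?_
    · show faces (rXr r) (!(rXr r).o) 0 r.L = (faces r r.o 0 r.L).image φ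
      rw [← hf1, ho, ho']
    · show faces (rXr r) (rXr r).o 0 r.L = (faces r (!r.o) 0 r.L).image φ
      rw [← hf1, ho, ho']
      rfl
    · exact sq_fix ho _
    · exact sq_fix ho' _
    · show ((rXr r).sq (r.L - 1)).1 = 2 - (r.sq 0).1 - 1
      rw [hs1]
      ring
    · show relw θ 4 0 ((rXr r).τ ((rXr r).sq (r.L - 1))) ((rXr r).τ ((rXr r).sq (r.L - 1))) =
        relw θ (-4) 0 (r.τ (r.sq 0)) (r.τ (r.sq 0))
      rw [hτ1, tip_neg]
    · show relw θ (-4) 0 ((rXr r).τ ((rXr r).sq (r.L - 1))) ((rXr r).τ ((rXr r).sq (r.L - 1))) =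
        relw θ 4 0 (r.τ (r.sq 0)) (r.τ (r.sq 0))
      rw [hτ1, tip_neg, neg_neg]
  by_cases hp : Plain r
  · rw [e1, e2, if_pos hp, if_pos (hP.2 hp), mul_comm ((tipR θ r).T r.I R ω)]
  have hk : r.k0 ≤ r.L := hk0.resolve_left hp
  have htj : ∀ b, tj (rXr r) (!b) = -tj r b := by
    intro b
    unfold tj
    rw [ho, ho']
    cases b
    · norm_num
    · norm_num
  have e3 : ∀ b, (jn θ (rXr r) (!b)).T (r.I.image σ) R ω' = (jn θ r b).T r.I R ω := by
    intro b
    refine T_flip' h ?_ ?_ (bx_H (p := jn θ r b) (p' := jn θ (rXr r) (!b)) (y := r.x.2) ?_ ?_ ?_ ?_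
      ?_ ?_ R) ?_ ?_
    · show faces (rXr r) (!b) 0 (r.L - r.k0) = (faces r b r.k0 r.L).image φ
      have := faces_rev (hf b) (lo := r.k0) (hi := r.L) le_rfl
      rwa [Nat.sub_self] at this
    · show faces (rXr r) (!b) (r.L - r.k0) r.L = (faces r b 0 r.k0).image φ
      have := faces_rev (hf b) (lo := 0) (hi := r.k0) hk
      rwa [Nat.sub_zero] at this
    · exact sq_fix ho _
    · exact sq_fix ho' _
    · show (if (rXr r).o = true then ((0, 1) : ℕ × ℕ) else (1, 0)).1 =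
        (if r.o = true then ((0, 1) : ℕ × ℕ) else (1, 0)).1
      rw [ho, ho']
    · show ((rXr r).sq (r.L - r.k0)).1 = 2 - (r.sq r.k0).1 -
        (if r.o = true then ((0, 1) : ℕ × ℕ) else (1, 0)).1
      rw [if_pos ho]
      unfold Row.sq
      rw [if_pos ho, if_pos ho']
      show 2 - r.x.1 - r.L + ((r.L - r.k0 : ℕ) : ℤ) = 2 - (r.x.1 + r.k0) - 0
      omega
    · show (if r.o = true then ((0, 1) : ℕ × ℕ) else (1, 0)).2 = 1
      rw [if_pos ho]
    · show (if (rXr r).o = true then ((0, 1) : ℕ × ℕ) else (1, 0)).2 = 1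
      rw [if_pos ho']
    · show relw θ (tj (rXr r) (!b)) (- -r.j) (-(r.s * r.η)) (-(r.s * r.η) * r.η) =
        relw θ (tj r b) (-r.j) r.s (r.s * r.η)
      have h1 : -(r.s * r.η) * r.η = -r.s := by linear_combination -r.s * hη2
      rw [htj, h1, relw_neg, relw_swap]
    · show relw θ (-tj (rXr r) (!b)) (-r.j) (-(r.s * r.η)) (-(r.s * r.η) * r.η) =
        relw θ (-tj r b) r.j r.s (r.s * r.η)
      have h1 : -(r.s * r.η) * r.η = -r.s := by linear_combination -r.s * hη2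
      rw [htj, h1, relw_neg, relw_swap]
  have e4 := e3 true
  have e5 := e3 false
  simp only [Bool.not_true, Bool.not_false] at e4 e5
  rw [e1, e2, if_neg hp, if_neg fun h => hp (hP.1 h), e4, e5,
    mul_comm ((tipR θ r).T r.I R ω), mul_comm ((jn θ r false).T r.I R ω)]

end half

/-! ### the invariance -/

section final

variable {Q : ℝ}

omit [IsProbabilityMeasure P] in
theorem Zp_zero {r : Row} (hL : r.L = 0) (hk : Plain r ∨ r.k0 ≤ r.L) (n : ℕ) :
    Zp θ P n r = (2 * Real.sin θ) ^ (0 + 1) * ∫ _ω : Cfg, (1 : ℝ) ∂P := by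
  unfold Zp
  rw [hL]
  congr 1
  refine integral_congr_ae (Eventually.of_forall fun ω => ?_)
  beta_reduce
  rw [TT_zero hL hk, mul_one]
  refine fz_one fun v hv => ?_
  unfold Row.I at hv
  rw [hL] at hv
  simp at hv

omit [IsProbabilityMeasure P] in
theorem fr_not {r r' : Row} {k k' : ℕ} (h : r'.τ (r'.sq k') = -r.τ (r.sq k))
    (h1 : r.τ (r.sq k) = 1 ∨ r.τ (r.sq k) = -1) : r'.fr (r'.sq k') = !r.fr (r.sq k) := by
  unfold Row.fr
  rw [h]
  exact dec_neg h1

omit [IsProbabilityMeasure P] in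
theorem τ_cases {r : Row} (hs : r.s = 1 ∨ r.s = -1) (hη : r.η = 1 ∨ r.η = -1) (k : ℕ) :
    r.τ (r.sq k) = 1 ∨ r.τ (r.sq k) = -1 := by
  rw [Row.τ_sq]
  rcases hs with h | h <;> rcases hη with h' | h' <;> rw [h, h'] <;> split_ifs <;> norm_num

omit [IsProbabilityMeasure P] in
theorem mem_rowI {r : Row} {v : ℤ × ℤ} (h : v ∈ r.I) : ∃ k < r.L, v = r.sq k := by
  unfold Row.I at h
  obtain ⟨k, hk, rfl⟩ := mem_image.1 h
  exact ⟨k, mem_range.1 hk, rfl⟩

/-- Odd translations. -/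
theorem Zp_T (hQ : 0 < Q) (hP : IsLim Q P) {r : Row} (hs : r.s = 1 ∨ r.s = -1)
    (hη : r.η = 1 ∨ r.η = -1) (v : ℤ × ℤ) (hv : ¬ Even (v.1 + v.2)) (n : ℕ) :
    Zp θ P n (rT r v) = Zp θ P n r := by
  refine zp_flip (sym_odd hQ hP v hv) n (rT_I r v) ?_ rfl rfl fun ω ω' h => TT_T r v _ h
  intro w hw
  obtain ⟨k, hk, rfl⟩ := mem_rowI hw
  rw [sgT, ← rT_sq]
  exact fr_not (rT_τ r v k) (τ_cases hs hη k)

/-- Rotations by 90 degrees. -/
theorem Zp_D (hQ : 0 < Q) (hP : IsLim Q P) {r : Row} (hs : r.s = 1 ∨ r.s = -1)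
    (hη : r.η = 1 ∨ r.η = -1) (n : ℕ) : Zp θ P n (rDr r) = Zp θ P n r := by
  have hτ : ∀ k, (rDr r).τ ((rDr r).sq k) = -r.τ (r.sq k) := fun k => by
    rw [Row.τ_sq, Row.τ_sq]
    exact neg_mul _ _
  cases ho : r.o
  · have hsq : ∀ k, ((swV.trans ryV).trans ((trV (1 - 0, -(2 * r.x.1 + 1))).trans shV))
        (r.sq k) = (rDr r).sq k := fun k => by
      rw [sgR', rDr_sq, sq_fix' ho]
      apply Prod.ext
      · rfl
      · show 2 * r.x.1 - r.x.1 = r.x.1
        ring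
    refine zp_flip (sym_rot' hQ hP r.x.1) n ?_ ?_ rfl rfl fun ω ω' h => ?_
    · unfold Row.I
      rw [image_image]
      exact image_congr fun k _ => (hsq k).symm
    · intro w hw
      obtain ⟨k, hk, rfl⟩ := mem_rowI hw
      rw [hsq]
      exact fr_not (hτ k) (τ_cases hs hη k)
    · refine TT_gen h (rDr_face' ho) rfl rfl rfl rfl rfl rfl _ ?_ ?_ fun b => ?_
      · exact bx_R' (p := tipL θ r) (p' := tipL θ (rDr r)) (sq_fix' ho 0) (rDr_sq r 0) rfl rfl rfl _
      · exact bx_R' (p := tipR θ r) (p' := tipR θ (rDr r)) (sq_fix' ho _) (rDr_sq r _) rfl rfl rfl _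
      · have h1 : (rDr r).o = true := by
          show (!r.o) = true
          rw [ho]
          rfl
        refine bx_R' (p := jn θ r b) (p' := jn θ (rDr r) (!b)) (sq_fix' ho _) (rDr_sq r _) ?_ ?_ ?_ _
        · show (if r.o = true then ((0, 1) : ℕ × ℕ) else (1, 0)).1 = 1
          rw [ho]
          rfl
        · show (if (rDr r).o = true then ((0, 1) : ℕ × ℕ) else (1, 0)).2 = 1
          rw [if_pos h1]
        · show (if (rDr r).o = true then ((0, 1) : ℕ × ℕ) else (1, 0)).1 =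
            (if r.o = true then ((0, 1) : ℕ × ℕ) else (1, 0)).2
          rw [if_pos h1, ho]
          rfl
  · have hsq : ∀ k, ((swV.trans rxV).trans ((trV (1 - (2 * r.x.2 + 1), -0)).trans shV))
        (r.sq k) = (rDr r).sq k := fun k => by
      rw [sgR, rDr_sq, sq_fix ho]
      apply Prod.ext
      · show 2 * r.x.2 - r.x.2 = r.x.2
        ring
      · rfl
    refine zp_flip (sym_rot hQ hP r.x.2) n ?_ ?_ rfl rfl fun ω ω' h => ?_
    · unfold Row.I
      rw [image_image]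
      exact image_congr fun k _ => (hsq k).symm
    · intro w hw
      obtain ⟨k, hk, rfl⟩ := mem_rowI hw
      rw [hsq]
      exact fr_not (hτ k) (τ_cases hs hη k)
    · refine TT_gen h (rDr_face ho) rfl rfl rfl rfl rfl rfl _ ?_ ?_ fun b => ?_
      · exact bx_R (p := tipL θ r) (p' := tipL θ (rDr r)) (sq_fix ho 0) (rDr_sq r 0) rfl rfl rfl _
      · exact bx_R (p := tipR θ r) (p' := tipR θ (rDr r)) (sq_fix ho _) (rDr_sq r _) rfl rfl rfl _
      · have h1 : (rDr r).o = false := by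
          show (!r.o) = false
          rw [ho]
          rfl
        refine bx_R (p := jn θ r b) (p' := jn θ (rDr r) (!b)) (sq_fix ho _) (rDr_sq r _) ?_ ?_ ?_ _
        · show (if r.o = true then ((0, 1) : ℕ × ℕ) else (1, 0)).2 = 1
          rw [if_pos ho]
        · show (if (rDr r).o = true then ((0, 1) : ℕ × ℕ) else (1, 0)).1 = 1
          rw [h1]
          rfl
        · show (if (rDr r).o = true then ((0, 1) : ℕ × ℕ) else (1, 0)).2 =
            (if r.o = true then ((0, 1) : ℕ × ℕ) else (1, 0)).1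
          rw [h1, if_pos ho]
          rfl

/-- Half turns of horizontal rows. -/
theorem Zp_H (hQ : 0 < Q) (hP : IsLim Q P) {r : Row} (ho : r.o = true) (hs : r.s = 1 ∨ r.s = -1)
    (hη : r.η = 1 ∨ r.η = -1) (hk : Plain r ∨ r.k0 ≤ r.L) (n : ℕ) :
    Zp θ P n (rXr r) = Zp θ P n r := by
  classical
  have hP' : Plain (rXr r) ↔ Plain r := by
    unfold Plain
    show -r.j = 0 ∧ r.η = 1 ↔ _
    rw [neg_eq_zero]
  rcases Nat.eq_zero_or_pos r.L with hL | hL
  · rw [Zp_zero hL hk, Zp_zero (r := rXr r) hL]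
    rcases hk with h | h
    · exact Or.inl (hP'.2 h)
    · right
      show r.L - r.k0 ≤ r.L
      omega
  have hsq : ∀ k < r.L, ((rxV.trans ryV).trans ((trV (1 - 2, -(2 * r.x.2 + 1))).trans shV))
      (r.sq k) = (rXr r).sq (r.L - 1 - k) := by
    intro k hk
    rw [sgH, rXr_sq ho hk, sq_fix ho]
    apply Prod.ext
    · rfl
    · show 2 * r.x.2 - r.x.2 = r.x.2
      ring
  refine zp_flip (sym_half hQ hP r.x.2) n (rXr_I ho) ?_ rfl ?_ fun ω ω' h => TT_H ho hL hη hk _ h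
  · intro w hw
    obtain ⟨k, hk', rfl⟩ := mem_rowI hw
    rw [hsq k hk']
    exact fr_not (rXr_τ hη (hk.imp (fun h => h.2) id) hk') (τ_cases hs hη k)
  · unfold rad
    by_cases hp : Plain r
    · rw [if_pos hp, if_pos (hP'.2 hp)]
      rfl
    · rw [if_neg hp, if_neg fun h => hp (hP'.1 h)]
      have := hk.resolve_left hp
      show ((min (r.L - r.k0) (r.L - (r.L - r.k0)) / 8 : ℕ) : ℤ) =
        ((min r.k0 (r.L - r.k0) / 8 : ℕ) : ℤ)
      congr 2
      omega

omit [IsProbabilityMeasure P] in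
theorem RD.cs' {d : RD} {κ : ℝ} {n : ℕ} (h : d.Ok θ κ n) : Plain d.row ∨ d.row.k0 ≤ d.row.L := by
  rcases h.jn with h | h
  · exact Or.inl h
  · exact Or.inr h.2.2.1

theorem Zp_tr (hQ : 0 < Q) (hP : IsLim Q P) {d : RD} {κ : ℝ} {m : ℕ} (h : d.Ok θ κ m)
    (v : ℤ × ℤ) (n : ℕ) : Zp θ P n (d.tr v).row = Zp θ P n d.row := by
  have odd : ∀ {d : RD}, d.Ok θ κ m → ∀ v : ℤ × ℤ, ¬ Even (v.1 + v.2) →
      Zp θ P n (d.tr v).row = Zp θ P n d.row := by
    intro d h v hv
    have e : (d.tr v).row = rT d.row v := by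
      unfold RD.row RD.tr rT par
      rw [if_neg hv]
      simp
    rw [e]
    exact Zp_T hQ hP h.s (RD.eta h) v hv n
  by_cases hv : Even (v.1 + v.2)
  · have e : d.tr v = (d.tr (1, 0)).tr (v - (1, 0)) := by
      unfold RD.tr
      have h1 : d.q + v = d.q + (1, 0) + (v - (1, 0)) := by abel
      have h2 : par v = par (v - (1, 0)) * par (1, 0) := by
        rw [← par_add, sub_add_cancel]
      rw [h1, h2, mul_assoc]
    rw [e]
    have h1 : ¬ Even ((v - (1, 0)).1 + (v - (1, 0)).2) := by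
      show ¬ Even (v.1 - 1 + (v.2 - 0))
      rw [Int.even_iff] at hv ⊢
      omega
    rw [odd (h.tr (1, 0)) _ h1, odd h (1, 0) (by decide)]
  · exact odd h v hv

/-- **The normalisation of the rows is invariant.** -/
theorem zInvR_Zp (hQ : 0 < Q) (hP : IsLim Q P) : ZInvR θ (Zp θ P) where
  tr v h := Zp_tr hQ hP h v _
  rD {κ n d} h := by
    have e : d.rD.row = rDr d.row := rfl
    rw [e]
    exact Zp_D hQ hP h.s (RD.eta h) n
  rX {κ n d} h := by
    cases ho : d.o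
    · have e : d.rX = d.tr (1 - 2 * d.q.1, 0) := by
        unfold RD.rX RD.tr
        rw [if_neg (by simp [ho])]
        have h1 : ((1 - d.q.1, d.q.2) : ℤ × ℤ) = d.q + (1 - 2 * d.q.1, 0) := by
          apply Prod.ext
          · show 1 - d.q.1 = d.q.1 + (1 - 2 * d.q.1)
            ring
          · show d.q.2 = d.q.2 + 0
            ring
        have h2 : par (1 - 2 * d.q.1, 0) = -1 := by
          unfold par
          rw [if_neg]
          show ¬ Even (1 - 2 * d.q.1 + 0)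
          rw [Int.even_iff]
          omega
        rw [h1, h2, neg_one_mul]
      rw [e]
      exact Zp_tr hQ hP h _ n
    · have e : d.rX.row = rXr d.row := by
        unfold RD.rX
        rw [if_pos ho]
        rfl
      rw [e]
      exact Zp_H hQ hP ho h.s (RD.eta h) (RD.cs' h) n

end final

end Vale.Agent.P167.H680.T
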